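import Crest.Agent.R174.Mix

/-! # Row 174: adding up the costs -/

set_option autoImplicit false
set_option linter.unusedSectionVars false

namespace Crest.Agent.R174

open Matrix

/-- A point of the disc with `arg (1 - z)` close to `-π / 2`. -/
theorem core_exists_z {δ : ℝ} (h0 : 0 < δ) (h1 : δ < Real.pi / 2) :
    ∃ z : ℂ, ‖z‖ < 1 ∧ z ≠ 0 ∧ Complex.arg (1 - z) = δ - Real.pi / 2 := by
  have hpi := Real.pi_pos
  set θ : ℝ := δ - Real.pi / 2 with hθ
  have hc : 0 < Real.cos θ := Real.cos_pos_of_mem_Ioo ⟨by linarith, by linarith⟩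
  have hs : Real.sin θ < 0 := Real.sin_neg_of_neg_of_neg_pi_lt (by linarith) (by linarith)
  have hsc := Real.sin_sq_add_cos_sq θ
  refine ⟨1 - (Real.cos θ : ℂ) * (Complex.cos θ + Complex.sin θ * Complex.I), ?_, ?_, ?_⟩
  · rw [← sq_lt_one_iff₀ (norm_nonneg _), Complex.sq_norm, Complex.normSq_apply]
    simp only [Complex.sub_re, Complex.one_re, Complex.mul_re, Complex.ofReal_re, Complex.add_re,
      Complex.cos_ofReal_re, Complex.sin_ofReal_re, Complex.I_re, mul_zero, Complex.sin_ofReal_im,
      Complex.I_im, sub_self, add_zero, Complex.ofReal_im, Complex.add_im,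
      Complex.cos_ofReal_im, Complex.mul_im, mul_one, zero_add, zero_mul, sub_zero, Complex.sub_im,
      Complex.one_im, zero_sub]
    nlinarith [mul_pos hc hc]
  · intro h
    have := congrArg Complex.im h
    simp only [Complex.ofReal_re, Complex.add_re,
      Complex.sin_ofReal_re, Complex.I_re, mul_zero, Complex.sin_ofReal_im,
      Complex.I_im, add_zero, Complex.ofReal_im, Complex.add_im,
      Complex.cos_ofReal_im, Complex.mul_im, mul_one, zero_add, zero_mul, Complex.sub_im,
      Complex.one_im, zero_sub, Complex.zero_im] at this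
    nlinarith [mul_pos hc (neg_pos.2 hs)]
  · rw [sub_sub_cancel]
    exact Complex.arg_mul_cos_add_sin_mul_I hc ⟨by linarith, by linarith⟩

section Dg

variable {G B : Type*} [Group G] [Ring B] [StarRing B] [Algebra ℂ B] [StarModule ℂ B]
  {P : Type} [Fintype P] [DecidableEq P]

/-- Diagonal matrices of group elements. -/
def Dg (R : GRep G B) (a : P → G) : Matrix P P B := diagonal fun p => R.u (a p)

theorem Dg_mul (R : GRep G B) (a b : P → G) : Dg R a * Dg R b = Dg R fun p => a p * b p := by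
  simp [Dg, diagonal_mul_diagonal]

theorem Dg_one (R : GRep G B) : Dg R (fun _ : P => (1 : G)) = 1 := by
  simp [Dg]

theorem star_Dg (R : GRep G B) (a : P → G) : star (Dg R a) = Dg R fun p => (a p)⁻¹ := by
  simp only [Dg, star_eq_conjTranspose, diagonal_conjTranspose]
  congr 1
  funext p
  simp [R.star_u]

theorem Dg_mem_unitary (R : GRep G B) (a : P → G) : Dg R a ∈ unitary (Matrix P P B) := by
  constructor <;> simp [star_Dg, Dg_mul, Dg_one]

theorem Dg_mul_sc (R : GRep G B) (a b : P → G) (X : Matrix P P ℂ)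
    (h : ∀ p q, X p q ≠ 0 → a p = b q) : Dg R a * sc B X = sc B X * Dg R b := by
  ext p q
  simp only [Dg, diagonal_mul, mul_diagonal, sc_apply]
  by_cases hX : X p q = 0
  · simp [hX]
  · rw [h p q hX, Algebra.commutes]

end Dg

theorem core {G : Type*} [Group G] {n m f : ℕ} {P Q : Type} [Fintype P] [DecidableEq P] [Fintype Q]
    [DecidableEq Q] {x : P → Fin n × Bool} {d : P → G} {g : G} {c : Equiv.Perm P} {q₀ : P}
    (A : Canc x d g c q₀) (K : Mirr m f Q x d c) : g = 1 := by
  by_contra hg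
  obtain ⟨B, _, _, _, _, ⟨R⟩⟩ := exists_grep G
  have hpi := Real.pi_pos
  set L : ℝ := (Fintype.card P : ℝ) with hL
  have hA : 2 * (A.k : ℝ) + 2 ≤ L := by rw [hL]; exact_mod_cast A.k_le
  have hK : 2 * (K.k : ℝ) + 2 ≤ K.tip.card + 4 * (m * f) := by exact_mod_cast K.k_le
  have hL2 : 2 ≤ L := by have : (0 : ℝ) ≤ A.k := Nat.cast_nonneg _; linarith
  obtain ⟨z, hz, hz0, harg⟩ := core_exists_z (δ := Real.pi / (8 * L)) (by positivity) (by
    rw [div_lt_div_iff_of_pos_left hpi (by positivity) (by positivity)]; linarith)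
  set T := R.T.mat P with hT
  have hT1 : (T.τ 1).re = L := by
    have := tr_sc (P := P) R 1
    rw [map_one] at this
    rw [hT, this]; simp [hL]
  -- the twist
  set v : ℂ := z / (starRingEnd ℂ) z with hv
  have hz0' : (starRingEnd ℂ) z ≠ 0 := by simpa using hz0
  have hv1 : ‖v‖ = 1 := by
    rw [hv, norm_div, Complex.norm_conj, div_self (norm_ne_zero_iff.2 hz0)]
  have hv0 : v ≠ 0 := by intro h; simp [h] at hv1
  have hvc : (starRingEnd ℂ) v = v⁻¹ := (Complex.inv_eq_conj hv1).symm
  have hzv : z * v⁻¹ = (starRingEnd ℂ) z := by rw [hv]; field_simp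
  set lam : P → ℂ := fun p => v ^ A.idx p with hlam
  have hlam1 : ∀ p, ‖lam p‖ = 1 := fun p => by simp [hlam, hv1]
  have hlamc : ∀ p, star (lam p) * lam p = 1 := fun p => by
    rw [Complex.star_def, ← Complex.inv_eq_conj (hlam1 p), inv_mul_cancel₀]
    intro h; simpa [h] using hlam1 p
  obtain ⟨M, hMu, hMμ, hMc, hMd, hMt, hcost⟩ := exists_mix K A.π A.ππ A.x_π lam hlam1
  have hΛs : star (diagonal lam) = diagonal fun p => star (lam p) := by
    rw [star_eq_conjTranspose, diagonal_conjTranspose]; rfl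
  have hΛ : diagonal lam ∈ unitary (Matrix P P ℂ) := by
    constructor
    · rw [hΛs, diagonal_mul_diagonal]; simp only [hlamc, diagonal_one]
    · rw [hΛs, diagonal_mul_diagonal]; simp only [mul_comm (lam _), hlamc, diagonal_one]
  set J : Matrix P P ℂ := pm K.μ * M with hJ
  have hμμ : pm K.μ * pm K.μ = 1 := by rw [← pm_mul, K.μμ, pm_one]
  have hμi : K.μ⁻¹ = K.μ := inv_eq_of_mul_eq_one_right K.μμ
  have hJs : star J = J := by
    rw [hJ, star_mul, star_pm, hμi, ← hMμ, mul_assoc, hμμ, mul_one]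
  have hJu : J ∈ unitary (Matrix P P ℂ) := mul_mem (pm_mem_unitary _) hMu
  have hJJ : J * J = 1 := by have := hJu.1; rwa [hJs] at this
  -- the holonomy
  set d' : P → G := fun p => if p = q₀ then d q₀ * g⁻¹ else d p with hd'
  have hγ : ∀ p, A.γ (c p) = A.γ p * d' p := fun p => by
    by_cases hp : p = q₀
    · subst hp; simp [hd', A.γ_q, mul_assoc]
    · simp [hd', hp, A.γ_c p hp]
  set C : Matrix P P B := sc B (pm c) * Dg R fun p => (d' p)⁻¹ with hC
  have hX₁ : Cost T (Real.pi * A.k) (sc B (pm A.π) * C) := by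
    have h1 := (Cost.sc R A.sw.cost).conj (Dg_mem_unitary R fun p => (A.γ p)⁻¹)
    have h2 : Dg R (fun p => (A.γ p)⁻¹) * sc B (pm (A.π * c)) =
        sc B (pm (A.π * c)) * Dg R fun p => (A.γ p * d' p)⁻¹ := by
      refine Dg_mul_sc R _ _ _ fun p q hpq => ?_
      have : p = A.π (c q) := by by_contra h; simp [pm, h] at hpq
      rw [this, A.γ_π, hγ]
    rw [h2, star_Dg, mul_assoc, Dg_mul, pm_mul, map_mul, mul_assoc] at h1
    simpa [hC, mul_assoc] using h1
  have hX₂ := hX₁.conj (Unitary.star_mem (sc_mem_unitary (B := B) hΛ))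
  have hU := (Cost.sc R hcost).mul hX₂
  have h1 := psi_mul_le hU (one_mem _) hz
  rw [psi_one hz, hT1, mul_one] at h1
  -- the twisted cycle
  set ω : ℂ := v * star (lam (c q₀)) * lam q₀ with hω
  have hω1 : ‖ω‖ = 1 := by simp [hω, hv1, hlam1]
  set Ω : Matrix P P ℂ := diagonal fun p => if p = q₀ then ω else 1 with hΩ
  have htw : star (diagonal lam) * pm c * diagonal lam = v⁻¹ • (pm c * Ω) := by
    ext a b
    rw [hΛs, mul_diagonal, diagonal_mul, hΩ, Matrix.smul_apply, mul_diagonal]
    simp only [pm, of_apply, smul_eq_mul]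
    by_cases hab : a = c b
    · subst hab
      by_cases hb : b = q₀
      · subst hb; simp only [if_true, hω]; field_simp
      · simp only [if_true, hb, if_false, hlam, A.idx_c b hb, mul_one, Complex.star_def, map_pow, hvc]
        rw [inv_pow, pow_succ]
        field_simp
    · simp [hab]
  have hππ : pm A.π * pm A.π = 1 := by rw [← pm_mul, A.ππ, pm_one]
  have hdiag : ∀ (a : P → G) (l : P → ℂ), Dg R a * sc B (diagonal l) = sc B (diagonal l) * Dg R a :=
    fun a l => Dg_mul_sc R _ _ _ fun p q hpq => by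
      have : p = q := by by_contra h; simp [diagonal, h] at hpq
      rw [this]
  set Y : Matrix P P B := sc B J * C * sc B Ω with hY
  have hprod : sc B (J * (star (diagonal lam) * pm A.π * diagonal lam)) *
      (star (sc B (diagonal lam)) * (sc B (pm A.π) * C) * star (star (sc B (diagonal lam)))) =
      v⁻¹ • Y := by
    rw [star_star, ← sc_star, hY, hC]
    calc _ = sc B (J * (star (diagonal lam) * pm A.π * (diagonal lam * star (diagonal lam)) *
          pm A.π * pm c)) * (Dg R (fun p => (d' p)⁻¹) * sc B (diagonal lam)) := by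
          simp only [map_mul, mul_assoc]
      _ = sc B (J * (star (diagonal lam) * pm c * diagonal lam)) * Dg R fun p => (d' p)⁻¹ := by
          rw [hΛ.2, mul_one, mul_assoc (star _), hππ, mul_one, hdiag]
          simp only [map_mul, mul_assoc]
      _ = _ := by
          have e : Dg R (fun p => (d' p)⁻¹) * sc B Ω = sc B Ω * Dg R fun p => (d' p)⁻¹ := hdiag _ _
          rw [htw, mul_assoc (sc B J), mul_assoc (sc B (pm c)), e]
          simp only [map_mul (sc B), mul_assoc, map_smul, mul_smul_comm, smul_mul_assoc]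
  rw [hprod, psi_smul, hzv] at h1
  -- the mirror side
  have hcM : M * pm K.c₀ = pm K.c₀ * M := by
    ext a b
    rw [mul_pm_apply, pm_mul_apply, ← hMc (K.c₀⁻¹ a) b]
    simp
  have hμc : (K.μ * K.c₀)⁻¹ = K.μ * K.c₀ :=
    inv_eq_of_mul_eq_one_right (by rw [← mul_assoc]; exact K.μc)
  set N₀ : Matrix P P ℂ := J * pm K.c₀ with hN₀
  have hN₀' : N₀ = pm (K.μ * K.c₀) * M := by rw [hN₀, hJ, mul_assoc, hcM, pm_mul, mul_assoc]
  have hN₀s : star N₀ = N₀ := by
    rw [hN₀, star_mul, hJs, star_pm, hJ, ← mul_assoc, ← pm_mul, mul_assoc, hcM, ← mul_assoc,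
      ← pm_mul, ← hμc, _root_.mul_inv_rev, hμi]
  set I₀ : Matrix P P B := sc B N₀ * Dg R fun p => (d p)⁻¹ with hI₀
  have hI₀s : star I₀ = I₀ := by
    rw [hI₀, star_mul, ← sc_star, hN₀s, star_Dg]
    refine Dg_mul_sc R _ _ _ fun p q hpq => ?_
    rw [hN₀', pm_mul_apply, hμc] at hpq
    rw [← hMd _ _ hpq, Equiv.Perm.mul_apply, K.d_μ]
  have hI₀u : I₀ ∈ unitary (Matrix P P B) :=
    mul_mem (sc_mem_unitary (mul_mem hJu (pm_mem_unitary _))) (Dg_mem_unitary R _)
  have hI₀t : (K.tip.card : ℝ) ≤ (T.τ I₀).re := by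
    have e1 : T.τ I₀ = ∑ p, N₀ p p * R.T.τ (R.u (d p)⁻¹) := by
      change ∑ p, R.T.τ (I₀ p p) = _
      refine Finset.sum_congr rfl fun p _ => ?_
      rw [hI₀, Dg, mul_diagonal, sc_apply, ← Algebra.smul_def, map_smul, smul_eq_mul]
    have e2 : ∀ p, N₀ p p = if K.μ p = K.c₀ p then 1 else 0 := fun p => by
      rw [hN₀, mul_pm_apply, hJ, pm_mul_apply, hμi, hMt]
    rw [e1, Complex.re_sum, Finset.card_eq_sum_ones, Nat.cast_sum]
    refine le_trans (le_of_eq ?_) (Finset.sum_le_sum_of_subset_of_nonneg (Finset.subset_univ K.tip)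
      fun p _ _ => ?_)
    · refine Finset.sum_congr rfl fun p hp => ?_
      obtain ⟨h1, h2⟩ := K.tip_fix p hp
      have : K.μ p = K.c₀ p := by
        conv_lhs => rw [← h1, ← Equiv.Perm.mul_apply, K.μμ]
        rfl
      simp [e2, this, h2, R.τ_one]
    · rw [e2]
      by_cases hd : (d p)⁻¹ = 1
      · rw [hd, map_one, R.τ_one]; split_ifs <;> simp
      · rw [R.τ_u _ hd]; simp
  have hcI : Cost T (Real.pi * (L - K.tip.card) / 2) I₀ := by
    refine (cost_invol hI₀s (by have := hI₀u.1; rwa [hI₀s] at this)).mono ?_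
    rw [hT1]
    nlinarith
  have hcτ : Cost T (Real.pi * K.k) (sc B (J * star (pm (c * K.c₀⁻¹)) * star J)) := by
    refine Cost.sc R (Cost.conj ?_ hJu)
    rw [star_pm]
    have : ∀ {k : ℕ} {σ : Equiv.Perm P}, Sw k σ → Cost (trC.mat P) (Real.pi * k) (pm σ⁻¹) := by
      intro k σ h
      induction h with
      | one k => rw [inv_one]; exact (Sw.one k).cost
      | step x y _ ih =>
        rw [_root_.mul_inv_rev, pm_mul, Equiv.swap_inv]
        have := ih.mul (Sw.step x y (Sw.one 0)).cost
        rw [mul_one] at this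
        refine this.mono (le_of_eq ?_)
        push_cast; ring
    exact this K.sw
  set g' : G := (d q₀ * g * (d q₀)⁻¹)⁻¹ with hg'
  have hg'1 : g' ≠ 1 := by
    intro h
    apply hg
    rw [hg', inv_eq_one, mul_inv_eq_one, mul_eq_left] at h
    exact h
  set D : Matrix P P B := diagonal fun p => if p = q₀ then star ω • R.u g' else 1 with hD
  have hD' : D = star (Dg R (fun p => d p * (d' p)⁻¹) * sc B Ω) := by
    rw [star_mul, star_Dg, ← sc_star]
    ext a b
    rw [Dg, mul_diagonal, sc_apply, hD, hΩ, star_eq_conjTranspose, diagonal_conjTranspose]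
    by_cases hab : a = b
    · subst hab
      by_cases ha : a = q₀
      · subst ha
        simp [hd', hg', Algebra.smul_def, mul_assoc]
      · simp [hd', ha]
    · simp [hab]
  have hΩu : Ω ∈ unitary (Matrix P P ℂ) := by
    have hωc : star ω * ω = 1 := by
      rw [Complex.star_def, ← Complex.inv_eq_conj hω1, inv_mul_cancel₀]
      intro h; simp [h] at hω1
    have : star Ω = diagonal fun p => if p = q₀ then star ω else 1 := by
      rw [hΩ, star_eq_conjTranspose, diagonal_conjTranspose]
      congr 1; funext p; by_cases hp : p = q₀ <;> simp [hp]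
    constructor
    · rw [this, hΩ, diagonal_mul_diagonal, ← diagonal_one]
      congr 1; funext p
      by_cases hp : p = q₀
      · simp only [hp, if_true, hωc]
      · simp [hp]
    · rw [this, hΩ, diagonal_mul_diagonal, ← diagonal_one]
      congr 1; funext p
      by_cases hp : p = q₀
      · simp only [hp, if_true, mul_comm ω, hωc]
      · simp [hp]
  have hDu : D ∈ unitary (Matrix P P B) := by
    rw [hD']
    exact Unitary.star_mem (mul_mem (Dg_mem_unitary R _) (sc_mem_unitary hΩu))
  have hYs : star Y = D * (I₀ * sc B (J * star (pm (c * K.c₀⁻¹)) * star J)) := by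
    have : Y = star (sc B (J * star (pm (c * K.c₀⁻¹)) * star J)) * I₀ *
        (Dg R (fun p => d p * (d' p)⁻¹) * sc B Ω) := by
      rw [← sc_star, star_mul (J * _), star_mul J, star_star, star_star, hJs, hI₀, hY, hC, hN₀]
      calc _ = sc B (J * (pm (c * K.c₀⁻¹) * (J * J) * pm K.c₀)) *
            (Dg R (fun p => (d p)⁻¹) * Dg R (fun p => d p * (d' p)⁻¹)) * sc B Ω := by
            rw [hJJ, mul_one, ← pm_mul, Dg_mul]
            simp [mul_assoc]
        _ = _ := by simp only [map_mul, mul_assoc]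
    rw [this, star_mul, ← hD', star_mul, star_star, hI₀s]
  have h2 := psi_mul_le (hcI.mul hcτ) hDu hz
  rw [psi_comm, ← hYs, psi_star] at h2
  have h3 := psi_diag_le R q₀ hg'1 (ω := star ω) (by simpa using hω1) hz
  rw [← hD, ← hT, ← hL] at h3
  rw [harg] at h1 h3
  have h4 : L * (Real.pi / (8 * L)) = Real.pi / 8 := by field_simp
  have h5 : 0 < Real.pi / (8 * L) := by positivity
  nlinarith

end Crest.Agent.R174
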