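import Mathlib

/-!
# Row 174 (S0262, nonsingular systems of equations over arbitrary groups): shared definitions

Overview.  Write `g = ∏ h_t w_i^{±1} h_t⁻¹` as one long word with `L` letters (positions `P`).
Work in `Matrix P P ℂ[G]` with its trace and the phase `psi z U = Im τ log (1 - z U)`.
* `Trace.lean`: `2 psi z (U V) ≤ 2 psi z V + c` when `U` is a product of positive rotations of total
  angle `c` (`Cost c U`).
* `Match.lean`: the cancellation pairing `π` of the letters (`Canc`).
* `Lolli.lean`: the mirror pairing `μ` (`Mirr`); faces are mixed by scalar unitaries `r i`.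
* `Deg.lean`: a degree theorem for unitary groups gives `r` with a large fixed space.
* `Core.lean`: adding up the costs gives `g = 1`.
-/

set_option autoImplicit false

namespace Crest.Agent.R174

open Matrix

/-! ## Traces, rotations, phase -/

/-- A positive trace on a complex star algebra. -/
structure Tr (A : Type*) [Ring A] [StarRing A] [Algebra ℂ A] where
  τ : A →ₗ[ℂ] ℂ
  comm : ∀ x y, τ (x * y) = τ (y * x)
  star' : ∀ x, τ (star x) = (starRingEnd ℂ) (τ x)
  pos : ∀ x, 0 ≤ (τ (star x * x)).re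

/-- `exp (i s p)` for a projection `p`. -/
noncomputable def rot {A : Type*} [Ring A] [Algebra ℂ A] (s : ℝ) (p : A) : A :=
  1 + (Complex.exp (s * Complex.I) - 1) • p

/-- `U` is a product of positive rotations of total angle at most `c`. -/
inductive Cost {A : Type*} [Ring A] [StarRing A] [Algebra ℂ A] (T : Tr A) : ℝ → A → Prop
  | one {c : ℝ} : 0 ≤ c → Cost T c 1
  | step {s c : ℝ} {p U : A} : 0 ≤ s → star p = p → p * p = p → Cost T c U →
      Cost T (s * (T.τ p).re + c) (rot s p * U)

/-- The phase `Im τ log (1 - z U)`. -/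
noncomputable def psi {A : Type*} [Ring A] [StarRing A] [Algebra ℂ A] (T : Tr A) (z : ℂ) (U : A) :
    ℝ :=
  -∑' n : ℕ, (z ^ n * T.τ (U ^ n)).im / n

/-- The trace on matrices. -/
noncomputable def Tr.mat {B : Type*} [Ring B] [StarRing B] [Algebra ℂ B] (T : Tr B) (P : Type)
    [Fintype P] [DecidableEq P] : Tr (Matrix P P B) where
  τ :=
    { toFun := fun X => ∑ p, T.τ (X p p)
      map_add' := fun X Y => by simp [Finset.sum_add_distrib]
      map_smul' := fun c X => by simp [Finset.mul_sum] }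
  comm X Y := by
    simp only [LinearMap.coe_mk, AddHom.coe_mk, mul_apply, map_sum]
    rw [Finset.sum_comm]
    exact Finset.sum_congr rfl fun _ _ => Finset.sum_congr rfl fun _ _ => T.comm _ _
  star' X := by simp [star_apply, T.star']
  pos X := by
    simp only [LinearMap.coe_mk, AddHom.coe_mk, mul_apply, map_sum, star_apply, Complex.re_sum]
    exact Finset.sum_nonneg fun _ _ => Finset.sum_nonneg fun _ _ => T.pos _

/-- A group inside a tracial star algebra, with the canonical trace. -/
structure GRep (G : Type*) [Group G] (B : Type*) [Ring B] [StarRing B] [Algebra ℂ B] where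
  T : Tr B
  u : G →* B
  star_u : ∀ g, star (u g) = u g⁻¹
  τ_one : T.τ 1 = 1
  τ_u : ∀ g, g ≠ 1 → T.τ (u g) = 0

/-- Scalar matrices as matrices over `B`. -/
noncomputable def sc (B : Type*) [Ring B] [Algebra ℂ B] {P : Type} [Fintype P] [DecidableEq P] :
    Matrix P P ℂ →ₐ[ℂ] Matrix P P B :=
  (Algebra.ofId ℂ B).mapMatrix

/-! ## Permutations -/

/-- The permutation matrix `e_y ↦ e_(σ y)`. -/
def pm {P : Type} [DecidableEq P] (σ : Equiv.Perm P) : Matrix P P ℂ :=
  Matrix.of fun x y => if x = σ y then 1 else 0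

/-- A product of at most `k` transpositions. -/
inductive Sw {P : Type} [DecidableEq P] : ℕ → Equiv.Perm P → Prop
  | one (k : ℕ) : Sw k 1
  | step {k : ℕ} {σ : Equiv.Perm P} (x y : P) : Sw k σ → Sw (k + 1) (Equiv.swap x y * σ)

/-! ## Words -/

/-- The inverse letter. -/
def linv {n : ℕ} (x : Fin n × Bool) : Fin n × Bool := (x.1, !x.2)

/-- The sign of a letter. -/
def sgn (b : Bool) : ℤ := if b then 1 else -1

/-- The value of a word whose positions carry a letter followed by a coefficient. -/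
def evl {G : Type*} [Group G] {n : ℕ} {P : Type*} (x : P → Fin n × Bool) (d : P → G) (l : List P) :
    Monoid.Coprod G (FreeGroup (Fin n)) :=
  (l.map fun p => Monoid.Coprod.inr (FreeGroup.mk [x p]) * Monoid.Coprod.inl (d p)).prod

/-- The exponent sum of the `j`-th letter, as in the statement. -/
def expo {G : Type*} [Group G] {n : ℕ} (y : Monoid.Coprod G (FreeGroup (Fin n))) (j : Fin n) : ℤ :=
  Multiplicative.toAdd
    (Monoid.Coprod.lift (1 : G →* Multiplicative (Fin n → ℤ))
      (FreeGroup.lift fun k => Multiplicative.ofAdd (Pi.single k 1)) y) j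

/-- Cancellation data of a cyclic word (successor `c`, last position `q₀`) with value `g`. -/
structure Canc {G : Type*} [Group G] {n : ℕ} {P : Type} [Fintype P] [DecidableEq P]
    (x : P → Fin n × Bool) (d : P → G) (g : G) (c : Equiv.Perm P) (q₀ : P) where
  π : Equiv.Perm P
  γ : P → G
  idx : P → ℕ
  k : ℕ
  ππ : π * π = 1
  x_π : ∀ p, x (π p) = linv (x p)
  γ_π : ∀ p, γ (π p) = γ p
  γ_c : ∀ p, p ≠ q₀ → γ (c p) = γ p * d p
  γ_q : γ (c q₀) = γ q₀ * d q₀ * g⁻¹
  idx_c : ∀ p, p ≠ q₀ → idx (c p) = idx p + 1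
  sw : Sw k (π * c)
  k_le : 2 * k + 2 ≤ Fintype.card P

/-- Mirror data of a cyclic word: `c₀` is the successor inside the polygons, `μ` the mirror map,
`ι (q, b, a)` is side `q` of the `a`-th face of sign `b` of the relator `rel q`. -/
structure Mirr {G : Type*} [Group G] {n : ℕ} {P : Type} [Fintype P] [DecidableEq P] (m f : ℕ)
    (Q : Type) [Fintype Q] [DecidableEq Q]
    (x : P → Fin n × Bool) (d : P → G) (c : Equiv.Perm P) where
  c₀ : Equiv.Perm P
  μ : Equiv.Perm P
  k : ℕ
  tip : Finset P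
  ι : Q × Bool × Fin f ↪ P
  ν : Equiv.Perm Q
  rel : Q → Fin m
  lab : Q → G
  xq : Q → Fin n × Bool
  col : Fin m ↪ Fin n
  q₁ : Q
  μμ : μ * μ = 1
  x_μ : ∀ p, x (μ p) = linv (x p)
  μc : μ * c₀ * μ * c₀ = 1
  d_μ : ∀ p, d (μ (c₀ p)) = (d p)⁻¹
  sw : Sw k (c * c₀⁻¹)
  tip_fix : ∀ p ∈ tip, μ (c₀ p) = p ∧ d p = 1
  rel_ν : ∀ q, rel (ν q) = rel q
  μ_ι : ∀ q b a, μ (ι (q, b, a)) = ι (q, !b, a)
  c_ι : ∀ q a, c₀ (ι (q, true, a)) = ι (ν q, true, a)
  d_ι : ∀ q a, d (ι (q, true, a)) = lab q
  x_ι : ∀ q a, x (ι (q, true, a)) = xq q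
  k_le : 2 * k + 2 ≤ tip.card + 4 * (m * f)
  det_ne : (Matrix.of fun k i : Fin m =>
    ∑ q, if rel q = i ∧ (xq q).1 = col k then sgn (xq q).2 else 0).det ≠ 0

/-! ## Block unitaries -/

/-- The 0/1 matrix of a map. -/
def emb {F N : Type} [DecidableEq N] (j : F → N) : Matrix N F ℂ :=
  Matrix.of fun y a => if y = j a then 1 else 0

/-- `a` on the coordinates `j`, the identity elsewhere. -/
noncomputable def ext {F N : Type} [Fintype F] [DecidableEq F] [DecidableEq N] (j : F → N)
    (a : Matrix F F ℂ) : Matrix N N ℂ :=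
  1 + emb j * (a - 1) * (emb j)ᴴ

/-- `r` or its adjoint. -/
def sg {F : Type} (b : Bool) (r : Matrix F F ℂ) : Matrix F F ℂ := if b then r else rᴴ

end Crest.Agent.R174
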