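import Crest.Agent.R174.Std

/-! # Row 174: the degree theorem for block unitaries -/

set_option autoImplicit false
set_option linter.unusedSectionVars false

namespace Crest.Agent.R174

open Matrix

section ext
variable {F N : Type} [Fintype F] [DecidableEq F] [Fintype N] [DecidableEq N]

theorem deg_emb_ct_mul {F' : Type} (j : F → N) (j' : F' → N) (a : F) (b : F') :
    ((emb j)ᴴ * emb j') a b = if j a = j' b then 1 else 0 := by
  simp only [emb, mul_apply, conjTranspose_apply, of_apply]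
  rw [Finset.sum_eq_single (j a)]
  · simp
  · intro y _ hy
    simp [hy]
  · simp

theorem emb_iso {j : F → N} (hj : Function.Injective j) : (emb j)ᴴ * emb j = 1 := by
  ext a b
  rw [deg_emb_ct_mul, one_apply]
  simp [hj.eq_iff]

theorem emb_orth {F' : Type} {j : F → N} {j' : F' → N} (h : ∀ a b, j a ≠ j' b) :
    (emb j)ᴴ * emb j' = 0 := by
  ext a b
  rw [deg_emb_ct_mul]
  simp [h a b]

theorem pm_mul_emb (σ : Equiv.Perm N) (j : F → N) : pm σ * emb j = emb fun a => σ (j a) := by
  ext y a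
  simp only [pm, emb, mul_apply, of_apply]
  rw [Finset.sum_eq_single (j a)]
  · simp
  · intro z _ hz
    simp [hz]
  · simp

theorem ext_one (j : F → N) : ext j (1 : Matrix F F ℂ) = 1 := by
  simp [ext]

theorem ext_mul {j : F → N} (hj : Function.Injective j) (a b : Matrix F F ℂ) :
    ext j (a * b) = ext j a * ext j b := by
  have h := emb_iso hj
  have h2 : emb j * (a - 1) * (emb j)ᴴ * (emb j * (b - 1) * (emb j)ᴴ) =
      emb j * ((a - 1) * (b - 1)) * (emb j)ᴴ := by
    calc emb j * (a - 1) * (emb j)ᴴ * (emb j * (b - 1) * (emb j)ᴴ)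
        = emb j * (a - 1) * ((emb j)ᴴ * emb j) * (b - 1) * (emb j)ᴴ := by
          simp only [Matrix.mul_assoc]
      _ = emb j * ((a - 1) * (b - 1)) * (emb j)ᴴ := by
          rw [h, Matrix.mul_one, Matrix.mul_assoc (emb j) (a - 1)]
  have h3 : a * b - 1 = (a - 1) + (b - 1) + (a - 1) * (b - 1) := by noncomm_ring
  simp only [ext]
  rw [add_mul, mul_add, mul_add, h2, h3, Matrix.mul_add, Matrix.mul_add, Matrix.add_mul,
    Matrix.add_mul, one_mul, one_mul, mul_one]
  abel

theorem ext_ct (j : F → N) (a : Matrix F F ℂ) : (ext j a)ᴴ = ext j aᴴ := by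
  simp [ext, conjTranspose_mul, Matrix.mul_assoc]

theorem ext_mem_unitary {j : F → N} (hj : Function.Injective j) {a : Matrix F F ℂ}
    (ha : a ∈ unitaryGroup F ℂ) : ext j a ∈ unitaryGroup N ℂ := by
  rw [mem_unitaryGroup_iff'] at ha ⊢
  rw [star_eq_conjTranspose] at ha ⊢
  rw [ext_ct, ← ext_mul hj, ha, ext_one]

theorem deg_pm_mul_ct (σ : Equiv.Perm N) : pm σ * (pm σ)ᴴ = 1 := by
  have h := pm_mem_unitary σ
  rw [← star_eq_conjTranspose]
  exact (Unitary.mem_iff.1 h).2

theorem pm_ext (σ : Equiv.Perm N) (j : F → N) (a : Matrix F F ℂ) :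
    pm σ * ext j a * (pm σ)ᴴ = ext (fun b => σ (j b)) a := by
  simp only [ext]
  rw [← pm_mul_emb, conjTranspose_mul, mul_add, add_mul, mul_one, deg_pm_mul_ct]
  simp only [Matrix.mul_assoc]

end ext

section words
variable {m : ℕ} {N : Type} [Fintype N] [DecidableEq N]

/-- The formal inverse of a letter. -/
def degInv : Lt m N → Lt m N
  | .c b => .c bᴴ
  | .v j ε => .v j (!ε)

/-- A word or its formal inverse. -/
def degSg (ε : Bool) (w : List (Lt m N)) : List (Lt m N) :=
  if ε then w else (w.map degInv).reverse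

/-- The word `(t k)^n`. -/
def degPow (k : Fin m) (n : ℤ) : List (Lt m N) :=
  List.replicate n.natAbs (.v (some (k, 0)) (decide (0 ≤ n)))

/-- The word `∏ (t k)^(a k)`. -/
def degRho (a : Fin m → ℤ) : List (Lt m N) :=
  (List.finRange m).flatMap fun k => degPow k (a k)

theorem deg_val_nil (x : Ix m → Matrix N N ℂ) : val x [] = 1 := by simp [val]

theorem deg_val_cons (x : Ix m → Matrix N N ℂ) (l : Lt m N) (w : List (Lt m N)) :
    val x (l :: w) = l.val x * val x w := by simp [val]

theorem deg_val_append (x : Ix m → Matrix N N ℂ) (w w' : List (Lt m N)) :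
    val x (w ++ w') = val x w * val x w' := by simp [val]

theorem deg_val_inv (x : Ix m → Matrix N N ℂ) (l : Lt m N) : (degInv l).val x = (l.val x)ᴴ := by
  cases l with
  | c b => rfl
  | v j ε => cases ε <;> simp [degInv, Lt.val, sg]

theorem deg_val_sg (x : Ix m → Matrix N N ℂ) (ε : Bool) (w : List (Lt m N)) :
    val x (degSg ε w) = sg ε (val x w) := by
  cases ε with
  | true => simp [degSg, sg]
  | false =>
    simp only [degSg, sg, Bool.false_eq_true, if_false]
    induction w with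
    | nil => simp [val]
    | cons l w ih =>
      rw [List.map_cons, List.reverse_cons, deg_val_append, ih, deg_val_cons, deg_val_cons,
        deg_val_nil, mul_one, deg_val_inv, conjTranspose_mul]

theorem deg_ex_inv (i : Fin m) (l : Lt m N) : (degInv l).ex i = -l.ex i := by
  cases l with
  | c b => simp [degInv, Lt.ex]
  | v j ε =>
    simp only [degInv, Lt.ex]
    split_ifs
    · cases ε <;> simp [sgn]
    · simp

theorem deg_ex_sg (i : Fin m) (ε : Bool) (w : List (Lt m N)) :
    ((degSg ε w).map (Lt.ex i)).sum = sgn ε * (w.map (Lt.ex i)).sum := by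
  cases ε with
  | true => simp [degSg, sgn]
  | false =>
    simp only [degSg, sgn, Bool.false_eq_true, if_false]
    induction w with
    | nil => simp
    | cons l w ih =>
      rw [List.map_cons, List.reverse_cons, List.map_append, List.sum_append, ih]
      simp [deg_ex_inv]

theorem deg_ex_pow (i k : Fin m) (n : ℤ) :
    (((degPow k n : List (Lt m N))).map (Lt.ex i)).sum = if k = i then n else 0 := by
  simp only [degPow, List.map_replicate, List.sum_replicate, Lt.ex, Option.some.injEq,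
    Prod.mk.injEq, and_true]
  split_ifs with h
  · by_cases hn : 0 ≤ n
    · simp [sgn, hn, abs_of_nonneg hn]
    · simp [sgn, hn, abs_of_neg (not_le.1 hn)]
  · simp

theorem deg_sum_flatMap {α β : Type*} (l : List α) (g : α → List β) (e : β → ℤ) :
    ((l.flatMap g).map e).sum = (l.map fun a => ((g a).map e).sum).sum := by
  induction l with
  | nil => simp
  | cons a l ih => simp [List.flatMap_cons, ih]

theorem deg_ex_rho (i : Fin m) (a : Fin m → ℤ) :
    (((degRho a : List (Lt m N))).map (Lt.ex i)).sum = a i := by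
  rw [degRho, deg_sum_flatMap]
  simp only [deg_ex_pow]
  rw [← List.ofFn_eq_map, List.sum_ofFn]
  simp

theorem deg_mem_rho {a : Fin m → ℤ} {l : Lt m N} (h : l ∈ (degRho a : List (Lt m N))) :
    ∃ k ε, l = .v (some (k, 0)) ε := by
  simp only [degRho, List.mem_flatMap, degPow, List.mem_replicate] at h
  obtain ⟨k, -, -, h⟩ := h
  exact ⟨k, _, h⟩

theorem deg_mem_sg_rho {a : Fin m → ℤ} {ε : Bool} {l : Lt m N}
    (h : l ∈ degSg ε (degRho a : List (Lt m N))) : l.Adm₀ := by
  cases ε with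
  | true =>
    obtain ⟨k, ε, rfl⟩ := deg_mem_rho (by simpa [degSg] using h)
    exact ⟨k, rfl⟩
  | false =>
    simp only [degSg, Bool.false_eq_true, if_false, List.mem_reverse, List.mem_map] at h
    obtain ⟨l', h, rfl⟩ := h
    obtain ⟨k, ε, rfl⟩ := deg_mem_rho h
    exact ⟨k, rfl⟩

theorem deg_val_flatMap {α : Type*} (x : Ix m → Matrix N N ℂ) (l : List α)
    (g : α → List (Lt m N)) : val x (l.flatMap g) = (l.map fun a => val x (g a)).prod := by
  induction l with
  | nil => simp [val]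
  | cons a l ih => simp [List.flatMap_cons, deg_val_append, ih]

theorem deg_fix_ct {T W : Matrix N N ℂ} (hT : T ∈ unitaryGroup N ℂ) (h : T * W = W) :
    Tᴴ * W = W := by
  have h1 : Tᴴ * T = 1 := by
    rw [← star_eq_conjTranspose]; exact mem_unitaryGroup_iff'.1 hT
  conv_lhs => rw [← h, ← mul_assoc, h1, one_mul]

theorem deg_val_t {E : Matrix N N ℂ} (x : GG m E) {w : List (Lt m N)}
    (hw : ∀ l ∈ w, ∃ k ε, l = .v (some (k, 0)) ε) :
    val (pt 1 x) w ∈ unitaryGroup N ℂ ∧ val (pt 1 x) w * (1 - E) = 1 - E := by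
  induction w with
  | nil => simp [val, one_mem]
  | cons l w ih =>
    obtain ⟨h1, h2⟩ := ih fun l hl => hw l (List.mem_cons_of_mem _ hl)
    obtain ⟨k, ε, rfl⟩ := hw l List.mem_cons_self
    have hu : (x.1 (k, 0) : Matrix N N ℂ) ∈ unitaryGroup N ℂ := (x.1 (k, 0)).2
    have hf : (x.1 (k, 0) : Matrix N N ℂ) * (1 - E) = 1 - E := (x.2 k).1
    rw [deg_val_cons, mul_assoc, h2]
    cases ε with
    | true => exact ⟨mul_mem hu h1, hf⟩
    | false =>
      refine ⟨mul_mem ?_ h1, deg_fix_ct hu hf⟩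
      exact Unitary.star_mem hu

theorem deg_block {F : Type} [Fintype F] [DecidableEq F] {j : F → N} (hj : Function.Injective j)
    {T : Matrix N N ℂ} (hT : T ∈ unitaryGroup N ℂ)
    (h : T * (1 - emb j * (emb j)ᴴ) = 1 - emb j * (emb j)ᴴ) :
    (emb j)ᴴ * T * emb j ∈ unitaryGroup F ℂ ∧ T = ext j ((emb j)ᴴ * T * emb j) := by
  have hJ := emb_iso hj
  have h1 : Tᴴ * T = 1 := by
    rw [← star_eq_conjTranspose]; exact mem_unitaryGroup_iff'.1 hT
  have h2 : (1 - emb j * (emb j)ᴴ) * T = 1 - emb j * (emb j)ᴴ := by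
    have := congrArg conjTranspose (deg_fix_ct hT h)
    simpa [conjTranspose_mul] using this
  have h3 : emb j * (emb j)ᴴ * T * emb j = T * emb j := by
    have h4 : (1 - emb j * (emb j)ᴴ) * T * emb j = 0 := by
      rw [h2, Matrix.sub_mul, Matrix.one_mul, Matrix.mul_assoc, hJ, Matrix.mul_one, sub_self]
    rw [sub_mul, one_mul, Matrix.sub_mul, sub_eq_zero] at h4
    exact h4.symm
  constructor
  · rw [mem_unitaryGroup_iff', star_eq_conjTranspose]
    calc ((emb j)ᴴ * T * emb j)ᴴ * ((emb j)ᴴ * T * emb j)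
        = (emb j)ᴴ * Tᴴ * (emb j * (emb j)ᴴ * T * emb j) := by
          simp only [conjTranspose_mul, conjTranspose_conjTranspose, Matrix.mul_assoc]
      _ = (emb j)ᴴ * (Tᴴ * T) * emb j := by rw [h3]; simp only [Matrix.mul_assoc]
      _ = 1 := by rw [h1, Matrix.mul_one, hJ]
  · have h5 : emb j * ((emb j)ᴴ * T * emb j - 1) * (emb j)ᴴ =
        T * (emb j * (emb j)ᴴ) - emb j * (emb j)ᴴ := by
      rw [Matrix.mul_sub, Matrix.mul_one, Matrix.sub_mul, ← Matrix.mul_assoc, ← Matrix.mul_assoc,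
        h3, Matrix.mul_assoc]
    rw [ext, h5]
    rw [mul_sub, mul_one] at h
    rw [← add_sub_assoc, add_sub_right_comm, ← h]
    abel

theorem deg_sg_ext {F : Type} [Fintype F] [DecidableEq F] (j : F → N) (ε : Bool)
    (r : Matrix F F ℂ) : sg ε (ext j r) = ext j (sg ε r) := by
  cases ε <;> simp [sg, ext_ct]

theorem deg_sum_swap {α : Type*} (l : List α) (e : α → Fin m) (s : α → ℤ) (a : Fin m → ℤ) :
    (l.map fun y => s y * a (e y)).sum =
      ∑ i, (l.map fun y => if e y = i then s y else 0).sum * a i := by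
  induction l with
  | nil => simp
  | cons y l ih =>
    simp only [List.map_cons, List.sum_cons, ih, add_mul, Finset.sum_add_distrib]
    simp

end words

/-- Let `E = emb ι₀ * (emb ι₀)†`, `σ` a permutation with `σ ∘ ι₀ = ι₁`
(`Equiv.Perm.exists_extending_pair`), `X` the exponent matrix, `A = det X • adjugate X`, so
`X * A = d • 1` with `d = (det X)² > 0`.  Let `ρ i` be the word `∏_k (t k)^(A i k)` and replace each
letter `(j, i, ε)` by `pm σ_j`, `ρ i` or its formal inverse, `pm σ_j⁻¹` where `σ_j ∘ ι₀ = j`; append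
`β k`.  `exists_sol` gives `x`; `T i = val (ρ i)` is unitary and fixes `1 - E`, so
`T i = ext ι₀ (r i)` with `r i = (emb ι₀)† (T i) (emb ι₀)` unitary.  From `Y y† u y = 1` and
`u E = E` we get `Y V = V` for `V = y† emb ι₀`. -/
theorem deg {N : Type} [Fintype N] [DecidableEq N] {m f : ℕ} (ι₀ ι₁ : Fin f ↪ N)
    (hι : ∀ a b, ι₀ a ≠ ι₁ b) (w : Fin m → List ((Fin f ↪ N) × Fin m × Bool))
    (β : Fin m → Matrix N N ℂ) (hβ : ∀ k, β k ∈ unitaryGroup N ℂ)
    (hdet : (Matrix.of fun k i : Fin m =>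
      ((w k).map fun l => if l.2.1 = i then sgn l.2.2 else 0).sum).det ≠ 0) :
    ∃ r : Fin m → Matrix (Fin f) (Fin f) ℂ, (∀ i, r i ∈ unitaryGroup (Fin f) ℂ) ∧
      ∀ k, ∃ V : Matrix N (Fin f) ℂ, Vᴴ * V = 1 ∧
        ((w k).map fun l => ext l.1 (sg l.2.2 (r l.2.1))).prod * β k * V = V := by
  set X : Matrix (Fin m) (Fin m) ℤ := Matrix.of fun k i : Fin m =>
      ((w k).map fun l => if l.2.1 = i then sgn l.2.2 else 0).sum with hX
  set A : Matrix (Fin m) (Fin m) ℤ := X.det • X.adjugate with hA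
  have hXA : X * A = (X.det * X.det) • (1 : Matrix (Fin m) (Fin m) ℤ) := by
    rw [hA, Matrix.mul_smul, mul_adjugate, smul_smul]
  have hs : ∀ j : Fin f ↪ N, ∃ σ : Equiv.Perm N, ∀ a, σ (ι₀ a) = j a := fun j =>
    Equiv.Perm.exists_extending_pair ι₀ j ι₀.injective j.injective
  choose s hs using hs
  set J : Matrix N (Fin f) ℂ := emb ι₀ with hJdef
  have hJ : Jᴴ * J = 1 := emb_iso ι₀.injective
  set E : Matrix N N ℂ := J * Jᴴ with hEdef
  have hE : Eᴴ = E := by simp [hEdef, conjTranspose_mul]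
  have hEJ : E * J = J := by rw [hEdef, Matrix.mul_assoc, hJ, Matrix.mul_one]
  have hEE : E * E = E := by
    conv_lhs => rw [hEdef, ← Matrix.mul_assoc, ← hEdef, hEJ]
  have hσE : E * pm (s ι₁) * E = 0 := by
    have h0 : Jᴴ * (pm (s ι₁) * J) = 0 := by
      rw [hJdef, pm_mul_emb]
      exact emb_orth fun a b => by rw [hs]; exact hι a b
    calc E * pm (s ι₁) * E = J * (Jᴴ * (pm (s ι₁) * J)) * Jᴴ := by
          simp only [hEdef, Matrix.mul_assoc]
      _ = 0 := by rw [h0, Matrix.mul_zero, Matrix.zero_mul]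
  let lw : (Fin f ↪ N) × Fin m × Bool → List (Lt m N) := fun l =>
    .c (pm (s l.1)) :: (degSg l.2.2 (degRho (A l.2.1)) ++ [.c (pm (s l.1))ᴴ])
  let ws : Fin m → List (Lt m N) := fun k => (w k).flatMap lw ++ [.c (β k)]
  have hws : ∀ k, ∀ l ∈ ws k, l.Adm₀ := by
    intro k l hl
    simp only [ws, lw, List.mem_append, List.mem_flatMap, List.mem_cons, List.not_mem_nil,
      or_false] at hl
    rcases hl with ⟨y, -, rfl | hl | rfl⟩ | rfl
    · exact pm_mem_unitary _
    · exact deg_mem_sg_rho hl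
    · exact Unitary.star_mem (pm_mem_unitary _)
    · exact hβ k
  have hd : 0 < (X.det * X.det).toNat := by
    have := mul_self_pos.2 hdet
    omega
  have hex : ∀ k i, ((ws k).map (Lt.ex i)).sum =
      if k = i then (((X.det * X.det).toNat : ℕ) : ℤ) else 0 := by
    intro k i
    have h1 : ∀ l, ((lw l).map (Lt.ex i)).sum = sgn l.2.2 * A l.2.1 i := by
      intro l
      simp only [lw, List.map_cons, List.map_append, List.sum_cons, List.sum_append, deg_ex_sg,
        deg_ex_rho]
      simp [Lt.ex]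
    have h2 : ((ws k).map (Lt.ex i)).sum = (X * A) k i := by
      simp only [ws, List.map_append, List.sum_append, deg_sum_flatMap, h1]
      rw [deg_sum_swap (w k) (fun l => l.2.1) (fun l => sgn l.2.2) (fun i' => A i' i)]
      simp [Lt.ex, mul_apply, hX]
    rw [h2, hXA, Int.toNat_of_nonneg (mul_self_nonneg _)]
    simp [one_apply]
  obtain ⟨x, hx⟩ := exists_sol hE hEE (pm_mem_unitary (s ι₁)) hσE hws hd hex
  have hT : ∀ i, _ := fun i => deg_val_t x (w := degRho (A i)) fun l hl => deg_mem_rho hl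
  have hB : ∀ i, _ := fun i => deg_block ι₀.injective (hT i).1 (hT i).2
  refine ⟨fun i => Jᴴ * val (pt 1 x) (degRho (A i)) * J, fun i => (hB i).1, fun k => ?_⟩
  set y : Matrix N N ℂ := (x.1 (k, 1) : Matrix N N ℂ) with hy
  set u : Matrix N N ℂ := (x.1 (k, 2) : Matrix N N ℂ) with hu
  have hyy : y * yᴴ = 1 := by
    rw [← star_eq_conjTranspose]; exact (Unitary.mem_iff.1 (x.1 (k, 1)).2).2
  have huJ : u * J = J := by
    have : u * E = E := (x.2 k).2
    rw [← hEJ, ← Matrix.mul_assoc, this]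
  have hlw : ∀ l, val (pt 1 x) (lw l) =
      ext l.1 (sg l.2.2 (Jᴴ * val (pt 1 x) (degRho (A l.2.1)) * J)) := by
    intro l
    have h1 : (fun b => s l.1 (ι₀ b)) = l.1 := funext (hs l.1)
    simp only [lw]
    rw [deg_val_cons, deg_val_append, deg_val_cons, deg_val_nil, mul_one, deg_val_sg,
      ← mul_assoc]
    conv_lhs => rw [(hB l.2.1).2]
    rw [deg_sg_ext]
    exact (pm_ext _ _ _).trans (by rw [h1])
  have hk := hx k
  simp only [full, ws] at hk
  rw [deg_val_append, deg_val_append, deg_val_flatMap] at hk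
  simp only [hlw, deg_val_cons, deg_val_nil, mul_one] at hk
  have hk' : ((w k).map fun l => ext l.1
      (sg l.2.2 (Jᴴ * val (pt 1 x) (degRho (A l.2.1)) * J))).prod * β k * (yᴴ * (u * y)) = 1 := hk
  refine ⟨yᴴ * J, ?_, ?_⟩
  · rw [conjTranspose_mul, conjTranspose_conjTranspose, Matrix.mul_assoc,
      ← Matrix.mul_assoc y, hyy, Matrix.one_mul, hJ]
  · have hZ : (yᴴ * (u * y)) * (yᴴ * J) = yᴴ * J := by
      rw [Matrix.mul_assoc, Matrix.mul_assoc u, ← Matrix.mul_assoc y, hyy, Matrix.one_mul, huJ]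
    conv_lhs => rw [← hZ, ← Matrix.mul_assoc, hk', Matrix.one_mul]

end Crest.Agent.R174
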