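import Mathlib

/-! # Row 174: block algebra used for the sign of the Jacobian -/

set_option autoImplicit false
set_option linter.unusedSectionVars false

namespace Crest.Agent.R174.DetPos

open Matrix

/-- A normal element with finite spectrum that is unitary has a unitary square root in its
bicommutant. -/
theorem exists_sqrt_aux {A : Type*} [CStarAlgebra A] {y : A} (hy : y ∈ unitary A)
    (hfin : (spectrum ℂ y).Finite) :
    ∃ z ∈ unitary A, z * z = y ∧ ∀ E, Commute y E → Commute (star y) E → Commute z E := by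
  have hn : IsStarNormal y := ⟨by
    rw [Commute, SemiconjBy, (Unitary.mem_iff.1 hy).1, (Unitary.mem_iff.1 hy).2]⟩
  let f : ℂ → ℂ := fun w => Complex.exp (Complex.log w / 2)
  have hf : ContinuousOn f (spectrum ℂ y) := hfin.continuousOn f
  have hnorm : ∀ w ∈ spectrum ℂ y, ‖w‖ = 1 := fun w hw => by
    simpa using spectrum.subset_circle_of_unitary hy hw
  have hsq : ∀ w ∈ spectrum ℂ y, f w * f w = w := fun w hw => by
    have h0 : w ≠ 0 := by
      rintro rfl
      simpa using hnorm 0 hw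
    simp only [f]
    rw [← Complex.exp_add, add_halves, Complex.exp_log h0]
  refine ⟨cfc f y, ?_, ?_, fun E h1 h2 => h1.cfc h2 f⟩
  · rw [cfc_unitary_iff f y]
    intro w hw
    have h1 : ‖f w‖ * ‖f w‖ = 1 := by rw [← norm_mul, hsq w hw, hnorm w hw]
    rw [Complex.star_def, Complex.conj_mul', sq]
    exact_mod_cast h1
  · rw [← cfc_mul f f y, cfc_congr (g := fun w => w) hsq, cfc_id' ℂ y]

variable {m : ℕ} {N : Type} [Fintype N] [DecidableEq N]

open scoped Matrix.Norms.L2Operator in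
theorem exists_sqrt {y : Matrix N N ℂ} (hy : y ∈ unitary (Matrix N N ℂ)) :
    ∃ z ∈ unitary (Matrix N N ℂ), z * z = y ∧
      ∀ E, Commute y E → Commute (star y) E → Commute z E :=
  exists_sqrt_aux hy (Matrix.finite_spectrum y)

/-- The block `E a E`. -/
noncomputable def dd (E : Matrix N N ℂ) : Matrix N N ℂ →ₗ[ℂ] Matrix N N ℂ :=
  LinearMap.mulLeftRight ℂ (E, E)

/-- The off-diagonal blocks. -/
noncomputable def mm (E : Matrix N N ℂ) : Matrix N N ℂ →ₗ[ℂ] Matrix N N ℂ :=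
  LinearMap.mulLeftRight ℂ (E, 1 - E) + LinearMap.mulLeftRight ℂ (1 - E, E)

/-- The block `(1 - E) a (1 - E)`. -/
noncomputable def cc (E : Matrix N N ℂ) : Matrix N N ℂ →ₗ[ℂ] Matrix N N ℂ :=
  LinearMap.mulLeftRight ℂ (1 - E, 1 - E)

/-- Conjugation. -/
noncomputable def ad (z : Matrix N N ℂ) : Matrix N N ℂ →ₗ[ℂ] Matrix N N ℂ :=
  LinearMap.mulLeftRight ℂ (z, zᴴ)

/-- Diagonal maps. -/
noncomputable def dg (f : Fin m → Matrix N N ℂ →ₗ[ℂ] Matrix N N ℂ) :
    (Fin m → Matrix N N ℂ) →ₗ[ℂ] (Fin m → Matrix N N ℂ) :=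
  LinearMap.pi fun k => f k ∘ₗ LinearMap.proj k

theorem dg_apply (f : Fin m → Matrix N N ℂ →ₗ[ℂ] Matrix N N ℂ) (a : Fin m → Matrix N N ℂ)
    (k : Fin m) : dg f a k = f k (a k) := rfl

theorem dg_injective {f : Fin m → Matrix N N ℂ →ₗ[ℂ] Matrix N N ℂ}
    (h : ∀ k a, f k a = 0 → a = 0) : Function.Injective (dg f) := by
  rw [injective_iff_map_eq_zero]
  intro a ha
  funext k
  exact h k _ (congrFun ha k)

variable {E z t y u : Matrix N N ℂ}

theorem dd_apply (E a : Matrix N N ℂ) : dd E a = E * a * E := rfl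
theorem mm_apply (E a : Matrix N N ℂ) : mm E a = E * a * (1 - E) + (1 - E) * a * E := rfl
theorem cc_apply (E a : Matrix N N ℂ) : cc E a = (1 - E) * a * (1 - E) := rfl
theorem ad_apply (z a : Matrix N N ℂ) : ad z a = z * a * zᴴ := rfl

theorem dd_star (hE : Eᴴ = E) (a : Matrix N N ℂ) : dd E aᴴ = (dd E a)ᴴ := by
  simp [dd_apply, hE, Matrix.mul_assoc]

theorem mm_star (hE : Eᴴ = E) (a : Matrix N N ℂ) : mm E aᴴ = (mm E a)ᴴ := by
  simp [mm_apply, hE, Matrix.mul_assoc, add_comm]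

theorem cc_star (hE : Eᴴ = E) (a : Matrix N N ℂ) : cc E aᴴ = (cc E a)ᴴ := by
  simp [cc_apply, hE, Matrix.mul_assoc]

theorem ad_star (z a : Matrix N N ℂ) : ad z aᴴ = (ad z a)ᴴ := by
  simp [ad_apply, Matrix.mul_assoc]

theorem blocks (E a : Matrix N N ℂ) : dd E a + mm E a + cc E a = a := by
  simp only [dd_apply, mm_apply, cc_apply]
  noncomm_ring

theorem ad_ad (z w a : Matrix N N ℂ) : ad z (ad w a) = ad (z * w) a := by
  simp [ad_apply, Matrix.mul_assoc]

theorem ad_one (a : Matrix N N ℂ) : ad 1 a = a := by simp [ad_apply]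

section idem

theorem EE (hEE : E * E = E) (x : Matrix N N ℂ) : E * (E * x) = E * x := by
  rw [← mul_assoc, hEE]

theorem EF (hEE : E * E = E) : E * (1 - E) = 0 := by rw [mul_sub, mul_one, hEE, sub_self]

theorem FE (hEE : E * E = E) : (1 - E) * E = 0 := by rw [sub_mul, one_mul, hEE, sub_self]

theorem FF (hEE : E * E = E) : (1 - E) * (1 - E) = 1 - E := by
  rw [mul_sub, mul_one, FE hEE, sub_zero]

theorem EF' (hEE : E * E = E) (x : Matrix N N ℂ) : E * ((1 - E) * x) = 0 := by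
  rw [← mul_assoc, EF hEE, zero_mul]

theorem FE' (hEE : E * E = E) (x : Matrix N N ℂ) : (1 - E) * (E * x) = 0 := by
  rw [← mul_assoc, FE hEE, zero_mul]

theorem FF' (hEE : E * E = E) (x : Matrix N N ℂ) : (1 - E) * ((1 - E) * x) = (1 - E) * x := by
  rw [← mul_assoc, FF hEE]

variable (hEE : E * E = E) (a : Matrix N N ℂ)
include hEE

theorem dd_dd : dd E (dd E a) = dd E a := by
  simp only [dd_apply, mul_assoc, hEE, EE hEE]

theorem dd_mm : dd E (mm E a) = 0 := by
  simp only [dd_apply, mm_apply, mul_add, add_mul, mul_assoc, hEE, EE hEE, FE hEE, EF' hEE,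
    mul_zero, add_zero]

theorem dd_cc : dd E (cc E a) = 0 := by
  simp only [dd_apply, cc_apply, mul_assoc, EF' hEE, zero_mul]

theorem mm_dd : mm E (dd E a) = 0 := by
  simp only [dd_apply, mm_apply, mul_assoc, EF hEE, FE' hEE, mul_zero, zero_mul, add_zero]

theorem mm_mm : mm E (mm E a) = mm E a := by
  simp only [mm_apply, mul_add, add_mul, mul_assoc, hEE, EE hEE, FE hEE, EF hEE, FF hEE, EF' hEE,
    FE' hEE, FF' hEE, mul_zero, add_zero, zero_add]

theorem mm_cc : mm E (cc E a) = 0 := by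
  simp only [mm_apply, cc_apply, mul_assoc, FE hEE, EF' hEE, mul_zero, zero_mul, add_zero]

theorem cc_dd : cc E (dd E a) = 0 := by
  simp only [dd_apply, cc_apply, mul_assoc, FE' hEE, zero_mul]

theorem cc_mm : cc E (mm E a) = 0 := by
  simp only [mm_apply, cc_apply, mul_add, add_mul, mul_assoc, EF hEE, FE' hEE, mul_zero, zero_mul,
    add_zero, zero_add]

theorem cc_cc : cc E (cc E a) = cc E a := by
  simp only [cc_apply, mul_assoc, FF hEE, FF' hEE]

theorem adR_mm (hE : Eᴴ = E) : ad (E - (1 - E)) (mm E a) = -mm E a := by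
  have h : (E - (1 - E))ᴴ = E - (1 - E) := by simp [hE]
  rw [ad_apply, h]
  generalize hF : 1 - E = F
  have h1 := EF hEE
  have h2 := FE hEE
  have h3 := FF hEE
  have h4 := EF' hEE
  have h5 := FE' hEE
  have h6 := FF' hEE
  rw [mm_apply]
  rw [hF] at h1 h2 h3 h4 h5 h6 ⊢
  simp only [mul_add, add_mul, mul_sub, sub_mul, mul_assoc, hEE, EE hEE, h1, h2, h3, h4, h5, h6,
    mul_zero]
  abel

theorem adR_cc (hE : Eᴴ = E) : ad (E - (1 - E)) (cc E a) = cc E a := by
  have h : (E - (1 - E))ᴴ = E - (1 - E) := by simp [hE]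
  rw [ad_apply, h]
  generalize hF : 1 - E = F
  have h2 := FE hEE
  have h3 := FF hEE
  have h4 := EF' hEE
  have h6 := FF' hEE
  rw [cc_apply]
  rw [hF] at h2 h3 h4 h6 ⊢
  simp only [mul_sub, sub_mul, mul_assoc, h2, h3, h4, h6, mul_zero, zero_mul]
  abel

theorem R_mul_E : (E - (1 - E)) * E = E := by
  rw [sub_mul, hEE, FE hEE, sub_zero]

theorem R_mul_R : (E - (1 - E)) * (E - (1 - E)) = 1 := by
  rw [mul_sub, R_mul_E hEE, sub_mul E (1 - E) (1 - E), EF hEE, FF hEE]
  abel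

theorem F_mul_R : (1 - E) * (E - (1 - E)) = -(1 - E) := by
  rw [mul_sub, FE hEE, FF hEE, zero_sub]

end idem

theorem commute_star (hE : Eᴴ = E) (hz : Commute z E) : Commute zᴴ E := by
  have := congrArg conjTranspose hz.eq
  simp only [conjTranspose_mul, hE] at this
  exact this.symm

theorem sand_ad {p q : Matrix N N ℂ} (hp : Commute z p) (hq : Commute zᴴ q) (a : Matrix N N ℂ) :
    p * ad z a * q = ad z (p * a * q) := by
  simp only [ad_apply]
  calc p * (z * a * zᴴ) * q = (p * z) * a * (zᴴ * q) := by simp only [mul_assoc]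
    _ = (z * p) * a * (q * zᴴ) := by rw [hp.eq, hq.eq]
    _ = z * (p * a * q) * zᴴ := by simp only [mul_assoc]

theorem commute_compl (hz : Commute z E) : Commute z (1 - E) := (Commute.one_right z).sub_right hz

theorem dd_ad (hE : Eᴴ = E) (hz : Commute z E) (a : Matrix N N ℂ) :
    dd E (ad z a) = ad z (dd E a) := sand_ad hz (commute_star hE hz) a

theorem mm_ad (hE : Eᴴ = E) (hz : Commute z E) (a : Matrix N N ℂ) :
    mm E (ad z a) = ad z (mm E a) := by
  rw [mm_apply, mm_apply, map_add, sand_ad hz (commute_compl (commute_star hE hz)),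
    sand_ad (commute_compl hz) (commute_star hE hz)]

theorem cc_ad (hE : Eᴴ = E) (hz : Commute z E) (a : Matrix N N ℂ) :
    cc E (ad z a) = ad z (cc E a) :=
  sand_ad (commute_compl hz) (commute_compl (commute_star hE hz)) a

theorem ad_eq_zero (hz : zᴴ * z = 1) {a : Matrix N N ℂ} (h : ad z a = 0) : a = 0 := by
  have h1 : ad zᴴ (ad z a) = a := by rw [ad_ad, hz, ad_one]
  rw [← h1, h, map_zero]

/-! ### The factor `P` -/

/-- The factor `P` with the homotopy parameter. -/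
noncomputable def PP (E : Matrix N N ℂ) (d : ℕ) (τ : ℝ) (t : Matrix N N ℂ) :
    Matrix N N ℂ →ₗ[ℂ] Matrix N N ℂ :=
  mm E + cc E + ∑ j ∈ Finset.range d, ((τ : ℂ) ^ j) • (ad (t ^ j) ∘ₗ dd E)

theorem PP_apply (E : Matrix N N ℂ) (d : ℕ) (τ : ℝ) (t a : Matrix N N ℂ) :
    PP E d τ t a = mm E a + cc E a +
      ∑ j ∈ Finset.range d, ((τ : ℂ) ^ j) • ad (t ^ j) (dd E a) := by
  simp [PP]

theorem PP_star (hE : Eᴴ = E) (d : ℕ) (τ : ℝ) (t a : Matrix N N ℂ) :
    PP E d τ t aᴴ = (PP E d τ t a)ᴴ := by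
  simp only [PP_apply, conjTranspose_add, conjTranspose_sum, conjTranspose_smul, mm_star hE,
    cc_star hE, dd_star hE, ad_star, star_pow, Complex.star_def, Complex.conj_ofReal]

theorem PP_zero {d : ℕ} (hd : 0 < d) (t a : Matrix N N ℂ) : PP E d 0 t a = a := by
  rw [PP_apply, Finset.sum_eq_single 0]
  · simp only [pow_zero, one_smul, ad_one]
    rw [add_comm, ← add_assoc, blocks]
  · intro j _ hj
    simp [hj]
  · intro h
    exact absurd (Finset.mem_range.2 hd) h

theorem dd_PP (hE : Eᴴ = E) (hEE : E * E = E) (ht : Commute t E) (d : ℕ) (τ : ℝ)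
    (a : Matrix N N ℂ) : dd E (PP E d τ t a) =
      ∑ j ∈ Finset.range d, ((τ : ℂ) ^ j) • ad (t ^ j) (dd E a) := by
  simp only [PP_apply, map_add, map_sum, map_smul, dd_mm hEE, dd_cc hEE, zero_add,
    dd_ad hE (ht.pow_left _), dd_dd hEE]

theorem mm_PP (hE : Eᴴ = E) (hEE : E * E = E) (ht : Commute t E) (d : ℕ) (τ : ℝ)
    (a : Matrix N N ℂ) : mm E (PP E d τ t a) = mm E a := by
  simp only [PP_apply, map_add, map_sum, map_smul, mm_mm hEE, mm_cc hEE,
    mm_ad hE (ht.pow_left _), mm_dd hEE, map_zero, smul_zero, Finset.sum_const_zero, add_zero]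

theorem cc_PP (hE : Eᴴ = E) (hEE : E * E = E) (ht : Commute t E) (d : ℕ) (τ : ℝ)
    (a : Matrix N N ℂ) : cc E (PP E d τ t a) = cc E a := by
  simp only [PP_apply, map_add, map_sum, map_smul, cc_mm hEE, cc_cc hEE,
    cc_ad hE (ht.pow_left _), cc_dd hEE, map_zero, smul_zero, Finset.sum_const_zero, add_zero,
    zero_add]

theorem eq_zero_of_PP (hE : Eᴴ = E) (hEE : E * E = E) (ht : Commute t E) {d : ℕ} {τ : ℝ}
    (hS : ∀ b : Matrix N N ℂ, ∑ j ∈ Finset.range d, ((τ : ℂ) ^ j) • ad (t ^ j) b = 0 → b = 0)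
    (a : Matrix N N ℂ) (h : PP E d τ t a = 0) : a = 0 := by
  have h1 := dd_PP hE hEE ht d τ a
  have h2 := mm_PP hE hEE ht d τ a
  have h3 := cc_PP hE hEE ht d τ a
  rw [h, map_zero] at h1 h2 h3
  rw [← blocks E a, hS _ h1.symm, ← h2, ← h3, add_zero, add_zero]

theorem eq_zero_of_eq_smul_ad (hz : zᴴ * z = 1) {c : ℝ} (hc : c ^ 2 ≠ 1) {b : Matrix N N ℂ}
    (h : b = (c : ℂ) • ad z b) : b = 0 := by
  have h1 : (ad z b)ᴴ * ad z b = z * (bᴴ * b) * zᴴ := by
    simp only [ad_apply, conjTranspose_mul, conjTranspose_conjTranspose, mul_assoc]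
    rw [← mul_assoc zᴴ z, hz, one_mul]
  have h2 : ((ad z b)ᴴ * ad z b).trace = (bᴴ * b).trace := by
    rw [h1, trace_mul_comm, ← mul_assoc, hz, one_mul]
  have h3 : (bᴴ * b).trace = (c : ℂ) ^ 2 * (bᴴ * b).trace := by
    conv_lhs => rw [h]
    rw [conjTranspose_smul, smul_mul_smul_comm, trace_smul, h2, Complex.star_def,
      Complex.conj_ofReal, smul_eq_mul, sq]
  have h4 : (bᴴ * b).trace = 0 := by
    by_contra h0
    apply hc
    have : (c : ℂ) ^ 2 = 1 := by
      have := mul_right_cancel₀ h0 (h3.symm.trans (one_mul _).symm)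
      exact this
    exact_mod_cast this
  open scoped ComplexOrder in
  exact trace_conjTranspose_mul_self_eq_zero_iff.1 h4

theorem geom_inj (ht : tᴴ * t = 1) {d : ℕ} (hd : 0 < d) {τ : ℝ} (h0 : 0 ≤ τ) (h1 : τ < 1)
    (b : Matrix N N ℂ) (h : ∑ j ∈ Finset.range d, ((τ : ℂ) ^ j) • ad (t ^ j) b = 0) : b = 0 := by
  have h2 : ∑ j ∈ Finset.range d, ((τ : ℂ) ^ (j + 1)) • ad (t ^ (j + 1)) b = 0 := by
    have := congrArg (fun x => (τ : ℂ) • ad t x) h
    simp only [map_sum, map_smul, ad_ad, Finset.smul_sum, smul_smul, map_zero, smul_zero] at this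
    simpa only [pow_succ'] using this
  have h3 := Finset.sum_range_succ (fun j => ((τ : ℂ) ^ j) • ad (t ^ j) b) d
  rw [Finset.sum_range_succ', h, h2] at h3
  simp only [pow_zero, one_smul, ad_one, zero_add] at h3
  have h4 : (t ^ d)ᴴ * t ^ d = 1 := by
    have hu : t ∈ unitary (Matrix N N ℂ) := Matrix.mem_unitaryGroup_iff'.2 ht
    exact (pow_mem hu d).1
  refine eq_zero_of_eq_smul_ad h4 (c := τ ^ d) ?_ (by rw [Complex.ofReal_pow]; exact h3)
  have : τ ^ d < 1 := pow_lt_one₀ h0 h1 hd.ne'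
  have : 0 ≤ τ ^ d := pow_nonneg h0 d
  nlinarith

theorem geom_one_inj {d : ℕ} (hd : 0 < d) (b : Matrix N N ℂ)
    (h : ∑ j ∈ Finset.range d, (((1 : ℝ) : ℂ) ^ j) • ad ((1 : Matrix N N ℂ) ^ j) b = 0) :
    b = 0 := by
  simp only [Complex.ofReal_one, one_pow, one_smul, ad_one, Finset.sum_const, Finset.card_range]
    at h
  rw [← Nat.cast_smul_eq_nsmul ℂ] at h
  exact (smul_eq_zero.1 h).resolve_left (Nat.cast_ne_zero.2 hd.ne')

/-! ### The factor `A₁` -/

/-- The factor `A₁`. -/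
noncomputable def AA (E Q y u : Matrix N N ℂ) : Matrix N N ℂ →ₗ[ℂ] Matrix N N ℂ :=
  dd E + ad Q ∘ₗ ad yᴴ ∘ₗ (-mm E + cc E + ad u ∘ₗ mm E)

theorem AA_apply (E Q y u a : Matrix N N ℂ) :
    AA E Q y u a = dd E a + ad Q (ad yᴴ (-mm E a + cc E a + ad u (mm E a))) := rfl

theorem AA_star (hE : Eᴴ = E) (Q y u a : Matrix N N ℂ) : AA E Q y u aᴴ = (AA E Q y u a)ᴴ := by
  rw [AA_apply, AA_apply, conjTranspose_add, ← ad_star, ← ad_star, conjTranspose_add,
    conjTranspose_add, conjTranspose_neg, ← ad_star, dd_star hE, mm_star hE, cc_star hE]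

/-- A square root of `A₁` at the preimages of the identity. -/
noncomputable def HH (E z : Matrix N N ℂ) : Matrix N N ℂ →ₗ[ℂ] Matrix N N ℂ :=
  dd E + ad z ∘ₗ (((√2 : ℝ) : ℂ) • mm E + cc E)

theorem HH_apply (E z a : Matrix N N ℂ) :
    HH E z a = dd E a + ad z (((√2 : ℝ) : ℂ) • mm E a + cc E a) := rfl

theorem HH_star (hE : Eᴴ = E) (z a : Matrix N N ℂ) : HH E z aᴴ = (HH E z a)ᴴ := by
  rw [HH_apply, HH_apply, conjTranspose_add, ← ad_star, conjTranspose_add, conjTranspose_smul,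
    dd_star hE, mm_star hE, cc_star hE, Complex.star_def, Complex.conj_ofReal]

theorem dd_HH (hE : Eᴴ = E) (hEE : E * E = E) (hz : Commute z E) (a : Matrix N N ℂ) :
    dd E (HH E z a) = dd E a := by
  simp only [HH_apply, map_add, map_smul, dd_ad hE hz, dd_dd hEE, dd_mm hEE, dd_cc hEE, map_zero,
    smul_zero, add_zero]

theorem mm_HH (hE : Eᴴ = E) (hEE : E * E = E) (hz : Commute z E) (a : Matrix N N ℂ) :
    mm E (HH E z a) = ((√2 : ℝ) : ℂ) • ad z (mm E a) := by
  simp only [HH_apply, map_add, map_smul, mm_ad hE hz, mm_dd hEE, mm_mm hEE, mm_cc hEE, map_zero,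
    add_zero, zero_add]

theorem cc_HH (hE : Eᴴ = E) (hEE : E * E = E) (hz : Commute z E) (a : Matrix N N ℂ) :
    cc E (HH E z a) = ad z (cc E a) := by
  simp only [HH_apply, map_add, map_smul, cc_ad hE hz, cc_dd hEE, cc_mm hEE, cc_cc hEE, map_zero,
    smul_zero, zero_add]

theorem eq_zero_of_HH (hE : Eᴴ = E) (hEE : E * E = E) (hz : Commute z E) (hu : zᴴ * z = 1)
    (a : Matrix N N ℂ) (h : HH E z a = 0) : a = 0 := by
  have h1 := dd_HH hE hEE hz a
  have h2 := mm_HH hE hEE hz a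
  have h3 := cc_HH hE hEE hz a
  rw [h, map_zero] at h1 h2 h3
  have h4 : ((√2 : ℝ) : ℂ) ≠ 0 := by simp
  have h5 := ad_eq_zero hu ((smul_eq_zero.1 h2.symm).resolve_left h4)
  have h6 := ad_eq_zero hu h3.symm
  rw [← blocks E a, ← h1, h5, h6, add_zero, add_zero]

theorem HH_HH (hE : Eᴴ = E) (hEE : E * E = E) (hz : Commute z E) (a : Matrix N N ℂ) :
    HH E z (HH E z a) = dd E a + ad (z * z) ((2 : ℂ) • mm E a + cc E a) := by
  rw [HH_apply, dd_HH hE hEE hz, mm_HH hE hEE hz, cc_HH hE hEE hz, smul_smul, ← Complex.ofReal_mul,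
    Real.mul_self_sqrt zero_le_two, ← ad_ad]
  simp only [map_add, map_smul, Complex.ofReal_ofNat]

theorem AA_eq (hE : Eᴴ = E) (hEE : E * E = E) (hy : Commute y E) (a : Matrix N N ℂ) :
    AA E (E - (1 - E)) y (E - (1 - E)) a = dd E a + ad yᴴ ((2 : ℂ) • mm E a + cc E a) := by
  have hy' := commute_star hE hy
  have hc : (E - (1 - E)) * yᴴ = yᴴ * (E - (1 - E)) :=
    (hy'.sub_right (commute_compl hy')).eq.symm
  rw [AA_apply, adR_mm hEE a hE, ad_ad, hc, ← ad_ad]
  simp only [map_add, map_neg, adR_mm hEE a hE, adR_cc hEE a hE, neg_neg, two_smul]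
  abel

/-! ### The structure of the preimages of the identity -/

theorem fix_left {W : Matrix N N ℂ} (hW : Wᴴ = W) (hu : uᴴ * u = 1) (h : u * W = W) :
    W * u = W := by
  have h1 : uᴴ * W = W := by
    conv_lhs => rw [← h, ← mul_assoc, hu, one_mul]
  have h2 := congrArg conjTranspose h1
  simpa only [conjTranspose_mul, conjTranspose_conjTranspose, hW] using h2

theorem commute_of_fix (hE : Eᴴ = E) (ht : tᴴ * t = 1) (h : t * (1 - E) = 1 - E) :
    Commute t E := by
  have h1 := fix_left (W := 1 - E) (by simp [hE]) ht h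
  rw [mul_sub, mul_one] at h
  rw [sub_mul, one_mul] at h1
  exact sub_right_injective (h.trans h1.symm)

theorem commute_of_invariant (hE : Eᴴ = E) (hEE : E * E = E) {w : Matrix N N ℂ}
    (hw : w * wᴴ = 1) (h : (1 - E) * w * E = 0) : Commute w E := by
  have hw' : wᴴ * w = 1 := mul_eq_one_comm.1 hw
  have h1 : w * E = E * w * E := by
    rw [sub_mul, one_mul, sub_mul, sub_eq_zero] at h
    exact h
  have h2 : (E * w * (1 - E)) * (E * w * (1 - E))ᴴ = E - E * w * E * wᴴ * E := by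
    have hF : (1 - E)ᴴ = 1 - E := by simp [hE]
    rw [conjTranspose_mul, conjTranspose_mul, hF, hE]
    calc E * w * (1 - E) * ((1 - E) * (wᴴ * E)) = E * w * ((1 - E) * (1 - E)) * (wᴴ * E) := by
          simp only [mul_assoc]
      _ = E * (w * wᴴ) * E - E * w * E * wᴴ * E := by
          rw [FF hEE]; noncomm_ring
      _ = _ := by rw [hw, mul_one, hEE]
  have h3 : (E * w * E * wᴴ * E).trace = E.trace := by
    rw [trace_mul_comm]
    calc (E * (E * w * E * wᴴ)).trace = (E * w * E * wᴴ).trace := by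
          simp only [← mul_assoc, hEE]
      _ = (w * E * wᴴ).trace := by rw [← h1]
      _ = E.trace := by rw [trace_mul_comm, ← mul_assoc, hw', one_mul]
  have h4 : E * w * (1 - E) = 0 := by
    open scoped ComplexOrder in
    refine trace_mul_conjTranspose_self_eq_zero_iff.1 ?_
    rw [h2, trace_sub, h3, sub_self]
  rw [mul_sub, mul_one, sub_eq_zero] at h4
  exact h1.trans h4.symm

theorem struct (hE : Eᴴ = E) (hEE : E * E = E) {s : Matrix N N ℂ} (hs : sᴴ * s = 1)
    (hsF : s * (1 - E) = 1 - E) (hy : yᴴ * y = 1) (huE : u * E = E)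
    (h : s * (E - (1 - E)) * (yᴴ * u * y) = 1) :
    Commute y E ∧ s = 1 ∧ u = E - (1 - E) := by
  have hy' : y * yᴴ = 1 := mul_eq_one_comm.1 hy
  have hFs : (1 - E) * s = 1 - E := fix_left (by simp [hE]) hs hsF
  -- `s R y† u = y†`
  have h1 : s * (E - (1 - E)) * yᴴ * u = yᴴ := by
    calc s * (E - (1 - E)) * yᴴ * u = s * (E - (1 - E)) * (yᴴ * u * y) * yᴴ := by
          simp only [mul_assoc, hy', mul_one]
      _ = yᴴ := by rw [h, one_mul]
  have h2 : s * (E - (1 - E)) * yᴴ * E = yᴴ * E := by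
    calc s * (E - (1 - E)) * yᴴ * E = s * (E - (1 - E)) * yᴴ * (u * E) := by rw [huE]
      _ = yᴴ * E := by rw [← mul_assoc, h1]
  have h3 : -((1 - E) * yᴴ * E) = (1 - E) * yᴴ * E := by
    calc -((1 - E) * yᴴ * E) = (1 - E) * s * (E - (1 - E)) * yᴴ * E := by
          rw [hFs, F_mul_R hEE, neg_mul, neg_mul]
      _ = (1 - E) * (s * (E - (1 - E)) * yᴴ * E) := by simp only [mul_assoc]
      _ = _ := by rw [h2, mul_assoc]
  have h4 : (1 - E) * yᴴ * E = 0 := by
    have : (2 : ℂ) • ((1 - E) * yᴴ * E) = 0 := by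
      rw [two_smul]
      nth_rewrite 1 [← h3]
      exact neg_add_cancel _
    exact (smul_eq_zero.1 this).resolve_left two_ne_zero
  have h5 : Commute yᴴ E :=
    commute_of_invariant hE hEE (by rw [conjTranspose_conjTranspose, hy]) h4
  have h6 : Commute y E := by simpa using commute_star hE h5
  have h7 : yᴴ * u * y * E = E := by
    rw [mul_assoc, h6.eq, ← mul_assoc, mul_assoc yᴴ, huE, h5.eq, mul_assoc, hy, mul_one]
  have h8 : s * E = E := by
    calc s * E = s * (E - (1 - E)) * (yᴴ * u * y * E) := by rw [h7, mul_assoc, R_mul_E hEE]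
      _ = E := by rw [← mul_assoc, h, one_mul]
  have h9 : s = 1 := by
    calc s = s * E + s * (1 - E) := by rw [← mul_add, add_sub_cancel, mul_one]
      _ = 1 := by rw [h8, hsF, add_sub_cancel]
  refine ⟨h6, h9, ?_⟩
  rw [h9, one_mul] at h
  have h10 : yᴴ * u * y = E - (1 - E) := by
    calc yᴴ * u * y = (E - (1 - E)) * ((E - (1 - E)) * (yᴴ * u * y)) := by
          rw [← mul_assoc, R_mul_R hEE, one_mul]
      _ = _ := by rw [h, mul_one]
  calc u = y * (yᴴ * u * y) * yᴴ := by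
        simp only [← mul_assoc, hy', one_mul]
        rw [mul_assoc, hy', mul_one]
    _ = E - (1 - E) := by
        rw [h10, (h6.sub_right (commute_compl h6)).eq, mul_assoc, hy', mul_one]

end Crest.Agent.R174.DetPos
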