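import Crest.Agent.R174.GA

/-! # Row 174: unitary matrices as products of complex reflections -/

set_option autoImplicit false
set_option linter.unusedSectionVars false

namespace Crest.Agent.R174

open Matrix

variable {N : Type} [Fintype N] [DecidableEq N]

theorem house_mem_ker {Y : Matrix N N ℂ} {w : N → ℂ} :
    w ∈ LinearMap.ker (Matrix.toLin' (Y - 1)) ↔ Y *ᵥ w = w := by
  rw [LinearMap.mem_ker, toLin'_apply, sub_mulVec, one_mulVec, sub_eq_zero]

open scoped ComplexOrder in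
theorem house_step {Y : Matrix N N ℂ} (hY : Y ∈ unitary (Matrix N N ℂ)) {x : N → ℂ}
    (hx : Y *ᵥ x ≠ x) : ∃ (s : ℝ) (p : Matrix N N ℂ), 0 ≤ s ∧ s ≤ 2 * Real.pi ∧ star p = p ∧
      p * p = p ∧ p.trace = 1 ∧ (∀ w : N → ℂ, Y *ᵥ w = w → p *ᵥ w = 0) ∧
      rot s p *ᵥ x = Y *ᵥ x := by
  have hin : ∀ u w : N → ℂ, star (Y *ᵥ u) ⬝ᵥ (Y *ᵥ w) = star u ⬝ᵥ w := fun u w => by
    rw [star_mulVec, dotProduct_mulVec, vecMul_vecMul, ← star_eq_conjTranspose,
      (Unitary.mem_iff.mp hY).1, vecMul_one]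
  obtain ⟨v, hv⟩ : ∃ v, Y *ᵥ x = v + x := ⟨Y *ᵥ x - x, by simp⟩
  have hv0 : v ≠ 0 := by rintro rfl; exact hx (by simpa using hv)
  have ha : star v ⬝ᵥ v ≠ 0 := fun h => hv0 (dotProduct_star_self_eq_zero.mp h)
  have hstar : star (star v ⬝ᵥ v) = star v ⬝ᵥ v := (star_dotProduct v v).symm
  set a := star v ⬝ᵥ v with ha'
  set b := star v ⬝ᵥ x with hb'
  have hab : a + b + star b = 0 := by
    have h1 := hin x x
    rw [hv, star_add, add_dotProduct, dotProduct_add, dotProduct_add, star_dotProduct x v] at h1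
    linear_combination h1
  have hb : b ≠ 0 := by
    intro h; rw [h] at hab; exact ha (by simpa using hab)
  have hp : ∀ w, (a⁻¹ • vecMulVec v (star v)) *ᵥ w = (a⁻¹ * (star v ⬝ᵥ w)) • v := fun w => by
    rw [smul_mulVec, vecMulVec_mulVec, op_smul_eq_smul, smul_smul]
  have hn : ‖star b / b‖ = 1 := by
    rw [norm_div, norm_star, div_self (norm_ne_zero_iff.mpr hb)]
  refine ⟨Complex.arg (star b / b) + Real.pi, a⁻¹ • vecMulVec v (star v),
    by linarith [Complex.neg_pi_lt_arg (star b / b)], by linarith [Complex.arg_le_pi (star b / b)],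
    ?_, ?_, ?_, fun w hw => ?_, ?_⟩
  · rw [star_smul, star_inv₀, hstar, star_eq_conjTranspose, conjTranspose_vecMulVec, star_star]
  · rw [smul_mul_smul_comm, vecMulVec_mul_vecMulVec, ← ha', vecMulVec_smul, smul_smul, mul_assoc,
      inv_mul_cancel₀ ha, mul_one]
  · rw [trace_smul, trace_vecMulVec, dotProduct_comm, smul_eq_mul, inv_mul_cancel₀ ha]
  · have h1 := hin x w
    rw [hw, hv, star_add, add_dotProduct, add_eq_right] at h1
    rw [hp, h1, mul_zero, zero_smul]
  · have h1 := Complex.norm_mul_exp_arg_mul_I (star b / b)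
    rw [hn, Complex.ofReal_one, one_mul] at h1
    rw [rot, add_mulVec, one_mulVec, smul_mulVec, hp, smul_smul, hv, add_comm, Complex.ofReal_add,
      add_mul, Complex.exp_add, h1, Complex.exp_pi_mul_I, ← hb']
    congr 1
    rw [show (star b / b * -1 - 1) * (a⁻¹ * b) = 1 by
      field_simp; linear_combination -hab, one_smul]

/-- Complex Cartan–Dieudonné.  Induction on the codimension of the fixed space of `Y`.  If `Y ≠ 1`
take `x` with `Y x ≠ x`, `v = Y x - x`, `p = v v† / |v|²`, and the unimodular number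
`c = exp (i s)`, `0 ≤ s ≤ 2π`, with `rot s p x = Y x` (`⟨v, x⟩ = conj t - |x|²` where `t = ⟨x, Y x⟩`,
`|v|² = 2|x|² - t - conj t`, so `c = -(t - |x|²) / (conj t - |x|²)`).  Fixed vectors of `Y` are
orthogonal to `v`, so `(rot s p)† Y` fixes them and `x`. -/
theorem house {Y : Matrix N N ℂ} (hY : Y ∈ unitary (Matrix N N ℂ)) :
    ∃ L : List (ℝ × Matrix N N ℂ),
      (∀ e ∈ L, 0 ≤ e.1 ∧ e.1 ≤ 2 * Real.pi ∧ star e.2 = e.2 ∧ e.2 * e.2 = e.2 ∧ e.2.trace = 1 ∧
        ∀ v : N → ℂ, Y *ᵥ v = v → e.2 *ᵥ v = 0) ∧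
      Y = (L.map fun e => rot e.1 e.2).prod ∧
      L.length + Module.finrank ℂ (LinearMap.ker (Matrix.toLin' (Y - 1))) ≤ Fintype.card N := by
  have hle : ∀ Z : Matrix N N ℂ,
      Module.finrank ℂ (LinearMap.ker (Matrix.toLin' (Z - 1))) ≤ Fintype.card N := fun Z =>
    (Submodule.finrank_le _).trans (Module.finrank_fintype_fun_eq_card ℂ).le
  induction hk : Fintype.card N - Module.finrank ℂ (LinearMap.ker (Matrix.toLin' (Y - 1)))
    using Nat.strong_induction_on generalizing Y with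
  | _ k ih =>
  by_cases h1 : ∀ x, Y *ᵥ x = x
  · refine ⟨[], by simp, ?_, by simpa using hle Y⟩
    rw [List.map_nil, List.prod_nil]
    exact Matrix.toLin'.injective (LinearMap.ext fun x => by simpa using h1 x)
  push Not at h1
  obtain ⟨x, hx⟩ := h1
  obtain ⟨s, p, h0, h2, h3, h4, h5, h6, h7⟩ := house_step hY hx
  have hR := rot_mem_unitary s h3 h4
  have hfix : ∀ w, Y *ᵥ w = w → (star (rot s p) * Y) *ᵥ w = w := fun w hw => by
    rw [← mulVec_mulVec, hw, star_rot s h3, rot, add_mulVec, one_mulVec, smul_mulVec, h6 w hw,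
      smul_zero, add_zero]
  have hlt : Module.finrank ℂ (LinearMap.ker (Matrix.toLin' (Y - 1))) <
      Module.finrank ℂ (LinearMap.ker (Matrix.toLin' (star (rot s p) * Y - 1))) := by
    refine Submodule.finrank_lt_finrank_of_lt (lt_of_le_of_ne
      (fun w hw => house_mem_ker.mpr (hfix w (house_mem_ker.mp hw))) fun h => hx ?_)
    rw [← house_mem_ker, h, house_mem_ker, ← mulVec_mulVec, ← h7, mulVec_mulVec,
      (Unitary.mem_iff.mp hR).1, one_mulVec]
  have := hle (star (rot s p) * Y)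
  obtain ⟨L, hL1, hL2, hL3⟩ := ih _ (by omega) (mul_mem (Unitary.star_mem hR) hY) rfl
  refine ⟨(s, p) :: L, fun e he => ?_, ?_, by rw [List.length_cons]; omega⟩
  · rcases List.mem_cons.mp he with rfl | he
    · exact ⟨h0, h2, h3, h4, h5, h6⟩
    · obtain ⟨a1, a2, a3, a4, a5, a6⟩ := hL1 e he
      exact ⟨a1, a2, a3, a4, a5, fun w hw => a6 w (hfix w hw)⟩
  · rw [List.map_cons, List.prod_cons, ← hL2, ← mul_assoc, (Unitary.mem_iff.mp hR).2, one_mul]

/-- Induction principle: unitaries fixing the columns of `W`. -/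
theorem unitary_induction {F : Type} [Fintype F] (W : Matrix N F ℂ) (C : Matrix N N ℂ → Prop)
    (h1 : C 1)
    (hs : ∀ (s : ℝ) (p Y : Matrix N N ℂ), star p = p → p * p = p → p * W = 0 →
      Y ∈ unitary (Matrix N N ℂ) → C Y → C (rot s p * Y))
    {Y : Matrix N N ℂ} (hY : Y ∈ unitary (Matrix N N ℂ)) (hW : Y * W = W) : C Y := by
  obtain ⟨L, hL1, rfl, -⟩ := house hY
  have hL : ∀ e ∈ L, star e.2 = e.2 ∧ e.2 * e.2 = e.2 ∧ e.2 * W = 0 := fun e he => by
    obtain ⟨-, -, a3, a4, -, a6⟩ := hL1 e he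
    refine ⟨a3, a4, ?_⟩
    ext i j
    exact congrFun (a6 (fun k => W k j) (funext fun k => congrFun (congrFun hW k) j)) i
  clear hL1 hY hW
  suffices h : (L.map fun e => rot e.1 e.2).prod ∈ unitary (Matrix N N ℂ) ∧
      C (L.map fun e => rot e.1 e.2).prod from h.2
  induction L with
  | nil => exact ⟨one_mem _, h1⟩
  | cons e L ih =>
    obtain ⟨a1, a2⟩ := ih fun e he => hL e (List.mem_cons_of_mem _ he)
    obtain ⟨a3, a4, a5⟩ := hL e List.mem_cons_self
    rw [List.map_cons, List.prod_cons]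
    exact ⟨mul_mem (rot_mem_unitary _ a3 a4) a1, hs _ _ _ a3 a4 a5 a1 a2⟩

/-- `Y = ∏ rot s p`, `Y† = ∏ rot (2π - s) p` in the opposite order; the columns of `V` are
linearly independent fixed vectors. -/
theorem cost_pair {F : Type} [Fintype F] [DecidableEq F] {Y : Matrix N N ℂ}
    (hY : Y ∈ unitary (Matrix N N ℂ)) (V : Matrix N F ℂ) (hV : Vᴴ * V = 1) (hYV : Y * V = V) :
    ∃ c c' : ℝ, Cost (trC.mat N) c Y ∧ Cost (trC.mat N) c' (star Y) ∧
      c + c' ≤ 2 * Real.pi * ((Fintype.card N : ℝ) - Fintype.card F) := by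
  obtain ⟨L, hL1, hL2, hL3⟩ := house hY
  have hF : Fintype.card F ≤ Module.finrank ℂ (LinearMap.ker (Matrix.toLin' (Y - 1))) := by
    have hinj : Function.Injective (Matrix.toLin' V) := fun a b h => by
      have := congrArg (Vᴴ *ᵥ ·) h
      simpa [hV] using this
    have h1 := LinearMap.finrank_range_of_inj hinj
    rw [Module.finrank_fintype_fun_eq_card] at h1
    rw [← h1]
    refine Submodule.finrank_mono ?_
    rintro _ ⟨w, rfl⟩
    rw [house_mem_ker, toLin'_apply, mulVec_mulVec, hYV]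
  have key : ∀ L : List (ℝ × Matrix N N ℂ), (∀ e ∈ L, 0 ≤ e.1 ∧ e.1 ≤ 2 * Real.pi ∧
      star e.2 = e.2 ∧ e.2 * e.2 = e.2 ∧ e.2.trace = 1) →
      ∃ c c' : ℝ, Cost (trC.mat N) c (L.map fun e => rot e.1 e.2).prod ∧
        Cost (trC.mat N) c' (star (L.map fun e => rot e.1 e.2).prod) ∧
        c + c' ≤ 2 * Real.pi * L.length := by
    intro L hL
    induction L with
    | nil => exact ⟨0, 0, Cost.one le_rfl, by simpa using Cost.one le_rfl, by simp⟩
    | cons e L ih =>
      obtain ⟨c, c', a1, a2, a3⟩ := ih fun e he => hL e (List.mem_cons_of_mem _ he)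
      obtain ⟨b1, b2, b3, b4, b5⟩ := hL e List.mem_cons_self
      rw [List.map_cons, List.prod_cons, star_mul, star_rot _ b3, ← rot_two_pi_sub]
      refine ⟨_, _, Cost.step b1 b3 b4 a1, a2.mul (cost_rot (sub_nonneg.mpr b2) b3 b4), ?_⟩
      rw [trC_mat, b5, List.length_cons]
      push_cast
      simp only [Complex.one_re]
      linarith
  obtain ⟨c, c', a1, a2, a3⟩ := key L fun e he => by
    obtain ⟨b1, b2, b3, b4, b5, -⟩ := hL1 e he
    exact ⟨b1, b2, b3, b4, b5⟩
  rw [← hL2] at a1 a2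
  refine ⟨c, c', a1, a2, a3.trans (mul_le_mul_of_nonneg_left ?_ (by positivity))⟩
  have : L.length + Fintype.card F ≤ Fintype.card N := by omega
  have : (L.length : ℝ) + Fintype.card F ≤ Fintype.card N := by exact_mod_cast this
  linarith

end Crest.Agent.R174
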