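import Crest.Agent.R174.Poly
import Crest.Agent.R174.House
import Crest.Agent.R174.DetPosAux1

/-! # Row 174: the sign of the Jacobian of the standard map -/

set_option autoImplicit false
set_option linter.unusedSectionVars false

namespace Crest.Agent.R174

open Matrix

variable {m : ℕ} {N : Type} [Fintype N] [DecidableEq N] {E : Matrix N N ℂ}

/-- Coordinates. -/
def detpos_eqv (m : ℕ) (N : Type) : (Fin m → Matrix N N ℂ) ≃ₗ[ℂ] (Fin m × N × N → ℂ) where
  toFun a c := a c.1 c.2.1 c.2.2
  invFun f k := Matrix.of fun i j => f (k, i, j)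
  map_add' _ _ := rfl
  map_smul' _ _ := rfl
  left_inv _ := rfl
  right_inv _ := rfl

theorem detpos_det_eq (L : (Fin m → Matrix N N ℂ) →ₗ[ℂ] (Fin m → Matrix N N ℂ)) :
    LinearMap.det L = (Matrix.of fun c b : Fin m × N × N =>
      L ((detpos_eqv m N).symm (Pi.single b 1)) c.1 c.2.1 c.2.2).det := by
  rw [← LinearMap.det_toMatrix (Module.Basis.ofEquivFun (detpos_eqv m N))]
  congr 1

theorem detpos_continuous {X : Type*} [TopologicalSpace X]
    (L : X → (Fin m → Matrix N N ℂ) →ₗ[ℂ] (Fin m → Matrix N N ℂ))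
    (hc : ∀ a k i j, Continuous fun t => L t a k i j) :
    Continuous fun t => LinearMap.det (L t) := by
  simp only [detpos_det_eq]
  exact Continuous.matrix_det (continuous_matrix fun c b => hc _ _ _ _)

theorem detpos_ne_zero {L : (Fin m → Matrix N N ℂ) →ₗ[ℂ] (Fin m → Matrix N N ℂ)}
    (h : Function.Injective L) : LinearMap.det L ≠ 0 := by
  rw [Ne, LinearMap.det_eq_zero_iff_ker_ne_bot, not_not]
  exact LinearMap.ker_eq_bot.2 h

/-- A map commuting with the adjoint has a real determinant: in the basis `bas` the conjugate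
matrix is the matrix with rows and columns permuted by `(k, a, b) ↦ (k, b, a)`. -/
theorem det_im_eq_zero {L : (Fin m → Matrix N N ℂ) →ₗ[ℂ] (Fin m → Matrix N N ℂ)}
    (h : ∀ a k, L (fun k => (a k)ᴴ) k = (L a k)ᴴ) : (LinearMap.det L).im = 0 := by
  let σ : (Fin m × N × N) ≃ (Fin m × N × N) := Equiv.prodCongr (Equiv.refl _) (Equiv.prodComm N N)
  rw [← Complex.conj_eq_iff_im, detpos_det_eq, RingHom.map_det]
  refine Eq.trans ?_ (Matrix.det_submatrix_equiv_self σ _)
  congr 1
  ext c b
  have h1 : (detpos_eqv m N).symm (Pi.single (σ b) 1) =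
      fun k => ((detpos_eqv m N).symm (Pi.single b 1) k)ᴴ := by
    funext k
    ext i j
    obtain ⟨b1, b2, b3⟩ := b
    change (Pi.single (b1, b3, b2) (1 : ℂ) : Fin m × N × N → ℂ) (k, i, j) =
      star ((Pi.single (b1, b2, b3) (1 : ℂ) : Fin m × N × N → ℂ) (k, j, i))
    simp only [Pi.single_apply, Prod.mk.injEq]
    by_cases h1 : k = b1 <;> by_cases h2 : i = b3 <;> by_cases h3 : j = b2 <;> simp [h1, h2, h3]
  simp only [RingHom.mapMatrix_apply, Matrix.map_apply, Matrix.of_apply, Matrix.submatrix_apply]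
  rw [h1, h]
  rfl

/-- Intermediate value theorem along a path of injective adjoint-preserving maps from the identity
(the determinant is continuous: take matrices in the basis `bas`). -/
theorem det_pos_of_path (L : ℝ → (Fin m → Matrix N N ℂ) →ₗ[ℂ] (Fin m → Matrix N N ℂ))
    (hc : ∀ a k i j, Continuous fun t => L t a k i j)
    (hs : ∀ t a k, L t (fun k => (a k)ᴴ) k = (L t a k)ᴴ) (h0 : L 0 = LinearMap.id)
    (hi : ∀ t, 0 ≤ t → t < 1 → Function.Injective (L t)) :
    0 ≤ (LinearMap.det (L 1)).re ∧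
      (Function.Injective (L 1) → 0 < (LinearMap.det (L 1)).re) := by
  have hf : Continuous fun t => (LinearMap.det (L t)).re :=
    Complex.continuous_re.comp (detpos_continuous L hc)
  have hne : ∀ t, Function.Injective (L t) → (LinearMap.det (L t)).re ≠ 0 := fun t ht h =>
    detpos_ne_zero ht (Complex.ext h (det_im_eq_zero (hs t)))
  have h1 : 0 ≤ (LinearMap.det (L 1)).re := by
    by_contra hneg
    rw [not_le] at hneg
    have h2 : (0 : ℝ) ∈ Set.Icc (LinearMap.det (L 1)).re (LinearMap.det (L 0)).re :=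
      ⟨hneg.le, by simp [h0]⟩
    obtain ⟨t, ht, ht0⟩ := intermediate_value_Icc' zero_le_one hf.continuousOn h2
    rcases ht.2.lt_or_eq with h3 | h3
    · exact hne t (hi t ht.1 h3) ht0
    · rw [h3] at ht0
      exact hneg.ne ht0
  exact ⟨h1, fun h => lt_of_le_of_ne h1 (hne 1 h).symm⟩

open DetPos

theorem detpos_sq {H : (Fin m → Matrix N N ℂ) →ₗ[ℂ] (Fin m → Matrix N N ℂ)}
    (hs : ∀ a k, H (fun k => (a k)ᴴ) k = (H a k)ᴴ) (hi : Function.Injective H) :
    0 < (LinearMap.det (H ∘ₗ H)).re := by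
  have h1 := det_im_eq_zero hs
  have h2 : (LinearMap.det H).re ≠ 0 := fun h => detpos_ne_zero hi (Complex.ext h h1)
  rw [LinearMap.det_comp, Complex.mul_re, h1, mul_zero, sub_zero]
  exact mul_self_pos.2 h2

theorem detpos_val_replicate (x : Ix m → Matrix N N ℂ) (j : Ix m) (d : ℕ) :
    val x (List.replicate d (.v j true)) = x j ^ d := by
  simp [val, Lt.val, sg]

theorem detpos_th_replicate (x α : Ix m → Matrix N N ℂ) (j : Ix m) (d : ℕ) :
    th x α (List.replicate d (.v j true)) = ∑ i ∈ Finset.range d, ad (x j ^ i) (α j) := by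
  induction d with
  | zero => simp [th]
  | succ d ih =>
    rw [List.replicate_succ', th_append, ih, detpos_val_replicate, Finset.sum_range_succ]
    simp [th, Lt.th, ad_apply]

theorem detpos_val_std (x : Ix m → Matrix N N ℂ) (d : ℕ) (k : Fin m) :
    val x (std E d k) = x (some (k, 0)) ^ d * (E - (1 - E)) := by
  rw [std, val_append, detpos_val_replicate]
  simp [val, Lt.val]

theorem detpos_val_full (x : Ix m → Matrix N N ℂ) (d : ℕ) (k : Fin m) :
    val x (full (std E d) k) = x (some (k, 0)) ^ d * (E - (1 - E)) *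
      ((x (some (k, 1)))ᴴ * x (some (k, 2)) * x (some (k, 1))) := by
  rw [full, val_append, detpos_val_std]
  simp [val, Lt.val, sg, mul_assoc]

theorem detpos_dif (x : Ix m → Matrix N N ℂ) (d : ℕ) (a : Fin m → Matrix N N ℂ) (k : Fin m) :
    dif E (std E d) x a k = ∑ i ∈ Finset.range d, ad (x (some (k, 0)) ^ i) (dd E (a k)) +
      ad (x (some (k, 0)) ^ d * (E - (1 - E))) (ad (x (some (k, 1)))ᴴ
        (-mm E (a k) + cc E (a k) + ad (x (some (k, 2))) (mm E (a k)))) := by
  rw [dif_apply, full, th_append, detpos_val_std, std, th_append, detpos_th_replicate]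
  have h0 : jm E a (some (k, 0)) = dd E (a k) := rfl
  have h1 : jm E a (some (k, 1)) = mm E (a k) := rfl
  have h2 : jm E a (some (k, 2)) = cc E (a k) := rfl
  rw [ad_apply (x (some (k, 0)) ^ d * (E - (1 - E)))]
  simp only [th, Lt.th, Lt.val, sg, h0, h1, h2, ad_apply, if_true, Bool.false_eq_true, if_false,
    mul_zero, zero_mul, add_zero, conjTranspose_conjTranspose]
  congr 3
  noncomm_ring

theorem detpos_unit (x : GG m E) (j : Fin m × Fin 3) :
    (pt 1 x (some j))ᴴ * pt 1 x (some j) = 1 := (x.1 j).2.1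

theorem detpos_cont (j : Fin m × Fin 3) : Continuous fun x : GG m E => pt 1 x (some j) := by
  exact continuous_subtype_val.comp ((continuous_apply j).comp continuous_subtype_val)

/-- The Jacobian of the standard map factors.  With `t, y, u` the components of `x`,
`T a k = t E (a k) E t†`, `P = ∑_{j<d} T^j` and
`A₁ a k = E a E + Q y† (-a_𝔪 + a₂₂ + u a_𝔪 u†) y Q†`, `Q = t^d (2E - 1)`, one has `dif = A₁ ∘ P`.
`J₁ = det A₁`, `J₂ = det P`.  `J₂ ≥ 0`: path `∑_{j<d} (τ T)^j`, injective for `τ < 1` since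
`(1 - τ T) P_τ = 1 - τ^d T^d` and `T` is a contraction (operator norm or Frobenius norm); at points
with `t = 1`, `P a = a + (d - 1) E a E` is injective.
`J₁ > 0` where all `F_k = 1`: from `Q y† u y = 1` and `u E = E` one gets `(1 - E) y† E = 0`, then
(`mul_eq_one_comm` for `E y† E + 1 - E`) `y` commutes with `E`, `t^d = 1`, `u = 2E - 1`, so
`A₁ = Ad (y†) ∘ K y ∘ S`, `S a = a + a_𝔪`, `K y a = y E a E y† + a - E a E`.  `det S > 0` by a path;
`Ad` and `K` (on unitaries fixing `1 - E`; replace `y` by `y E + 1 - E`) are multiplicative with real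
nonzero determinant and `rot s p = (rot (s/2) p)²`, so `unitary_induction` (one coordinate `k`
at a time) gives positivity. -/
theorem std_jac (hE : Eᴴ = E) (hEE : E * E = E) {d : ℕ} (hd : 0 < d) :
    ∃ J₁ J₂ : GG m E → ℝ, Continuous J₁ ∧ Continuous J₂ ∧ (∀ x, 0 ≤ J₂ x) ∧
      (∀ x, LinearMap.det (dif E (std E d) (pt 1 x)) = (J₁ x * J₂ x : ℝ)) ∧
      (∀ x, (∀ k, val (pt 1 x) (full (std E d) k) = 1) → 0 < J₁ x) ∧
      ∃ x, (∀ k, val (pt 1 x) (full (std E d) k) = 1) ∧ 0 < J₂ x := by
  let A : GG m E → (Fin m → Matrix N N ℂ) →ₗ[ℂ] (Fin m → Matrix N N ℂ) := fun x =>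
    dg fun k => AA E (pt 1 x (some (k, 0)) ^ d * (E - (1 - E))) (pt 1 x (some (k, 1)))
      (pt 1 x (some (k, 2)))
  let P : ℝ → GG m E → (Fin m → Matrix N N ℂ) →ₗ[ℂ] (Fin m → Matrix N N ℂ) := fun τ x =>
    dg fun k => PP E d τ (pt 1 x (some (k, 0)))
  have hcomm : ∀ (x : GG m E) k, Commute (pt 1 x (some (k, 0))) E := fun x k =>
    commute_of_fix hE (detpos_unit x _) (x.2 k).1
  have hAs : ∀ x a k, A x (fun k => (a k)ᴴ) k = (A x a k)ᴴ := fun x a k => AA_star hE _ _ _ _
  have hPs : ∀ τ x a k, P τ x (fun k => (a k)ᴴ) k = (P τ x a k)ᴴ := fun τ x a k =>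
    PP_star hE _ _ _ _
  have hpath : ∀ x, 0 ≤ (LinearMap.det (P 1 x)).re ∧
      (Function.Injective (P 1 x) → 0 < (LinearMap.det (P 1 x)).re) := fun x => by
    refine det_pos_of_path (fun τ => P τ x) (fun a k i j => ?_) (fun τ => hPs τ x) ?_
      fun τ h0 h1 => ?_
    · refine Continuous.matrix_elem (A := fun τ => P τ x a k) ?_ i j
      simp only [P, dg_apply, PP_apply]
      fun_prop
    · refine LinearMap.ext fun a => funext fun k => ?_
      exact PP_zero hd _ _
    · exact dg_injective fun k => eq_zero_of_PP hE hEE (hcomm x k)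
        (geom_inj (detpos_unit x _) hd h0 h1)
  refine ⟨fun x => (LinearMap.det (A x)).re, fun x => (LinearMap.det (P 1 x)).re, ?_, ?_,
    fun x => (hpath x).1, fun x => ?_, fun x hx => ?_, ?_⟩
  · refine Complex.continuous_re.comp (detpos_continuous A fun a k i j => ?_)
    refine Continuous.matrix_elem (A := fun x => A x a k) ?_ i j
    have h0 := detpos_cont (E := E) (k, 0)
    have h1 := detpos_cont (E := E) (k, 1)
    have h2 := detpos_cont (E := E) (k, 2)
    simp only [A, dg_apply, AA_apply, ad_apply]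
    fun_prop
  · refine Complex.continuous_re.comp (detpos_continuous (P 1) fun a k i j => ?_)
    refine Continuous.matrix_elem (A := fun x => P 1 x a k) ?_ i j
    have h0 := detpos_cont (E := E) (k, 0)
    simp only [P, dg_apply, PP_apply, ad_apply]
    fun_prop
  · have h1 : dif E (std E d) (pt 1 x) = A x ∘ₗ P 1 x := by
      refine LinearMap.ext fun a => funext fun k => ?_
      rw [detpos_dif]
      simp only [LinearMap.comp_apply, A, P, dg_apply, AA_apply, dd_PP hE hEE (hcomm x k),
        mm_PP hE hEE (hcomm x k), cc_PP hE hEE (hcomm x k), Complex.ofReal_one, one_pow, one_smul]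
    rw [h1, LinearMap.det_comp]
    apply Complex.ext
    · simp [det_im_eq_zero (hAs x)]
    · simp [det_im_eq_zero (hAs x), det_im_eq_zero (hPs 1 x)]
  · have h1 : ∀ k, Commute (pt 1 x (some (k, 1))) E ∧ pt 1 x (some (k, 0)) ^ d = 1 ∧
        pt 1 x (some (k, 2)) = E - (1 - E) := fun k => by
      have h2 := hx k
      rw [detpos_val_full] at h2
      refine struct hE hEE (pow_mem (x.1 (k, 0)).2 d).1 ?_ (detpos_unit x _) (x.2 k).2 h2
      have h3 : pt 1 x (some (k, 0)) * (1 - E) = 1 - E := (x.2 k).1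
      have h4 : ∀ n : ℕ, pt 1 x (some (k, 0)) ^ n * (1 - E) = 1 - E := fun n => by
        induction n with
        | zero => simp
        | succ n ih => rw [pow_succ, mul_assoc, h3, ih]
      exact h4 d
    have h2 : ∀ k, ∃ z : Matrix N N ℂ, zᴴ * z = 1 ∧ z * z = (pt 1 x (some (k, 1)))ᴴ ∧
        Commute z E := fun k => by
      obtain ⟨z, hz, hz1, hz2⟩ := exists_sqrt (Unitary.star_mem (x.1 (k, 1)).2)
      exact ⟨z, hz.1, hz1, hz2 E (commute_star hE (h1 k).1) (by rw [star_star]; exact (h1 k).1)⟩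
    choose z hz1 hz2 hz3 using h2
    have h3 : A x = dg (fun k => HH E (z k)) ∘ₗ dg (fun k => HH E (z k)) := by
      refine LinearMap.ext fun a => funext fun k => ?_
      simp only [LinearMap.comp_apply, A, dg_apply, (h1 k).2.1, (h1 k).2.2, one_mul,
        AA_eq hE hEE (h1 k).1, HH_HH hE hEE (hz3 k), hz2]
    simp only []
    rw [h3]
    exact detpos_sq (fun a k => HH_star hE _ _)
      (dg_injective fun k => eq_zero_of_HH hE hEE (hz3 k) (hz1 k))
  · have hR : (E - (1 - E))ᴴ = E - (1 - E) := by simp [hE]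
    have hRu : E - (1 - E) ∈ unitary (Matrix N N ℂ) := by
      rw [Unitary.mem_iff, star_eq_conjTranspose, hR, and_self]
      exact R_mul_R hEE
    let x₀ : GG m E := ⟨fun j => if j.2 = 2 then ⟨_, hRu⟩ else 1, fun k =>
      ⟨by simp, by simpa using R_mul_E hEE⟩⟩
    have h0 : ∀ k, pt 1 x₀ (some (k, 0)) = 1 := fun k => rfl
    have h1 : ∀ k, pt 1 x₀ (some (k, 1)) = 1 := fun k => rfl
    have h2 : ∀ k, pt 1 x₀ (some (k, 2)) = E - (1 - E) := fun k => rfl
    refine ⟨x₀, fun k => ?_, (hpath x₀).2 (dg_injective fun k => ?_)⟩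
    · rw [detpos_val_full, h0, h1, h2, one_pow, one_mul, conjTranspose_one, one_mul, mul_one,
        R_mul_R hEE]
    · rw [h0]
      exact eq_zero_of_PP hE hEE (Commute.one_left E) (geom_one_inj hd)

end Crest.Agent.R174
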