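import Crest.Agent.R174.Trace

/-! # Row 174: the group algebra, scalar matrices, permutation matrices -/

set_option autoImplicit false
set_option linter.unusedSectionVars false

namespace Crest.Agent.R174

open Matrix

section ga

variable {G : Type*} [Group G]

/-- The adjoint in the group algebra. -/
noncomputable def ga_star (x : MonoidAlgebra ℂ G) : MonoidAlgebra ℂ G :=
  .ofCoeff ((x.coeff.mapRange (starRingEnd ℂ) (map_zero _)).equivMapDomain (Equiv.inv G))

theorem ga_star_coeff (x : MonoidAlgebra ℂ G) (g : G) :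
    (ga_star x).coeff g = (starRingEnd ℂ) (x.coeff g⁻¹) := by
  simp [ga_star]

theorem ga_ext {x y : MonoidAlgebra ℂ G} (h : ∀ g, x.coeff g = y.coeff g) : x = y :=
  MonoidAlgebra.coeff_injective (Finsupp.ext h)

theorem ga_star_add (x y : MonoidAlgebra ℂ G) : ga_star (x + y) = ga_star x + ga_star y :=
  ga_ext fun g => by simp [ga_star_coeff]

theorem ga_star_zero : ga_star (0 : MonoidAlgebra ℂ G) = 0 :=
  ga_ext fun g => by simp [ga_star_coeff]

theorem ga_star_single (g : G) (c : ℂ) :
    ga_star (MonoidAlgebra.single g c) = MonoidAlgebra.single g⁻¹ ((starRingEnd ℂ) c) := by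
  classical
  refine ga_ext fun h => ?_
  simp only [ga_star_coeff, MonoidAlgebra.coeff_single, Finsupp.single_apply]
  by_cases e : g = h⁻¹
  · subst e; simp
  · rw [if_neg e, if_neg (fun e' => e (by rw [← e', inv_inv])), map_zero]

theorem ga_star_mul (x y : MonoidAlgebra ℂ G) : ga_star (x * y) = ga_star y * ga_star x := by
  induction x using MonoidAlgebra.induction_linear with
  | zero => simp [ga_star_zero]
  | add a b ha hb => rw [add_mul, ga_star_add, ga_star_add, mul_add, ha, hb]
  | single g c =>
    induction y using MonoidAlgebra.induction_linear with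
    | zero => simp [ga_star_zero]
    | add a b ha hb => rw [mul_add, ga_star_add, ga_star_add, add_mul, ha, hb]
    | single h d => simp [ga_star_single, mul_comm]

/-- The star ring structure of the group algebra. -/
@[instance_reducible]
noncomputable def ga_starRing (G : Type*) [Group G] : StarRing (MonoidAlgebra ℂ G) where
  star := ga_star
  star_involutive x := ga_ext fun g => by simp [ga_star_coeff]
  star_mul := ga_star_mul
  star_add := ga_star_add

theorem ga_comm (x y : MonoidAlgebra ℂ G) : (x * y).coeff 1 = (y * x).coeff 1 := by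
  rw [MonoidAlgebra.coeff_mul_apply_left, MonoidAlgebra.coeff_mul_apply_right]
  simp [mul_comm]

theorem ga_pos (x : MonoidAlgebra ℂ G) : 0 ≤ ((ga_star x * x).coeff 1).re := by
  rw [MonoidAlgebra.coeff_mul_apply_right, Finsupp.sum, Complex.re_sum]
  refine Finset.sum_nonneg fun g _ => ?_
  simp [ga_star_coeff, mul_self_nonneg, add_nonneg]

end ga

/-- `B = MonoidAlgebra ℂ G` with `star (single g c) = single g⁻¹ (conj c)` and `τ x = x.coeff 1`
(define the `StarRing` and `StarModule` structures as local definitions or on a type synonym;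
`τ (star x * x) = ∑ |x g|²`). -/
theorem exists_grep.{v} (G : Type v) [Group G] :
    ∃ (B : Type v) (_ : Ring B) (_ : StarRing B) (_ : Algebra ℂ B) (_ : StarModule ℂ B),
      Nonempty (GRep G B) := by
  let _ := ga_starRing G
  have hs : ∀ x : MonoidAlgebra ℂ G, star x = ga_star x := fun _ => rfl
  have hm : StarModule ℂ (MonoidAlgebra ℂ G) :=
    ⟨fun c x => ga_ext fun g => by simp [hs, ga_star_coeff]⟩
  refine ⟨MonoidAlgebra ℂ G, inferInstance, inferInstance, inferInstance, hm, ⟨?_⟩⟩
  exact
    { T :=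
        { τ :=
            { toFun := fun x => x.coeff 1
              map_add' := fun x y => by simp
              map_smul' := fun c x => by simp }
          comm := ga_comm
          star' := fun x => by simp [hs, ga_star_coeff]
          pos := ga_pos }
      u := MonoidAlgebra.of ℂ G
      star_u := fun g => by simp [hs, ga_star_single]
      τ_one := by simp
      τ_u := fun g hg => by simp [Finsupp.single_apply, hg] }

/-- The usual trace on `ℂ`. -/
noncomputable def trC : Tr ℂ where
  τ := LinearMap.id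
  comm := mul_comm
  star' _ := rfl
  pos x := by simp [mul_self_nonneg, add_nonneg]

variable {P : Type} [Fintype P] [DecidableEq P]

theorem trC_mat (X : Matrix P P ℂ) : (trC.mat P).τ X = X.trace := rfl

theorem pm_one : pm (1 : Equiv.Perm P) = 1 := by
  ext x y; simp [pm, one_apply]

theorem pm_mul (σ σ' : Equiv.Perm P) : pm (σ * σ') = pm σ * pm σ' := by
  ext x y
  simp [pm, mul_apply]

theorem star_pm (σ : Equiv.Perm P) : star (pm σ) = pm σ⁻¹ := by
  ext x y
  simp only [pm, star_apply, of_apply, Equiv.Perm.eq_inv_iff_eq]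
  by_cases h : y = σ x
  · simp [h]
  · simp [h, Ne.symm h]

theorem pm_mem_unitary (σ : Equiv.Perm P) : pm σ ∈ unitary (Matrix P P ℂ) := by
  constructor
  · rw [star_pm, ← pm_mul, inv_mul_cancel, pm_one]
  · rw [star_pm, ← pm_mul, mul_inv_cancel, pm_one]

theorem pm_mul_apply (σ : Equiv.Perm P) {F : Type} (X : Matrix P F ℂ) (a : P) (b : F) :
    (pm σ * X) a b = X (σ⁻¹ a) b := by
  simp only [pm, mul_apply, of_apply, ← Equiv.Perm.inv_eq_iff_eq]
  simp

theorem mul_pm_apply (σ : Equiv.Perm P) {F : Type} (X : Matrix F P ℂ) (a : F) (b : P) :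
    (X * pm σ) a b = X a (σ b) := by
  simp [pm, mul_apply]

theorem ga_cost_swap (x y : P) : Cost (trC.mat P) Real.pi (pm (Equiv.swap x y)) := by
  by_cases hxy : x = y
  · subst hxy
    rw [Equiv.swap_self, ← Equiv.Perm.one_def, pm_one]
    exact Cost.one Real.pi_pos.le
  have h := cost_invol (T := trC.mat P) (I := pm (Equiv.swap x y))
    (by rw [star_pm, Equiv.swap_inv]) (by rw [← pm_mul, Equiv.swap_mul_self, pm_one])
  refine h.mono (le_of_eq ?_)
  have e : (1 : Matrix P P ℂ).trace - (pm (Equiv.swap x y)).trace = 2 := by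
    rw [← trace_sub, trace]
    rw [Finset.sum_eq_add_of_mem x y (Finset.mem_univ _) (Finset.mem_univ _) hxy]
    · simp [pm, hxy, Ne.symm hxy]; norm_num
    · intro p _ hp
      simp [pm, Equiv.swap_apply_of_ne_of_ne hp.1 hp.2]
  rw [trC_mat, trC_mat, ← Complex.sub_re, e]
  simp

/-- A transposition matrix is an involution of trace `|P| - 2` (or the identity). -/
theorem Sw.cost {k : ℕ} {σ : Equiv.Perm P} (h : Sw k σ) :
    Cost (trC.mat P) (Real.pi * k) (pm σ) := by
  induction h with
  | one k => rw [pm_one]; exact Cost.one (by positivity)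
  | step x y _ ih =>
    rw [pm_mul]
    refine ((ga_cost_swap x y).mul ih).mono (le_of_eq ?_)
    push_cast; ring

variable {G B : Type*} [Group G] [Ring B] [StarRing B] [Algebra ℂ B] [StarModule ℂ B]

theorem sc_apply (X : Matrix P P ℂ) (a b : P) : sc B X a b = algebraMap ℂ B (X a b) := rfl

theorem sc_star (X : Matrix P P ℂ) : sc B (star X) = star (sc B X) := by
  ext a b
  rw [star_apply, sc_apply, sc_apply, star_apply, algebraMap_star_comm]

theorem sc_mem_unitary {X : Matrix P P ℂ} (h : X ∈ unitary (Matrix P P ℂ)) :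
    sc B X ∈ unitary (Matrix P P B) := by
  constructor
  · rw [← sc_star, ← map_mul, h.1, map_one]
  · rw [← sc_star, ← map_mul, h.2, map_one]

theorem tr_sc (R : GRep G B) (X : Matrix P P ℂ) : (R.T.mat P).τ (sc B X) = X.trace := by
  change ∑ p, R.T.τ (sc B X p p) = _
  simp only [sc_apply, Algebra.algebraMap_eq_smul_one, map_smul, R.τ_one, smul_eq_mul, mul_one]
  rfl

theorem Cost.sc (R : GRep G B) {c : ℝ} {U : Matrix P P ℂ} (h : Cost (trC.mat P) c U) :
    Cost (R.T.mat P) c (sc B U) := by
  exact h.map (R174.sc B) sc_star (tr_sc R)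

theorem ga_hasSum_arg {z : ℂ} (hz : ‖z‖ < 1) :
    HasSum (fun n : ℕ => (z ^ n).im / n) (-Complex.arg (1 - z)) := by
  have h := Complex.hasSum_im (Complex.hasSum_taylorSeries_neg_log hz)
  simpa [Complex.log_im] using h

open Classical in
theorem ga_hasSum_ord {g : G} (hg : g ≠ 1) {w : ℂ} (hw : ‖w‖ < 1) :
    ∃ S : ℝ, -S ≤ Real.pi / 4 ∧
      HasSum (fun n : ℕ => (if g ^ n = 1 then w ^ n else 0).im / n) S := by
  rcases Nat.eq_zero_or_pos (orderOf g) with h0 | h0
  · refine ⟨0, by rw [neg_zero]; positivity, ?_⟩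
    have : (fun n : ℕ => (if g ^ n = 1 then w ^ n else 0).im / n) = fun _ => 0 := by
      funext n
      split_ifs with h
      · have := orderOf_dvd_of_pow_eq_one h
        rw [h0, zero_dvd_iff] at this
        simp [this]
      · simp
    rw [this]; exact hasSum_zero
  have h2 : 2 ≤ orderOf g := by
    have : orderOf g ≠ 1 := fun h => hg (orderOf_eq_one_iff.1 h)
    omega
  have hζ : ‖w ^ orderOf g‖ < 1 := by
    rw [norm_pow]; exact pow_lt_one₀ (norm_nonneg _) hw h0.ne'
  have he : (2 : ℝ) ≤ orderOf g := by exact_mod_cast h2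
  refine ⟨-Complex.arg (1 - w ^ orderOf g) / orderOf g, ?_, ?_⟩
  · have h1 : Complex.arg (1 - w ^ orderOf g) ≤ Real.pi / 2 := by
      refine (le_abs_self _).trans (Complex.abs_arg_le_pi_div_two_iff.2 ?_)
      have := (Complex.re_le_norm (w ^ orderOf g)).trans hζ.le
      simp only [Complex.sub_re, Complex.one_re]; linarith
    rw [neg_div, neg_neg, div_le_iff₀ (by positivity)]
    nlinarith [Real.pi_pos]
  · have hinj : Function.Injective fun j : ℕ => orderOf g * j :=
      fun a b h => Nat.eq_of_mul_eq_mul_left h0 h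
    rw [← hinj.hasSum_iff]
    · refine (congrArg (fun f => HasSum f _) (funext fun j => ?_)).mpr
        ((ga_hasSum_arg hζ).div_const (orderOf g : ℝ))
      simp only [Function.comp, pow_mul, pow_orderOf_eq_one, one_pow, if_true, Nat.cast_mul]
      rw [div_div, mul_comm]
    · intro n hn
      rw [if_neg, Complex.zero_im, zero_div]
      intro h
      obtain ⟨j, rfl⟩ := orderOf_dvd_of_pow_eq_one h
      exact hn ⟨j, rfl⟩

/-- `τ (D^n) = |P| - 1 + ω^n [g^n = 1]`.  If `g` has infinite order the last part contributes `0`;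
if it has order `e ≥ 2` it contributes `arg (1 - (z ω)^e) / e ≤ π / 4` (reindex the series along
`j ↦ e j`; `Re (1 - ζ) > 0` gives `|arg (1 - ζ)| ≤ π / 2`). -/
theorem psi_diag_le (R : GRep G B) (q₀ : P) {g : G} (hg : g ≠ 1) {ω z : ℂ} (hω : ‖ω‖ = 1)
    (hz : ‖z‖ < 1) :
    psi (R.T.mat P) z (diagonal fun p => if p = q₀ then ω • R.u g else 1) ≤
      ((Fintype.card P : ℝ) - 1) * Complex.arg (1 - z) + Real.pi / 4 := by
  classical
  have hw : ‖z * ω‖ < 1 := by rwa [norm_mul, hω, mul_one]
  obtain ⟨S, hS, hsum⟩ := ga_hasSum_ord hg hw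
  have htr : ∀ n : ℕ, z ^ n * (R.T.mat P).τ
      ((diagonal fun p => if p = q₀ then ω • R.u g else 1) ^ n) =
      (((Fintype.card P : ℝ) - 1 : ℝ) : ℂ) * z ^ n + if g ^ n = 1 then (z * ω) ^ n else 0 := by
    intro n
    rw [diagonal_pow]
    change z ^ n * ∑ p, R.T.τ _ = _
    simp only [diagonal_apply_eq, Pi.pow_apply]
    rw [← Finset.add_sum_erase _ _ (Finset.mem_univ q₀), if_pos rfl,
      Finset.sum_congr rfl (g := fun _ => 1) fun p hp => by
        rw [if_neg (Finset.ne_of_mem_erase hp), one_pow, R.τ_one]]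
    rw [Finset.sum_const, Finset.card_erase_of_mem (Finset.mem_univ _), Finset.card_univ,
      smul_pow, ← map_pow, map_smul, nsmul_eq_mul,
      Nat.cast_sub (Fintype.card_pos_iff.2 ⟨q₀⟩)]
    split_ifs with h
    · rw [h, map_one, R.τ_one]; push_cast; simp only [smul_eq_mul]; ring
    · rw [R.τ_u _ h]; push_cast; simp only [smul_eq_mul]; ring
  have h1 := ((ga_hasSum_arg hz).mul_left ((Fintype.card P : ℝ) - 1)).add hsum
  have h2 : HasSum (fun n : ℕ => (z ^ n * (R.T.mat P).τ
      ((diagonal fun p => if p = q₀ then ω • R.u g else 1) ^ n)).im / n)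
      (((Fintype.card P : ℝ) - 1) * -Complex.arg (1 - z) + S) := by
    refine (congrArg (fun f => HasSum f _) (funext fun n => ?_)).mpr h1
    rw [htr, Complex.add_im, Complex.im_ofReal_mul]
    ring
  rw [psi, h2.tsum_eq]
  linarith

end Crest.Agent.R174
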