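import Crest.Agent.R174.Defs

/-! # Row 174: costs and the phase in a tracial star algebra -/

set_option autoImplicit false
set_option linter.unusedSectionVars false

namespace Crest.Agent.R174

variable {A : Type*} [Ring A] [StarRing A] [Algebra ℂ A] [StarModule ℂ A] {T : Tr A}

theorem trace_star_rot (s : ℝ) {p : A} (hp : star p = p) : star (rot s p) = rot (-s) p := by
  rw [rot, rot, star_add, star_one, star_smul, hp, star_sub, star_one, Complex.star_def,
    ← Complex.exp_conj, map_mul, Complex.conj_ofReal, Complex.conj_I]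
  push_cast
  rw [mul_neg, neg_mul]

theorem trace_rot_add (s t : ℝ) {p : A} (hpp : p * p = p) : rot (s + t) p = rot s p * rot t p := by
  simp only [rot, add_mul, mul_add, one_mul, mul_one, smul_mul_smul_comm, hpp]
  push_cast
  rw [add_mul, Complex.exp_add]
  module

theorem trace_rot_zero (p : A) : rot 0 p = 1 := by
  simp [rot]

theorem rot_mem_unitary (s : ℝ) {p : A} (hp : star p = p) (hpp : p * p = p) :
    rot s p ∈ unitary A := by
  constructor
  · rw [trace_star_rot s hp, ← trace_rot_add _ _ hpp, neg_add_cancel, trace_rot_zero]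
  · rw [trace_star_rot s hp, ← trace_rot_add _ _ hpp, add_neg_cancel, trace_rot_zero]

theorem star_rot (s : ℝ) {p : A} (hp : star p = p) : star (rot s p) = rot (-s) p := by
  exact trace_star_rot s hp

theorem rot_add (s t : ℝ) {p : A} (hpp : p * p = p) : rot (s + t) p = rot s p * rot t p := by
  exact trace_rot_add s t hpp

theorem rot_zero (p : A) : rot 0 p = 1 := by
  exact trace_rot_zero p

theorem rot_two_pi_sub (s : ℝ) (p : A) : rot (2 * Real.pi - s) p = rot (-s) p := by
  rw [rot, rot]
  push_cast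
  rw [sub_mul, Complex.exp_sub, Complex.exp_two_pi_mul_I, neg_mul, Complex.exp_neg, one_div]

theorem Cost.mono {c c' : ℝ} {U : A} (h : Cost T c U) (hc : c ≤ c') : Cost T c' U := by
  induction h generalizing c' with
  | one h0 => exact Cost.one (h0.trans hc)
  | @step s c p U hs hp hpp _ ih =>
    have := Cost.step hs hp hpp (ih (c' := c' - s * (T.τ p).re) (by linarith))
    rwa [add_sub_cancel] at this

theorem Cost.mem_unitary {c : ℝ} {U : A} (h : Cost T c U) : U ∈ unitary A := by
  induction h with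
  | one _ => exact one_mem _
  | step _ hp hpp _ ih => exact mul_mem (rot_mem_unitary _ hp hpp) ih

theorem Cost.mul {c c' : ℝ} {U V : A} (h : Cost T c U) (h' : Cost T c' V) :
    Cost T (c + c') (U * V) := by
  induction h with
  | one h0 =>
    rw [one_mul]
    exact h'.mono (by linarith)
  | step hs hp hpp _ ih =>
    rw [mul_assoc, add_assoc]
    exact Cost.step hs hp hpp ih

theorem Cost.conj {c : ℝ} {U W : A} (h : Cost T c U) (hW : W ∈ unitary A) :
    Cost T c (W * U * star W) := by
  induction h with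
  | one h0 =>
    rw [mul_one, hW.2]
    exact Cost.one h0
  | @step s c p U hs hp hpp _ ih =>
    have h1 : star (W * p * star W) = W * p * star W := by
      rw [star_mul, star_mul, star_star, hp, mul_assoc]
    have h2 : W * p * star W * (W * p * star W) = W * p * star W := by
      calc _ = W * (p * (star W * W) * p) * star W := by simp only [mul_assoc]
        _ = _ := by rw [hW.1, mul_one, hpp]
    have h3 : T.τ (W * p * star W) = T.τ p := by
      rw [T.comm, ← mul_assoc, hW.1, one_mul]
    have h4 : W * (rot s p * U) * star W = rot s (W * p * star W) * (W * U * star W) := by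
      have : W * p * star W * (W * U * star W) = W * (p * U) * star W := by
        calc _ = W * (p * (star W * W) * U) * star W := by simp only [mul_assoc]
          _ = _ := by rw [hW.1, mul_one]
      simp only [rot, add_mul, mul_add, one_mul, smul_mul_assoc, mul_smul_comm, this]
    rw [h4, ← h3]
    exact Cost.step hs h1 h2 ih

theorem cost_rot {s : ℝ} {p : A} (hs : 0 ≤ s) (hp : star p = p) (hpp : p * p = p) :
    Cost T (s * (T.τ p).re) (rot s p) := by
  simpa using Cost.step hs hp hpp (Cost.one (T := T) le_rfl)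

/-- `I = rot π ((1 - I) / 2)`. -/
theorem cost_invol {I : A} (h : star I = I) (hI : I * I = 1) :
    Cost T (Real.pi * ((T.τ 1).re - (T.τ I).re) / 2) I := by
  have h1 : star ((2⁻¹ : ℂ) • (1 - I)) = (2⁻¹ : ℂ) • (1 - I) := by
    rw [star_smul, star_sub, star_one, h]
    simp
  have h2 : ((2⁻¹ : ℂ) • (1 - I)) * ((2⁻¹ : ℂ) • (1 - I)) = (2⁻¹ : ℂ) • (1 - I) := by
    rw [smul_mul_smul_comm, sub_mul, mul_sub, mul_sub, hI, one_mul, one_mul, mul_one]
    module
  have h3 : rot Real.pi ((2⁻¹ : ℂ) • (1 - I)) = I := by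
    rw [rot, Complex.exp_pi_mul_I]
    module
  have := cost_rot (T := T) Real.pi_pos.le h1 h2
  rw [h3] at this
  convert this using 1
  rw [map_smul, map_sub, smul_eq_mul, show (2⁻¹ : ℂ) = ((2⁻¹ : ℝ) : ℂ) by simp,
    Complex.re_ofReal_mul, Complex.sub_re]
  ring

/-- Transfer along a star and trace preserving algebra map. -/
theorem Cost.map {A' : Type*} [Ring A'] [StarRing A'] [Algebra ℂ A'] [StarModule ℂ A'] {T' : Tr A'}
    (φ : A →ₐ[ℂ] A') (hs : ∀ x, φ (star x) = star (φ x)) (ht : ∀ x, T'.τ (φ x) = T.τ x)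
    {c : ℝ} {U : A} (h : Cost T c U) : Cost T' c (φ U) := by
  induction h with
  | one h0 =>
    rw [map_one]
    exact Cost.one h0
  | @step s c p U hs' hp hpp _ ih =>
    have h1 : φ (rot s p) = rot s (φ p) := by simp [rot]
    rw [map_mul, h1, ← ht]
    exact Cost.step hs' (by rw [← hs, hp]) (by rw [← map_mul, hpp]) ih

theorem psi_comm (z : ℂ) (U V : A) : psi T z (U * V) = psi T z (V * U) := by
  have : ∀ n : ℕ, T.τ ((U * V) ^ n) = T.τ ((V * U) ^ n) := by
    intro n
    cases n with
    | zero => simp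
    | succ n => rw [pow_succ, ← mul_assoc, mul_pow_mul, T.comm, ← mul_assoc, ← pow_succ']
  simp only [psi, this]

theorem psi_smul (z v : ℂ) (U : A) : psi T z (v • U) = psi T (z * v) U := by
  simp only [psi, smul_pow, map_smul, smul_eq_mul, mul_pow, mul_assoc]

theorem psi_star (z : ℂ) (U : A) : psi T z (star U) = -psi T ((starRingEnd ℂ) z) U := by
  rw [psi, psi, ← tsum_neg, neg_neg]
  refine tsum_congr fun n => ?_
  rw [← star_pow, T.star', ← neg_div, ← Complex.conj_im, map_mul, Complex.conj_conj, map_pow]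

/-- `Complex.hasSum_taylorSeries_neg_log`; `τ 1` is real. -/
theorem psi_one {z : ℂ} (hz : ‖z‖ < 1) : psi T z 1 = (T.τ 1).re * Complex.arg (1 - z) := by
  have h0 : T.τ 1 = ((T.τ 1).re : ℂ) := by
    have := T.star' 1
    rw [star_one] at this
    exact (Complex.conj_eq_iff_re.1 this.symm).symm
  have h1 := (Complex.hasSum_im (Complex.hasSum_taylorSeries_neg_log hz)).mul_left (T.τ 1).re
  rw [Complex.neg_im, Complex.log_im, mul_neg] at h1
  rw [psi, neg_eq_iff_eq_neg, ← h1.tsum_eq]
  refine tsum_congr fun n => ?_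
  rw [one_pow, h0, Complex.im_mul_ofReal, Complex.ofReal_re, Complex.div_natCast_im]
  ring

theorem trace_bound {q u : A} (hq : star q = q) (hqq : q * q = q) (hu : u ∈ unitary A) :
    ‖T.τ (q * u * q)‖ ≤ (T.τ q).re := by
  obtain ⟨l, hl, hl'⟩ := Complex.exists_norm_eq_mul_self (T.τ (q * u * q))
  have h0 := T.pos (q - l • (u * q))
  have e : star (q - l • (u * q)) * (q - l • (u * q)) =
      q - l • (q * u * q) - star (l • (q * u * q)) + ((starRingEnd ℂ) l * l) • q := by
    have : q * star u * u * q = q := by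
      rw [mul_assoc q, hu.1, mul_one, hqq]
    simp only [star_sub, star_smul, star_mul, hq, sub_mul, mul_sub, smul_mul_assoc, mul_smul_comm,
      hqq, this, Complex.star_def, ← mul_assoc]
    module
  rw [e, Complex.conj_mul', hl, map_add, map_sub, map_sub, T.star', map_smul T.τ l, smul_eq_mul,
    ← hl'] at h0
  simp at h0
  linarith

theorem trace_summable {U : A} (hU : U ∈ unitary A) {z : ℂ} (hz : ‖z‖ < 1) :
    Summable fun n : ℕ => (z ^ n * T.τ (U ^ n)).im / n := by
  refine Summable.of_norm_bounded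
    ((summable_geometric_of_lt_one (norm_nonneg z) hz).mul_right (T.τ 1).re) fun n => ?_
  have h1 := trace_bound (T := T) (star_one A) (mul_one 1) (pow_mem hU n)
  rw [one_mul, mul_one] at h1
  have h2 : |(z ^ n * T.τ (U ^ n)).im| ≤ ‖z‖ ^ n * (T.τ 1).re := by
    refine (Complex.abs_im_le_norm _).trans ?_
    rw [norm_mul, norm_pow]
    gcongr
  refine le_trans ?_ h2
  rw [Real.norm_eq_abs, abs_div, Nat.abs_cast]
  rcases Nat.eq_zero_or_pos n with rfl | hn
  · simp
  · exact div_le_self (abs_nonneg _) (by exact_mod_cast hn)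

/-- The derivative of a power. -/
def traceD (W b : A) : ℕ → A
  | 0 => 0
  | k + 1 => traceD W b k * W + W ^ k * b

theorem trace_D (W b : A) (k m : ℕ) :
    T.τ (traceD W b k * W ^ (m + 1)) = k * T.τ (b * W ^ (k + m)) := by
  induction k generalizing m with
  | zero => simp [traceD]
  | succ k ih =>
    rw [traceD, add_mul, map_add, mul_assoc, ← pow_succ', ih, mul_assoc, T.comm (W ^ k), mul_assoc,
      ← pow_add, show k + (m + 1) = k + 1 + m by ring, show m + 1 + k = k + 1 + m by ring]
    push_cast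
    ring

theorem trace_deriv (a b : A) (k : ℕ) (Y : A) (c : ℂ) :
    HasDerivAt (fun c : ℂ => T.τ ((a + c • b) ^ k * Y)) (T.τ (traceD (a + c • b) b k * Y)) c := by
  induction k generalizing Y with
  | zero => simpa [traceD] using hasDerivAt_const c (T.τ Y)
  | succ k ih =>
    have h := (ih (a * Y)).add ((hasDerivAt_id c).mul (ih (b * Y)))
    refine (h.congr_of_eventuallyEq (Filter.Eventually.of_forall fun c => ?_)).congr_deriv ?_
    · simp only [pow_succ, mul_assoc, add_mul, mul_add, smul_mul_assoc, mul_smul_comm, map_add,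
        map_smul, smul_eq_mul, Pi.add_apply, Pi.mul_apply, id]
    · simp only [traceD, mul_assoc, add_mul, mul_add, smul_mul_assoc, mul_smul_comm, map_add,
        map_smul, smul_eq_mul, id, one_mul]
      ring

theorem trace_deriv_rot {p : A} (hpp : p * p = p) (V : A) (z : ℂ) (k : ℕ) (t : ℝ) :
    HasDerivAt (fun t : ℝ => (z ^ (k + 1) * T.τ ((rot t p * V) ^ (k + 1))).im / (k + 1 : ℕ))
      (z ^ (k + 1) * T.τ (p * (rot t p * V) ^ (k + 1))).re t := by
  have hW : ∀ t : ℝ, rot t p * V = (V - p * V) + Complex.exp (t * Complex.I) • (p * V) := by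
    intro t
    rw [rot, add_mul, one_mul, smul_mul_assoc]
    module
  have h1 : HasDerivAt (fun ζ : ℂ => Complex.exp (ζ * Complex.I))
      (Complex.exp (t * Complex.I) * Complex.I) (t : ℂ) := by
    simpa using ((hasDerivAt_id (t : ℂ)).mul_const Complex.I).cexp
  have h2 := (((trace_deriv (T := T) (V - p * V) (p * V) (k + 1) 1 _).comp (t : ℂ) h1).const_mul
    (z ^ (k + 1))).comp_ofReal
  have h3 := (Complex.imCLM.hasFDerivAt.comp_hasDerivAt t h2).div_const ((k + 1 : ℕ) : ℝ)
  refine (h3.congr_of_eventuallyEq (Filter.Eventually.of_forall fun t => ?_)).congr_deriv ?_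
  · simp [hW]
  · rw [← hW, mul_one, traceD, map_add]
    have e1 := trace_D (T := T) (rot t p * V) (p * V) k 0
    rw [zero_add, pow_one, add_zero] at e1
    have e2 : p * (rot t p * V) ^ (k + 1) =
        Complex.exp (t * Complex.I) • (p * V * (rot t p * V) ^ k) := by
      rw [pow_succ', ← mul_assoc, ← smul_mul_assoc]
      congr 1
      rw [hW, mul_add, mul_sub, mul_smul_comm, ← mul_assoc, hpp, sub_self, zero_add]
    rw [e1, T.comm ((rot t p * V) ^ k), e2, map_smul, smul_eq_mul, Complex.imCLM_apply,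
      div_eq_iff (by positivity), ← Complex.mul_I_im, ← Complex.im_mul_ofReal]
    congr 1
    push_cast
    ring

theorem trace_herglotz {p W : A} (hp : star p = p) (hpp : p * p = p) (hW : W ∈ unitary A) {z : ℂ}
    (hz : ‖z‖ < 1) (n : ℕ) :
    (T.τ p).re - 2 * (n + 1) * ‖z‖ ^ n * (T.τ p).re ≤
      2 * ∑ k ∈ Finset.range n, (z ^ k * T.τ (p * W ^ k)).re := by
  set η : A := ∑ k ∈ Finset.range n, (z • W) ^ k * p with hη
  set ζ : A := (z • W) ^ n * p with hζ
  have h0 : 0 ≤ (T.τ p).re := by simpa [hp, hpp] using T.pos p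
  have h1 : (z • W) * η = η - (p - ζ) := by
    have := mul_neg_geom_sum (z • W) n
    rw [hη, ← Finset.sum_mul, ← mul_assoc, hζ]
    have e : z • W * ∑ i ∈ Finset.range n, (z • W) ^ i =
        ∑ i ∈ Finset.range n, (z • W) ^ i - (1 - (z • W) ^ n) := by
      rw [← this, sub_mul, one_mul, sub_sub_cancel]
    rw [e, sub_mul, sub_mul, one_mul]
  have h2 : (T.τ (star (z • W * η) * (z • W * η))).re ≤ (T.τ (star η * η)).re := by
    have e : star (z • W * η) * (z • W * η) = ((‖z‖ ^ 2 : ℝ) : ℂ) • (star η * η) := by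
      rw [smul_mul_assoc, star_smul, smul_mul_smul_comm, star_mul, mul_assoc, ← mul_assoc (star W),
        hW.1, one_mul, Complex.star_def, Complex.conj_mul']
      push_cast
      rfl
    rw [e, map_smul, smul_eq_mul, Complex.re_ofReal_mul]
    exact mul_le_of_le_one_left (T.pos η) (pow_le_one₀ (norm_nonneg z) hz.le)
  have sym : ∀ x y : A, (T.τ (star x * y)).re = (T.τ (star y * x)).re := fun x y => by
    rw [← Complex.conj_re, ← T.star', star_mul, star_star]
  have h3 : (T.τ (star p * ζ)).re ≤ ‖z‖ ^ n * (T.τ p).re := by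
    rw [hp, hζ, smul_pow, smul_mul_assoc, mul_smul_comm, map_smul, smul_eq_mul, ← mul_assoc]
    refine (Complex.re_le_norm _).trans ?_
    rw [norm_mul, norm_pow]
    gcongr
    exact trace_bound hp hpp (pow_mem hW n)
  have h4 : -(T.τ (star ζ * η)).re ≤ n * (‖z‖ ^ n * (T.τ p).re) := by
    rw [hη, Finset.mul_sum, map_sum, Complex.re_sum, ← Finset.sum_neg_distrib]
    refine (Finset.sum_le_card_nsmul _ _ (‖z‖ ^ n * (T.τ p).re) fun k _ => ?_).trans (by simp)
    have e : star ζ * ((z • W) ^ k * p) =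
        ((starRingEnd ℂ) (z ^ n) * z ^ k) • (p * (star (W ^ n) * W ^ k) * p) := by
      rw [hζ, smul_pow, smul_pow, smul_mul_assoc, smul_mul_assoc, star_smul, smul_mul_smul_comm,
        star_mul, hp, Complex.star_def]
      simp only [mul_assoc]
    rw [e, map_smul, smul_eq_mul]
    refine (neg_le_abs _).trans ((Complex.abs_re_le_norm _).trans ?_)
    rw [norm_mul, norm_mul, Complex.norm_conj, norm_pow, norm_pow]
    have k1 : ‖z‖ ^ k ≤ 1 := pow_le_one₀ (norm_nonneg z) hz.le
    have k2 := trace_bound (T := T) hp hpp (mul_mem (Unitary.star_mem (pow_mem hW n)) (pow_mem hW k))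
    calc _ ≤ ‖z‖ ^ n * 1 * (T.τ p).re := by gcongr
      _ = _ := by rw [mul_one]
  have h5 : (T.τ (star p * η)).re = ∑ k ∈ Finset.range n, (z ^ k * T.τ (p * W ^ k)).re := by
    rw [hη, Finset.mul_sum, map_sum, Complex.re_sum]
    refine Finset.sum_congr rfl fun k _ => ?_
    rw [hp, smul_pow, smul_mul_assoc, mul_smul_comm, map_smul, smul_eq_mul, ← mul_assoc, T.comm,
      ← mul_assoc, hpp]
  have h6 := T.pos ζ
  have h7 : (T.τ (star p * p)).re = (T.τ p).re := by rw [hp, hpp]
  rw [h1] at h2
  simp only [star_sub, sub_mul, mul_sub, map_sub, Complex.sub_re] at h2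
  have h8 := sym η p
  have h9 := sym η ζ
  have h10 := sym ζ p
  rw [← h5]
  linarith

theorem trace_psi_rot {s : ℝ} {p V : A} (hs : 0 ≤ s) (hp : star p = p) (hpp : p * p = p)
    (hV : V ∈ unitary A) {z : ℂ} (hz : ‖z‖ < 1) :
    2 * psi T z (rot s p * V) ≤ 2 * psi T z V + s * (T.τ p).re := by
  have hW : ∀ t, rot t p * V ∈ unitary A := fun t => mul_mem (rot_mem_unitary t hp hpp) hV
  set g : ℕ → ℝ → ℝ := fun n t =>
    -∑ k ∈ Finset.range (n + 1), (z ^ k * T.τ ((rot t p * V) ^ k)).im / k with hg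
  have hd : ∀ n t, HasDerivAt (g n)
      (-∑ k ∈ Finset.range n, (z ^ (k + 1) * T.τ (p * (rot t p * V) ^ (k + 1))).re) t := by
    intro n t
    have := (HasDerivAt.fun_sum (u := Finset.range n)
      fun k _ => trace_deriv_rot (T := T) hpp V z k t).fun_neg
    refine this.congr_of_eventuallyEq (Filter.Eventually.of_forall fun t => ?_)
    simp only [hg]
    rw [Finset.sum_range_succ']
    simp
  have hb : ∀ n, g n s - g n 0 ≤
      ((T.τ p).re / 2 + (((n + 1 : ℕ) : ℝ) + 1) * ‖z‖ ^ (n + 1) * (T.τ p).re) * (s - 0) := by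
    intro n
    refine image_sub_le_mul_sub_of_deriv_le (fun t => (hd n t).differentiableAt) (fun t => ?_) hs
    rw [(hd n t).deriv]
    have := trace_herglotz (T := T) hp hpp (hW t) hz (n + 1)
    rw [Finset.sum_range_succ', pow_zero, pow_zero, mul_one, one_mul] at this
    linarith
  have hl : ∀ t, Filter.Tendsto (fun n => g n t) Filter.atTop (nhds (psi T z (rot t p * V))) :=
    fun t => ((trace_summable (hW t) hz).hasSum.tendsto_sum_nat.comp
      (Filter.tendsto_add_atTop_nat 1)).neg
  have hz0 : Filter.Tendsto (fun n : ℕ => ((n : ℝ) + 1) * ‖z‖ ^ n) Filter.atTop (nhds 0) := by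
    simpa [add_mul] using (tendsto_self_mul_const_pow_of_lt_one (norm_nonneg z) hz).add
      (tendsto_pow_atTop_nhds_zero_of_lt_one (norm_nonneg z) hz)
  have hr := (((hz0.comp (Filter.tendsto_add_atTop_nat 1)).mul_const (T.τ p).re).const_add
    ((T.τ p).re / 2)).mul_const (s - 0)
  have := le_of_tendsto_of_tendsto' ((hl s).sub (hl 0)) hr hb
  rw [rot_zero, one_mul] at this
  linarith

/-- Main inequality.  By induction on the cost it is enough to treat `U = rot s p`.
Put `W t = rot t p * V` (unitary) and `g_n t = -∑_{k<n} Im (z^k τ (W t ^ k)) / k`.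
(a) For every linear functional `ℓ`, `c ↦ ℓ ((a + c • b)^k)` has derivative
`∑_j ℓ ((a + c b)^j b (a + c b)^(k-1-j))` (induction on `k` generalising `ℓ`); with the trace
property, `d/dt τ (W^k) = k i τ (p W^k)` because `W' = i p W`.  So
`g_n' = -∑_{0<k<n} Re (z^k τ (p W^k)) = Re τ p - Re τ (p η)` with `η = ∑_{k<n} z^k W^k p`.
(b) With `⟨x, y⟩ = τ (star x * y)` (Cauchy–Schwarz: `|τ (p W^k)| ≤ τ p`, `|τ (W^k)| ≤ τ 1`) and
`S = z W`: `0 ≤ |η|² - |S η|² = 2 Re ⟨η, (1-S) η⟩ - |(1-S) η|²`, `(1 - S) η = p - S^n p`, whence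
`2 Re τ (p η) ≥ τ p - 2 (n + 1) |z|^n τ p`.
(c) So `g_n s - g_n 0 ≤ s τ p (1/2 + (n+1) |z|^n)`; let `n → ∞`. -/
theorem psi_mul_le {c : ℝ} {U V : A} (h : Cost T c U) (hV : V ∈ unitary A) {z : ℂ} (hz : ‖z‖ < 1) :
    2 * psi T z (U * V) ≤ 2 * psi T z V + c := by
  induction h with
  | one h0 =>
    rw [one_mul]
    linarith
  | step hs hp hpp hU ih =>
    have := trace_psi_rot (T := T) hs hp hpp (mul_mem hU.mem_unitary hV) hz
    rw [mul_assoc]
    linarith

end Crest.Agent.R174
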