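import Crest.Agent.R174.Poly
import Crest.Agent.R174.Trace

/-! # Row 174: integration over the compact group of the variables -/

set_option autoImplicit false
set_option linter.unusedSectionVars false

namespace Crest.Agent.R174

open Matrix MeasureTheory

variable {m : ℕ} {N : Type} [Fintype N] [DecidableEq N] {E : Matrix N N ℂ}

instance : (hm m E).IsHaarMeasure := by unfold hm; infer_instance

instance : IsFiniteMeasure (hm m E) := CompactSpace.isFiniteMeasure

theorem pt_mem_unitary {c : Matrix N N ℂ} (hc : c ∈ unitaryGroup N ℂ) (x : GG m E) (j : Ix m) :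
    pt c x j ∈ unitaryGroup N ℂ := by
  rcases j with _ | j
  · exact hc
  · exact (x.1 j).2

theorem continuous_pt : Continuous fun q : Matrix N N ℂ × GG m E => pt q.1 q.2 := by
  refine continuous_pi fun j => ?_
  rcases j with _ | j
  · exact continuous_fst
  · exact continuous_subtype_val.comp ((continuous_apply j).comp
      (continuous_subtype_val.comp continuous_snd))

theorem continuous_ev_pt (c : Matrix N N ℂ) (P : PR m N) :
    Continuous fun x : GG m E => ev (pt c x) P := by
  exact (continuous_ev P).comp (continuous_pt.comp (Continuous.prodMk_right c))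

theorem integrable_ev_pt (c : Matrix N N ℂ) (P : PR m N) :
    Integrable (fun x : GG m E => ev (pt c x) P) (hm m E) := by
  exact (continuous_ev_pt c P).integrable_of_hasCompactSupport
    (HasCompactSupport.of_compactSpace _)

open scoped Matrix.Norms.Operator in
theorem haar_exp (a : Matrix N N ℂ) :
    (∀ (t : ℝ) (W : Matrix N N ℂ) (i j : N),
      HasDerivAt (fun s : ℝ => (NormedSpace.exp (s • a) * W) i j)
        ((a * (NormedSpace.exp (t • a) * W)) i j) t) ∧
    (Continuous fun s : ℝ => NormedSpace.exp (s • a)) ∧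
    (aᴴ = -a → ∀ t : ℝ, NormedSpace.exp (t • a) ∈ unitary (Matrix N N ℂ)) ∧
    ∀ (W : Matrix N N ℂ), a * W = 0 → ∀ t : ℝ, NormedSpace.exp (t • a) * W = W := by
  let +nondep : NormedAlgebra ℚ (Matrix N N ℂ) := .restrictScalars ℚ ℂ _
  have hd : ∀ t : ℝ, HasDerivAt (fun s : ℝ => NormedSpace.exp (s • a))
      (a * NormedSpace.exp (t • a)) t := fun t => hasDerivAt_exp_smul_const' (𝕂 := ℝ) a t
  have hd' : ∀ t : ℝ, HasDerivAt (fun s : ℝ => NormedSpace.exp (s • a))
      (NormedSpace.exp (t • a) * a) t := fun t => hasDerivAt_exp_smul_const (𝕂 := ℝ) a t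
  refine ⟨fun t W i j => ?_, continuous_iff_continuousAt.mpr fun t => (hd t).continuousAt,
    fun h t => ?_, fun W hW t => ?_⟩
  · let L : Matrix N N ℂ →L[ℝ] ℂ := LinearMap.toContinuousLinearMap
      { toFun := fun A => A i j, map_add' := fun _ _ => rfl, map_smul' := fun _ _ => rfl }
    have := L.hasFDerivAt.comp_hasDerivAt t ((hd t).mul_const W)
    rw [mul_assoc] at this
    exact this
  · have h1 : (NormedSpace.exp (t • a))ᴴ = NormedSpace.exp (-(t • a)) := by
      rw [← Matrix.exp_conjTranspose, conjTranspose_smul, h, star_trivial, smul_neg]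
    refine ⟨?_, ?_⟩
    · rw [star_eq_conjTranspose, h1, ← Matrix.exp_add_of_commute _ _ (Commute.refl (t • a)).neg_left,
        neg_add_cancel, NormedSpace.exp_zero]
    · rw [star_eq_conjTranspose, h1, ← Matrix.exp_add_of_commute _ _ (Commute.refl (t • a)).neg_right,
        add_neg_cancel, NormedSpace.exp_zero]
  · have h0 : ∀ s : ℝ, HasDerivAt (fun s : ℝ => NormedSpace.exp (s • a) * W) 0 s := fun s => by
      have := (hd' s).mul_const W
      rwa [mul_assoc, hW, mul_zero] at this
    have := is_const_of_deriv_eq_zero (fun s => (h0 s).differentiableAt) (fun s => (h0 s).deriv) t 0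
    simpa using this

theorem haar_hasDerivAt_integral {F F' : ℝ → GG m E → ℂ} (hF : ∀ s, Continuous (F s))
    (hF' : Continuous fun q : ℝ × GG m E => F' q.1 q.2)
    (hd : ∀ s x, HasDerivAt (fun s => F s x) (F' s x) s) (t : ℝ) :
    HasDerivAt (fun s => ∫ x, F s x ∂(hm m E)) (∫ x, F' t x ∂(hm m E)) t := by
  obtain ⟨C, hC⟩ := ((isCompact_closedBall t 1).prod isCompact_univ).exists_bound_of_continuousOn
    hF'.continuousOn
  refine (hasDerivAt_integral_of_dominated_loc_of_deriv_le (Metric.closedBall_mem_nhds t one_pos)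
    (bound := fun _ => C) (.of_forall fun s => (hF s).aestronglyMeasurable)
    ((hF t).integrable_of_hasCompactSupport (HasCompactSupport.of_compactSpace _))
    (hF'.comp (Continuous.prodMk_right t)).aestronglyMeasurable
    (.of_forall fun x s hs => hC (s, x) ⟨hs, trivial⟩) (integrable_const _)
    (.of_forall fun x s _ => hd s x)).2

/-- One-parameter families through `1`: `γ t j = exp (t α j)` (`NormedSpace.exp`,
`exp_mem_unitary_of_mem_skewAdjoint`, `hasDerivAt_exp_smul_const'` with one of the matrix norms;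
`exp (t a) W = W` if `a W = 0` because the derivative vanishes, or from the series). -/
theorem exists_flow {α : Ix m → Matrix N N ℂ} (hα : InLie E α) (hs : ∀ j, (α j)ᴴ = -α j) :
    ∃ γ : ℝ → GG m E, γ 0 = 1 ∧ Continuous γ ∧ ∀ (c : Matrix N N ℂ) (x : GG m E) (t : ℝ) j a b,
      HasDerivAt (fun s => pt c (γ s * x) j a b) ((α j * pt c (γ t * x) j) a b) t := by
  refine ⟨fun t => ⟨fun j => ⟨NormedSpace.exp (t • α (some j)), (haar_exp _).2.2.1 (hs _) t⟩,
    fun k => ⟨(haar_exp _).2.2.2 _ (hα.2 k).1 t, (haar_exp _).2.2.2 _ (hα.2 k).2.2.1 t⟩⟩, ?_, ?_,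
    fun c x t j a b => ?_⟩
  · ext j a b
    simp
  · exact Continuous.subtype_mk (continuous_pi fun j => (haar_exp _).2.1.subtype_mk _) _
  · rcases j with _ | j
    · change HasDerivAt (fun _ => c a b) ((α none * c) a b) t
      rw [hα.1, zero_mul]
      exact hasDerivAt_const t (c a b)
    · exact (haar_exp (α (some j))).1 t (x.1 j) a b

/-- Every direction is a combination of two skew-adjoint ones. -/
theorem InLie.decomp (hE : Eᴴ = E) {α : Ix m → Matrix N N ℂ} (hα : InLie E α) :
    ∃ α₁ α₂ : Ix m → Matrix N N ℂ, InLie E α₁ ∧ InLie E α₂ ∧ (∀ j, (α₁ j)ᴴ = -α₁ j) ∧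
      (∀ j, (α₂ j)ᴴ = -α₂ j) ∧ α = α₁ + Complex.I • α₂ := by
  have hE' : (1 - E)ᴴ = 1 - E := by rw [conjTranspose_sub, conjTranspose_one, hE]
  have hc : ∀ {A W : Matrix N N ℂ}, Wᴴ = W → (A * W = 0 → W * Aᴴ = 0) ∧ (W * A = 0 → Aᴴ * W = 0) :=
    fun {A W} hW => ⟨fun h => by simpa [hW] using congrArg conjTranspose h,
      fun h => by simpa [hW] using congrArg conjTranspose h⟩
  have key : ∀ u v : ℂ, InLie E fun j => u • α j + v • (α j)ᴴ := fun u v => by
    refine ⟨by simp [hα.1], fun k => ?_⟩
    obtain ⟨h1, h2, h3, h4⟩ := hα.2 k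
    simp only [add_mul, mul_add, smul_mul_assoc, mul_smul_comm, h1, h2, h3, h4, (hc hE').1 h1,
      (hc hE').2 h2, (hc hE).1 h3, (hc hE).2 h4, smul_zero, add_zero, and_self]
  refine ⟨_, _, key 2⁻¹ (-2⁻¹), key (-Complex.I / 2) (-Complex.I / 2), fun j => ?_, fun j => ?_, ?_⟩
  · simp only [conjTranspose_add, conjTranspose_smul, conjTranspose_conjTranspose]
    simp
  · simp only [conjTranspose_add, conjTranspose_smul, conjTranspose_conjTranspose]
    have : star (-Complex.I / 2) = -(-Complex.I / 2) := by simp [neg_div]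
    rw [this]; module
  · funext j
    have : Complex.I * (-Complex.I / 2) = 2⁻¹ := by ring_nf; simp; norm_num
    simp only [Pi.add_apply, Pi.smul_apply, smul_add, smul_smul, this]
    module

/-- Left invariance of Haar measure and differentiation under the integral
(`hasDerivAt_integral_of_dominated_loc_of_deriv_le`; the derivative is continuous on a compact set). -/
theorem integral_der (hE : Eᴴ = E) {α : Ix m → Matrix N N ℂ} (hα : InLie E α) (c : Matrix N N ℂ)
    (P : PR m N) : ∫ x : GG m E, ev (pt c x) (der α P) ∂(hm m E) = 0 := by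
  have main : ∀ {β : Ix m → Matrix N N ℂ}, InLie E β → (∀ j, (β j)ᴴ = -β j) →
      ∫ x : GG m E, ev (pt c x) (der β P) ∂(hm m E) = 0 := by
    intro β hβ hs
    obtain ⟨γ, h0, hγ, hd⟩ := exists_flow hβ hs
    have h := haar_hasDerivAt_integral (F := fun s x => ev (pt c (γ s * x)) P)
      (F' := fun s x => ev (pt c (γ s * x)) (der β P))
      (fun s => (continuous_ev_pt c P).comp (continuous_const.mul continuous_id))
      ((continuous_ev_pt c _).comp ((hγ.comp continuous_fst).mul continuous_snd))
      (fun s x => hasDerivAt_ev (x := fun s => pt c (γ s * x)) hs (hd c x s) P) 0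
    have e : (fun s => ∫ x, ev (pt c (γ s * x)) P ∂(hm m E)) =
        fun _ => ∫ x, ev (pt c x) P ∂(hm m E) :=
      funext fun s => integral_mul_left_eq_self (fun x => ev (pt c x) P) (γ s)
    rw [e] at h
    simpa [h0] using h.unique (hasDerivAt_const _ _)
  obtain ⟨α₁, α₂, h1, h2, s1, s2, rfl⟩ := hα.decomp hE
  simp only [der_add, der_smul, Derivation.add_apply, Derivation.smul_apply, map_add, map_smul]
  rw [integral_add (g := fun x => Complex.I • ev (pt c x) (der α₂ P)) (integrable_ev_pt _ _)
    ((integrable_ev_pt _ _).smul Complex.I), integral_smul, main h1 s1, main h2 s2]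
  simp

/-- Uniqueness of derivatives along the flows. -/
theorem ev_der_congr (hE : Eᴴ = E) {α : Ix m → Matrix N N ℂ} (hα : InLie E α)
    {c c' : Matrix N N ℂ} {P P' : PR m N} (h : ∀ x : GG m E, ev (pt c x) P = ev (pt c' x) P')
    (x : GG m E) : ev (pt c x) (der α P) = ev (pt c' x) (der α P') := by
  have main : ∀ {β : Ix m → Matrix N N ℂ}, InLie E β → (∀ j, (β j)ᴴ = -β j) →
      ev (pt c x) (der β P) = ev (pt c' x) (der β P') := by
    intro β hβ hs
    obtain ⟨γ, h0, -, hd⟩ := exists_flow hβ hs
    have h1 := hasDerivAt_ev (x := fun s => pt c (γ s * x)) hs (hd c x 0) P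
    have h2 := hasDerivAt_ev (x := fun s => pt c' (γ s * x)) hs (hd c' x 0) P'
    simp only [h] at h1
    simpa [h0] using h1.unique h2
  obtain ⟨α₁, α₂, h1, h2, s1, s2, rfl⟩ := hα.decomp hE
  simp only [der_add, der_smul, Derivation.add_apply, Derivation.smul_apply, map_add, map_smul,
    main h1 s1, main h2 s2]

/-- `(rot t p * c)' = (i p) * (rot t p * c)`. -/
theorem hasDerivAt_integral_rot {p : Matrix N N ℂ} (hp : pᴴ = p) (hpp : p * p = p)
    (c : Matrix N N ℂ) (P : PR m N) (t : ℝ) :
    HasDerivAt (fun s => ∫ x : GG m E, ev (pt (rot s p * c) x) P ∂(hm m E))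
      (∫ x : GG m E, ev (pt (rot t p * c) x) (der (dir p) P) ∂(hm m E)) t := by
  have hc : Continuous fun s : ℝ => rot s p * c := by unfold rot; fun_prop
  refine haar_hasDerivAt_integral (F := fun s x => ev (pt (rot s p * c) x) P)
    (F' := fun s x => ev (pt (rot s p * c) x) (der (dir p) P)) (fun s => continuous_ev_pt _ P)
    ((continuous_ev _).comp (continuous_pt.comp ((hc.comp continuous_fst).prodMk continuous_snd)))
    (fun s x => hasDerivAt_ev (x := fun s => pt (rot s p * c) x) (fun j => ?_)
      (fun j a b => ?_) P) t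
  · rcases j with _ | j
    · simp [dir, hp]
    · simp [dir]
  · rcases j with _ | j
    · have e : dir (m := m) p none * (rot s p * c) =
          (Complex.exp (s * Complex.I) * Complex.I) • (p * c) := by
        simp only [dir, rot, add_mul, mul_add, one_mul, smul_mul_assoc, mul_smul_comm, ← mul_assoc,
          hpp]
        module
      have e' : (fun s : ℝ => pt (rot s p * c) x none a b) =
          fun s : ℝ => c a b + (Complex.exp (s * Complex.I) - 1) * (p * c) a b := by
        funext s
        simp [pt, rot, add_mul]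
      rw [e']
      change HasDerivAt _ ((dir (m := m) p none * (rot s p * c)) a b) s
      rw [e, Matrix.smul_apply, smul_eq_mul]
      have h1 : HasDerivAt (fun s : ℝ => (s : ℂ) * Complex.I) Complex.I s := by
        simpa using (Complex.ofRealCLM.hasDerivAt (x := s)).mul_const Complex.I
      exact ((h1.cexp.sub_const 1).mul_const _).const_add _
    · simpa [dir, pt] using hasDerivAt_const s ((x.1 j : Matrix N N ℂ) a b)

end Crest.Agent.R174
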