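import Mathlib

/-! # Row 174: the algebraic Piola identity -/

set_option autoImplicit false

namespace Crest.Agent.R174

open Matrix

section aux

variable {K : Type} [CommRing K] {ι : Type} [Fintype ι] [DecidableEq ι]

theorem piola_det_updateRow (X : Matrix ι ι K) (i : ι) (v : ι → K) :
    (X.updateRow i v).det = ∑ j, v j * X.adjugate j i := by
  rw [← cramer_transpose_apply, cramer_eq_adjugate_mulVec, ← adjugate_transpose, mulVec,
    dotProduct]
  exact Finset.sum_congr rfl fun j _ => by rw [transpose_apply, mul_comm]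

theorem piola_det_rows (X : Matrix ι ι K) :
    X.det = ∑ σ : Equiv.Perm ι, ((Equiv.Perm.sign σ : ℤ) : K) * ∏ i, X i (σ i) := by
  rw [← det_transpose, det_apply']
  rfl

omit [Fintype ι] in
theorem piola_leibniz_prod {S : Type} [CommRing S] [Algebra ℂ S] (d : Derivation ℂ S S)
    (s : Finset ι) (x : ι → S) :
    d (∏ i ∈ s, x i) = ∑ i ∈ s, d (x i) * ∏ j ∈ s.erase i, x j := by
  induction s using Finset.induction_on with
  | empty => simp
  | insert a s ha ih =>
    rw [Finset.prod_insert ha, Finset.sum_insert ha, Derivation.leibniz, ih, Finset.erase_insert ha,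
      smul_eq_mul, smul_eq_mul, Finset.mul_sum, add_comm, mul_comm]
    congr 1
    refine Finset.sum_congr rfl fun i hi => ?_
    have hai : a ≠ i := fun h => ha (h ▸ hi)
    rw [Finset.erase_insert_of_ne hai,
      Finset.prod_insert fun h => ha (Finset.mem_of_mem_erase h)]
    ring

theorem piola_deriv_det {S : Type} [CommRing S] [Algebra ℂ S] (d : Derivation ℂ S S)
    (X : Matrix ι ι S) : d X.det = ∑ i, ∑ j, d (X i j) * X.adjugate j i := by
  have h1 : ∀ i, ∑ j, d (X i j) * X.adjugate j i =
      ∑ σ : Equiv.Perm ι, ((Equiv.Perm.sign σ : ℤ) : S) *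
        (d (X i (σ i)) * ∏ k ∈ Finset.univ.erase i, X k (σ k)) := by
    intro i
    rw [← piola_det_updateRow X i fun j => d (X i j), piola_det_rows]
    refine Finset.sum_congr rfl fun σ _ => ?_
    rw [← Finset.mul_prod_erase _ _ (Finset.mem_univ i), updateRow_self]
    congr 2
    exact Finset.prod_congr rfl fun k hk => by rw [updateRow_ne (Finset.ne_of_mem_erase hk)]
  simp only [h1]
  rw [Finset.sum_comm, piola_det_rows, map_sum]
  refine Finset.sum_congr rfl fun σ _ => ?_
  rw [← zsmul_eq_mul, map_zsmul, piola_leibniz_prod, zsmul_eq_mul, Finset.mul_sum]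

/-- the determinant with two rows replaced -/
def piolaB (a : Matrix ι ι K) (c c' : ι) (u v : ι → K) : K :=
  ((a.updateRow c u).updateRow c' v).det

theorem piolaB_swap (a : Matrix ι ι K) {c c' : ι} (h : c' ≠ c) (u v : ι → K) :
    piolaB a c c' u v = -piolaB a c c' v u := by
  have e : (a.updateRow c u).updateRow c' v =
      ((a.updateRow c v).updateRow c' u).submatrix (Equiv.swap c c') id := by
    ext i j
    rw [submatrix_apply, id]
    by_cases h1 : i = c
    · subst h1
      rw [Equiv.swap_apply_left, updateRow_self, updateRow_ne h.symm, updateRow_self]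
    · by_cases h2 : i = c'
      · subst h2
        rw [Equiv.swap_apply_right, updateRow_self, updateRow_ne h.symm, updateRow_self]
      · rw [Equiv.swap_apply_of_ne_of_ne h1 h2, updateRow_ne h2, updateRow_ne h2, updateRow_ne h1,
          updateRow_ne h1]
  rw [piolaB, e, det_permute, Equiv.Perm.sign_swap h.symm, piolaB]
  simp

theorem piolaB_right (a : Matrix ι ι K) (c c' : ι) (u v : ι → K) :
    piolaB a c c' u v = ∑ j, v j * piolaB a c c' u (Pi.single j 1) := by
  simp only [piolaB, ← adjugate_apply]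
  exact piola_det_updateRow _ _ _

theorem piolaB_expand (a : Matrix ι ι K) {c c' : ι} (h : c' ≠ c) (u v : ι → K) :
    ∑ b, ∑ b', piolaB a c c' (Pi.single b 1) (Pi.single b' 1) * (u b * v b') =
      piolaB a c c' u v := by
  rw [piolaB_swap a h u v, piolaB_right a c c' v u, ← Finset.sum_neg_distrib]
  refine Finset.sum_congr rfl fun b _ => ?_
  rw [piolaB_swap a h v, piolaB_right a c c' _ v, mul_neg, neg_neg, Finset.mul_sum]
  exact Finset.sum_congr rfl fun b' _ => by ring

theorem piola_det_row (X : Matrix ι ι K) (k i : ι) :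
    (X.updateRow k (X i)).det = if i = k then X.det else 0 := by
  split_ifs with h
  · rw [h, updateRow_eq_self]
  · exact det_updateRow_eq_zero h

theorem piolaB_rows (a : Matrix ι ι K) {c c' : ι} (h : c' ≠ c) (i j : ι) :
    piolaB a c c' (a i) (a j) =
      (if i = c ∧ j = c' then a.det else 0) - (if i = c' ∧ j = c then a.det else 0) := by
  by_cases hj : j = c
  · subst hj
    rw [piolaB_swap a h, piolaB, updateRow_eq_self, piola_det_row]
    simp [h.symm]
  · have e : a j = (a.updateRow c (a i)) j := (updateRow_ne hj).symm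
    rw [piolaB, e, piola_det_row, piola_det_row]
    by_cases h1 : j = c' <;> by_cases h2 : i = c <;> simp [h1, h2, hj, h]

theorem piolaB_sum (a : Matrix ι ι K) (c b b' i : ι) :
    ∑ c' ∈ Finset.univ.erase c, piolaB a c c' (Pi.single b 1) (Pi.single b' 1) * a c' i =
      (if b' = i then a.adjugate b c else 0) - (if i = b then a.adjugate b' c else 0) := by
  have h1 := congrFun (congrFun (adjugate_mul (a.updateRow c (Pi.single b 1))) b') i
  rw [mul_apply, ← Finset.add_sum_erase _ _ (Finset.mem_univ c), updateRow_self, adjugate_apply,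
    updateRow_idem, ← adjugate_apply, ← adjugate_apply, Matrix.smul_apply, Matrix.one_apply, Pi.single_apply,
    smul_eq_mul, mul_ite, mul_ite, mul_one, mul_zero, mul_one, mul_zero] at h1
  rw [← h1, add_sub_cancel_left]
  refine Finset.sum_congr rfl fun c' hc' => ?_
  rw [updateRow_ne (Finset.ne_of_mem_erase hc'), adjugate_apply, piolaB]

theorem piola_core (a : Matrix ι ι ℂ) (t κ γ : ι → ι → ι → ℂ)
    (hκa : ∀ b b' i, κ b b' i = -κ b' b i) (hγa : ∀ c i j, γ c i j = -γ c j i)
    (hκ : ∀ b', ∑ b, κ b b' b = 0) (hγ : ∀ j, ∑ c, γ c c j = 0)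
    (hA : ∀ c b b', t b c b' - t b' c b =
      ∑ i, κ b b' i * a c i + ∑ i, ∑ j, γ c i j * a i b * a j b') (c : ι) :
    ∑ c' ∈ Finset.univ.erase c, ∑ b, ∑ b',
      piolaB a c c' (Pi.single b 1) (Pi.single b' 1) * t b c' b' = 0 := by
  set M : ι → ι → ι → ℂ := fun c' b b' => piolaB a c c' (Pi.single b 1) (Pi.single b' 1) with hM
  have h2 : ∀ c' ∈ Finset.univ.erase c, 2 * ∑ b, ∑ b', M c' b b' * t b c' b' =
      ∑ b, ∑ b', ∑ i, κ b b' i * (M c' b b' * a c' i) + -(2 * a.det) * γ c' c' c := by
    intro c' hc'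
    have hne := Finset.ne_of_mem_erase hc'
    have e1 : ∑ b, ∑ b', M c' b b' * t b c' b' = -∑ b, ∑ b', M c' b b' * t b' c' b := by
      rw [Finset.sum_comm, ← Finset.sum_neg_distrib]
      refine Finset.sum_congr rfl fun b _ => ?_
      rw [← Finset.sum_neg_distrib]
      refine Finset.sum_congr rfl fun b' _ => ?_
      simp only [hM]
      rw [piolaB_swap a hne]; ring
    have e2 : ∑ b, ∑ b', M c' b b' * ∑ i, ∑ j, γ c' i j * a i b * a j b' =
        -(2 * a.det) * γ c' c' c := by
      have e3 : ∑ b, ∑ b', M c' b b' * ∑ i, ∑ j, γ c' i j * a i b * a j b' =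
          ∑ i, ∑ j, γ c' i j * ∑ b, ∑ b', M c' b b' * (a i b * a j b') := by
        simp only [Finset.mul_sum]
        calc _ = ∑ b, ∑ i, ∑ b', ∑ j, M c' b b' * (γ c' i j * a i b * a j b') :=
              Finset.sum_congr rfl fun b _ => Finset.sum_comm
          _ = ∑ i, ∑ b, ∑ b', ∑ j, M c' b b' * (γ c' i j * a i b * a j b') := Finset.sum_comm
          _ = ∑ i, ∑ b, ∑ j, ∑ b', M c' b b' * (γ c' i j * a i b * a j b') :=
              Finset.sum_congr rfl fun i _ => Finset.sum_congr rfl fun b _ => Finset.sum_comm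
          _ = ∑ i, ∑ j, ∑ b, ∑ b', M c' b b' * (γ c' i j * a i b * a j b') :=
              Finset.sum_congr rfl fun i _ => Finset.sum_comm
          _ = _ := Finset.sum_congr rfl fun i _ => Finset.sum_congr rfl fun j _ =>
              Finset.sum_congr rfl fun b _ => Finset.sum_congr rfl fun b' _ => by ring
      rw [e3]
      simp only [hM, piolaB_expand a hne, piolaB_rows a hne, mul_sub, Finset.sum_sub_distrib,
        ite_and, mul_ite, mul_zero]
      simp only [Finset.sum_ite_irrel, Finset.sum_const_zero, Finset.sum_ite_eq',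
        Finset.mem_univ, if_true]
      rw [hγa c' c c']; ring
    rw [two_mul]
    nth_rewrite 2 [e1]
    rw [← sub_eq_add_neg, ← e2, ← Finset.sum_sub_distrib, ← Finset.sum_add_distrib]
    refine Finset.sum_congr rfl fun b _ => ?_
    rw [← Finset.sum_sub_distrib, ← Finset.sum_add_distrib]
    refine Finset.sum_congr rfl fun b' _ => ?_
    rw [← mul_sub, hA, mul_add, Finset.mul_sum]
    congr 1
    exact Finset.sum_congr rfl fun i _ => by ring
  have h3 : ∑ c' ∈ Finset.univ.erase c, γ c' c' c = 0 := by
    have e1 := hγ c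
    have e2 : γ c c c = 0 := by
      have := hγa c c c
      linear_combination this / 2
    rwa [← Finset.add_sum_erase _ _ (Finset.mem_univ c), e2, zero_add] at e1
  have h4 : ∑ c' ∈ Finset.univ.erase c, ∑ b, ∑ b', ∑ i, κ b b' i * (M c' b b' * a c' i) = 0 := by
    have e1 : ∑ c' ∈ Finset.univ.erase c, ∑ b, ∑ b', ∑ i, κ b b' i * (M c' b b' * a c' i) =
        ∑ b, ∑ b', ∑ i, κ b b' i * ∑ c' ∈ Finset.univ.erase c, M c' b b' * a c' i := by
      simp only [Finset.mul_sum]
      rw [Finset.sum_comm]
      refine Finset.sum_congr rfl fun b _ => ?_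
      rw [Finset.sum_comm]
      exact Finset.sum_congr rfl fun b' _ => Finset.sum_comm
    rw [e1]
    simp only [hM, piolaB_sum, mul_sub, Finset.sum_sub_distrib, mul_ite, mul_zero,
      Finset.sum_ite_eq, Finset.sum_ite_eq', Finset.mem_univ, if_true]
    have e2 : ∑ b, ∑ b', κ b b' b' * a.adjugate b c = 0 := by
      refine Finset.sum_eq_zero fun b _ => ?_
      rw [← Finset.sum_mul]
      have : ∑ b', κ b b' b' = 0 := by
        rw [← neg_eq_zero, ← Finset.sum_neg_distrib, ← hκ b]
        exact Finset.sum_congr rfl fun b' _ => (hκa b' b b').symm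
      rw [this, zero_mul]
    have e3 : ∑ b, ∑ b', κ b b' b * a.adjugate b' c = 0 := by
      rw [Finset.sum_comm]
      refine Finset.sum_eq_zero fun b' _ => ?_
      rw [← Finset.sum_mul, hκ, zero_mul]
    rw [e2, e3, sub_zero]
  have h5 := Finset.sum_congr rfl h2
  rw [← Finset.mul_sum, Finset.sum_add_distrib, ← Finset.mul_sum, h3, h4, mul_zero,
    add_zero] at h5
  exact (mul_eq_zero.1 h5).resolve_left two_ne_zero

end aux

/-- The divergence of the cofactor matrix vanishes.  `D b` are derivations, `e` is an evaluation at a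
point, and at that point the matrix `A` satisfies a Maurer–Cartan equation with traceless
structure constants.

Proof.  `r ↦ e r + ε e (D b r)` is a ring map `S → DualNumber ℂ`, so with `a = A.map e`,
`t b = A.map (e ∘ D b)` the claim is about `W b = snd (adjugate (a + ε t b))` (`RingHom.map_adjugate`).
Prove over any commutative ring `K` (for `a`, `t`, `κ`, `γ` over `K`): taking `snd` of
`adjugate X * X = det X • 1` for `X = a + ε t b`, and `snd (det X) = trace (adjugate a * t b)`
(`Matrix.det_one_add_smul`-like, or `det_apply` with the product rule, or derive it after multiplying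
by `det a`), gives for every `b'`
`∑_c (∑_b W b b c) a c b' = -∑_{b,c} adjugate a b c (t b c b' - t b' c b) = 0`
(insert `hA`, use `adjugate a * a = a * adjugate a = det a • 1`, `hκ`, `hγ`).  Hence
`det a * ∑_b W b b c = 0`.  To cancel `det a` apply this over `K = ℂ[X]` to `a' = a + X • 1` (monic
determinant, cf. `Matrix.charpoly_monic`) and `t' b c b' = t b c b' + (R a' - R a) c b b' / 2`, `R` the
right-hand side of `hA` (antisymmetric in `b, b'`), and evaluate at `X = 0`. -/
theorem piola {S : Type} [CommRing S] [Algebra ℂ S] {ι : Type} [Fintype ι] [DecidableEq ι]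
    (e : S →ₐ[ℂ] ℂ) (D : ι → Derivation ℂ S S) (A : Matrix ι ι S) (κ γ : ι → ι → ι → ℂ)
    (hκa : ∀ b b' i, κ b b' i = -κ b' b i) (hγa : ∀ c i j, γ c i j = -γ c j i)
    (hκ : ∀ b', ∑ b, κ b b' b = 0) (hγ : ∀ j, ∑ c, γ c c j = 0)
    (hA : ∀ c b b', e (D b (A c b')) - e (D b' (A c b)) =
      ∑ i, κ b b' i * e (A c i) + ∑ i, ∑ j, γ c i j * e (A i b) * e (A j b'))
    (c : ι) : ∑ b, e (D b (A.adjugate b c)) = 0 := by
  have h := piola_core (A.map e) (fun b c b' => e (D b (A c b'))) κ γ hκa hγa hκ hγ hA c
  rw [Finset.sum_comm] at h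
  rw [← h]
  refine Finset.sum_congr rfl fun b _ => ?_
  rw [adjugate_apply, piola_deriv_det, ← Finset.add_sum_erase _ _ (Finset.mem_univ c), map_add,
    map_sum, map_sum]
  have h0 : ∑ j, e (D b (A.updateRow c (Pi.single b 1) c j) *
      (A.updateRow c (Pi.single b 1)).adjugate j c) = 0 := by
    refine Finset.sum_eq_zero fun j _ => ?_
    rw [updateRow_self, Pi.single_apply]
    split_ifs <;> simp
  rw [h0, zero_add]
  refine Finset.sum_congr rfl fun c' hc' => ?_
  rw [map_sum]
  refine Finset.sum_congr rfl fun b' _ => ?_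
  have h1 := congrFun (congrFun (AlgHom.map_adjugate e (A.updateRow c (Pi.single b 1))) b') c'
  have h2 : (e : S → ℂ) ∘ (Pi.single b 1 : ι → S) = Pi.single b 1 := by
    funext j
    simp only [Function.comp_apply, Pi.single_apply]
    split_ifs <;> simp
  rw [AlgHom.mapMatrix_apply, AlgHom.mapMatrix_apply, map_apply, map_updateRow, h2] at h1
  rw [map_mul, h1, updateRow_ne (Finset.ne_of_mem_erase hc'), adjugate_apply, piolaB, mul_comm]

end Crest.Agent.R174
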