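import Crest.Agent.R174.Haar
import Crest.Agent.R174.Piola

/-! # Row 174: homotopy invariance of the degree integral -/

set_option autoImplicit false
set_option linter.unusedSectionVars false
set_option linter.unusedSimpArgs false

namespace Crest.Agent.R174

open Matrix MeasureTheory

variable {m : ℕ} {N : Type} [Fintype N] [DecidableEq N] {E : Matrix N N ℂ}

/-- the basis `bas` -/
noncomputable def homot_B (m : ℕ) (N : Type) [Fintype N] [DecidableEq N] :
    Module.Basis (Fin m × N × N) ℂ (Fin m → Matrix N N ℂ) :=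
  Module.Basis.ofEquivFun
    { toFun := fun a b => a b.1 b.2.1 b.2.2
      invFun := fun f k => Matrix.of fun i j => f (k, i, j)
      map_add' := fun _ _ => rfl
      map_smul' := fun _ _ => rfl
      left_inv := fun _ => rfl
      right_inv := fun _ => rfl }

theorem homot_B_repr (a : Fin m → Matrix N N ℂ) (b : Fin m × N × N) :
    (homot_B m N).repr a b = a b.1 b.2.1 b.2.2 := rfl

theorem homot_B_apply (b : Fin m × N × N) : homot_B m N b = bas b := by
  refine (homot_B m N).repr.injective ?_
  ext ⟨k, i, j⟩
  obtain ⟨k', i', j'⟩ := b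
  rw [Module.Basis.repr_self, homot_B_repr, Finsupp.single_apply]
  by_cases hk : k = k'
  · subst hk
    simp [bas, Matrix.single_apply]
  · simp [bas, hk, Ne.symm hk]

theorem homot_expand (a : Fin m → Matrix N N ℂ) : ∑ b, a b.1 b.2.1 b.2.2 • bas b = a := by
  conv_rhs => rw [← (homot_B m N).sum_repr a]
  simp only [homot_B_repr, homot_B_apply]

theorem homot_trace (f : (Fin m → Matrix N N ℂ) →ₗ[ℂ] (Fin m → Matrix N N ℂ)) :
    LinearMap.trace ℂ _ f = ∑ b, f (bas b) b.1 b.2.1 b.2.2 := by
  rw [LinearMap.trace_eq_matrix_trace ℂ (homot_B m N), Matrix.trace]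
  simp only [Matrix.diag, LinearMap.toMatrix_apply, homot_B_repr, homot_B_apply]

/-- left and right multiplication -/
noncomputable def homot_LR (X Y : Fin m → Matrix N N ℂ) :
    (Fin m → Matrix N N ℂ) →ₗ[ℂ] (Fin m → Matrix N N ℂ) where
  toFun a := X * a * Y
  map_add' a b := by rw [mul_add, add_mul]
  map_smul' c a := by simp

theorem homot_trace_LR (X Y : Fin m → Matrix N N ℂ) :
    LinearMap.trace ℂ _ (homot_LR X Y) = ∑ k, (X k).trace * (Y k).trace := by
  rw [homot_trace, Fintype.sum_prod_type]
  refine Finset.sum_congr rfl fun k _ => ?_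
  rw [Fintype.sum_prod_type, Matrix.trace, Matrix.trace, Finset.sum_mul_sum]
  refine Finset.sum_congr rfl fun i _ => Finset.sum_congr rfl fun j _ => ?_
  simp [homot_LR, bas, Matrix.mul_apply, Matrix.single_apply, ite_and]

theorem homot_th_congr (x : Ix m → Matrix N N ℂ) {α β : Ix m → Matrix N N ℂ}
    (h0 : α none = β none) (h1 : ∀ i, α (some (i, 0)) = β (some (i, 0))) :
    ∀ w : List (Lt m N), (∀ l ∈ w, l.Adm) → th x α w = th x β w
  | [], _ => rfl
  | l :: w, h => by
      rw [th, th, homot_th_congr x h0 h1 w fun l hl => h l (List.mem_cons_of_mem _ hl)]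
      congr 1
      have h2 := h l List.mem_cons_self
      cases l with
      | c b => rfl
      | v j ε =>
        rcases h2 with rfl | ⟨i, rfl⟩
        · simp only [Lt.th, h0]
        · simp only [Lt.th, h1]

theorem homot_th_full (x α : Ix m → Matrix N N ℂ) (ws : Fin m → List (Lt m N)) (k : Fin m) :
    th x α (full ws k) = th x α (ws k) + val x (ws k) * ((x (some (k, 1)))ᴴ *
      (-α (some (k, 1)) + α (some (k, 2)) + x (some (k, 2)) * α (some (k, 1)) * (x (some (k, 2)))ᴴ)
      * x (some (k, 1))) * (val x (ws k))ᴴ := by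
  rw [full, th_append]
  congr 3
  simp only [th, Lt.th, Lt.val, sg, if_true, Bool.false_eq_true, if_false,
    conjTranspose_conjTranspose]
  noncomm_ring

theorem inLie_jm (hEE : E * E = E) (a : Fin m → Matrix N N ℂ) : InLie E (jm E a) := by
  have h1 : E * (1 - E) = 0 := by rw [mul_sub, mul_one, hEE, sub_self]
  have h2 : (1 - E) * E = 0 := by rw [sub_mul, one_mul, hEE, sub_self]
  refine ⟨rfl, fun k => ⟨?_, ?_, ?_, ?_⟩⟩
  · simp [jm, mul_assoc, h1]
  · simp [jm, ← mul_assoc, h2]
  · simp [jm, mul_assoc, h2]
  · simp [jm, ← mul_assoc, h1]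

/-- The integral only depends on the values of the words (`ev_der_congr` entrywise for the Jacobian
matrix, `map_ev_pol`, `map_ev_pol'`). -/
theorem II_congr (hE : Eᴴ = E) (hEE : E * E = E) {ws ws' : Fin m → List (Lt m N)}
    {c c' : Matrix N N ℂ}
    (h : ∀ (x : GG m E) k, val (pt c x) (ws k) = val (pt c' x) (ws' k)) (M : ℕ) :
    II E ws c M = II E ws' c' M := by
  have hv : ∀ (x : GG m E) k, val (pt c x) (full ws k) = val (pt c' x) (full ws' k) := by
    intro x k
    rw [full, full, val_append, val_append, h]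
    rfl
  have h1 : ∀ (x : GG m E) k i j, ev (pt c x) (pol (full ws k) i j)
      = ev (pt c' x) (pol (full ws' k) i j) := fun x k i j => by
    have := (map_ev_pol (pt c x) (full ws k)).trans
      ((hv x k).trans (map_ev_pol (pt c' x) (full ws' k)).symm)
    exact congrFun (congrFun this i) j
  have h2 : ∀ (x : GG m E) k i j, ev (pt c x) (pol' (full ws k) i j)
      = ev (pt c' x) (pol' (full ws' k) i j) := fun x k i j => by
    have := (map_ev_pol' (pt c x) (full ws k)).trans
      ((congrArg _ (hv x k)).trans (map_ev_pol' (pt c' x) (full ws' k)).symm)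
    exact congrFun (congrFun this i) j
  unfold II
  refine integral_congr_ae (Filter.Eventually.of_forall fun x => ?_)
  beta_reduce
  rw [map_mul, map_mul, map_pow, map_pow, ev_Phi, ev_Phi, AlgHom.map_det, AlgHom.map_det]
  simp only [hv]
  refine congrArg _ (congrArg _ ?_)
  ext b b'
  simp only [AlgHom.mapMatrix_apply, Matrix.map_apply, Jac, Matrix.of_apply, Matrix.mul_apply,
    map_sum, map_mul, h2]
  refine Finset.sum_congr rfl fun l _ => ?_
  rw [ev_der_congr hE (inLie_jm hEE _) (fun x => h1 x b.1 b.2.1 l)]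

/-- The bracket of two source directions acts as a source direction.  Write `a = a₁₁ + a_𝔪 + a₂₂`.
The bracket `jm b * jm a - jm a * jm b` has components `[b₁₁, a₁₁]`, `h = [b_𝔪, a_𝔪]` (commutes with
`E`) and `[b₂₂, a₂₂]`; since `th` of `y† u y` is `y† (-α₁ + α₂ + u α₁ u†) y` and the words `ws k` do
not contain `y, u`, the component `h` acts as `u h u† - h`, which lies in the `22` block because
`u E = E = E u`.  So `κ a b k = [b₁₁, a₁₁] + [b₂₂, a₂₂] + (u h u† - h)`; the trace of `a ↦ κ a b`
vanishes (`a ↦ x a y` has trace `tr x * tr y`; the last part maps into the `22` block and kills it). -/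
theorem exists_kappa (hE : Eᴴ = E) (hEE : E * E = E) {ws : Fin m → List (Lt m N)}
    (hws : ∀ k, ∀ l ∈ ws k, l.Adm) (c : Matrix N N ℂ) (x : GG m E) :
    ∃ κ : (Fin m → Matrix N N ℂ) →ₗ[ℂ] (Fin m → Matrix N N ℂ) →ₗ[ℂ] (Fin m → Matrix N N ℂ),
      (∀ a b, κ a b = -κ b a) ∧ (∀ b, LinearMap.trace ℂ _ (κ.flip b) = 0) ∧
      ∀ a b k, th (pt c x) (fun j => jm E b j * jm E a j - jm E a j * jm E b j) (full ws k) =
        dif E ws (pt c x) (κ a b) k := by
  set F : Matrix N N ℂ := 1 - E with hF
  have h1 : E * F = 0 := by rw [hF, mul_sub, mul_one, hEE, sub_self]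
  have h2 : F * E = 0 := by rw [hF, sub_mul, one_mul, hEE, sub_self]
  have h3 : F * F = F := by
    nth_rewrite 2 [hF]
    rw [mul_sub, mul_one, h2, sub_zero]
  set u : Fin m → Matrix N N ℂ := fun k => pt c x (some (k, 2)) with hu
  have uE : ∀ k, u k * E = E := fun k => (x.2 k).2
  have uu : ∀ k, (u k)ᴴ * u k = 1 := fun k => (x.1 (k, 2)).2.1
  have u'E : ∀ k, (u k)ᴴ * E = E := fun k => by
    conv_lhs => rw [← uE k, ← mul_assoc, uu, one_mul]
  have Eu : ∀ k, E * u k = E := fun k => by
    have := congrArg conjTranspose (u'E k)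
    rwa [conjTranspose_mul, conjTranspose_conjTranspose, hE] at this
  have Eu' : ∀ k, E * (u k)ᴴ = E := fun k => by
    have := congrArg conjTranspose (uE k)
    rwa [conjTranspose_mul, hE] at this
  have r1 : ∀ X : Matrix N N ℂ, E * (E * X) = E * X := fun X => by rw [← mul_assoc, hEE]
  have r2 : ∀ X : Matrix N N ℂ, F * (F * X) = F * X := fun X => by rw [← mul_assoc, h3]
  have r3 : ∀ X : Matrix N N ℂ, E * (F * X) = 0 := fun X => by rw [← mul_assoc, h1, zero_mul]
  have r4 : ∀ X : Matrix N N ℂ, F * (E * X) = 0 := fun X => by rw [← mul_assoc, h2, zero_mul]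
  -- the bracket of the off-diagonal parts
  set h : (Fin m → Matrix N N ℂ) → (Fin m → Matrix N N ℂ) → Fin m → Matrix N N ℂ := fun a b k =>
    (E * b k * F + F * b k * E) * (E * a k * F + F * a k * E)
      - (E * a k * F + F * a k * E) * (E * b k * F + F * b k * E) with hh
  have hc : ∀ a b k, E * h a b k = h a b k * E := fun a b k => by
    simp only [hh, mul_add, add_mul, mul_sub, sub_mul, mul_assoc, r1, r2, r3, r4, h1, h2, h3, hEE,
      mul_zero, zero_mul, add_zero, zero_add]
  set g : (Fin m → Matrix N N ℂ) → (Fin m → Matrix N N ℂ) → Fin m → Matrix N N ℂ := fun a b k =>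
    u k * h a b k * (u k)ᴴ - h a b k with hg
  have Eg : ∀ a b k, E * g a b k = 0 := fun a b k => by
    simp only [hg]
    rw [mul_sub, ← mul_assoc, ← mul_assoc, Eu, hc, mul_assoc, Eu', sub_self]
  have gE : ∀ a b k, g a b k * E = 0 := fun a b k => by
    simp only [hg]
    rw [sub_mul, mul_assoc, u'E, mul_assoc, ← hc, ← mul_assoc, uE, sub_self]
  have Fg : ∀ a b k, F * g a b k = g a b k := fun a b k => by
    rw [hF, sub_mul, one_mul, Eg, sub_zero]
  have gF : ∀ a b k, g a b k * F = g a b k := fun a b k => by
    rw [hF, mul_sub, mul_one, gE, sub_zero]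
  let G : (Fin m → Matrix N N ℂ) →ₗ[ℂ] (Fin m → Matrix N N ℂ) →ₗ[ℂ] (Fin m → Matrix N N ℂ) :=
    LinearMap.mk₂ ℂ g
      (fun a a' b => by funext k; simp only [hg, hh, Pi.add_apply]; noncomm_ring)
      (fun s a b => by
        funext k
        simp only [hg, hh, Pi.smul_apply, mul_smul_comm, smul_mul_assoc, ← smul_add, ← smul_sub])
      (fun a b b' => by funext k; simp only [hg, hh, Pi.add_apply]; noncomm_ring)
      (fun s a b => by
        funext k
        simp only [hg, hh, Pi.smul_apply, mul_smul_comm, smul_mul_assoc, ← smul_add, ← smul_sub])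
  let A : Matrix N N ℂ →
      (Fin m → Matrix N N ℂ) →ₗ[ℂ] (Fin m → Matrix N N ℂ) →ₗ[ℂ] (Fin m → Matrix N N ℂ) := fun P =>
    LinearMap.mk₂ ℂ (fun a b k => (P * b k * P) * (P * a k * P) - (P * a k * P) * (P * b k * P))
      (fun a a' b => by funext k; simp only [Pi.add_apply]; noncomm_ring)
      (fun s a b => by
        funext k
        simp only [Pi.smul_apply, mul_smul_comm, smul_mul_assoc, ← smul_sub])
      (fun a b b' => by funext k; simp only [Pi.add_apply]; noncomm_ring)
      (fun s a b => by
        funext k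
        simp only [Pi.smul_apply, mul_smul_comm, smul_mul_assoc, ← smul_sub])
  have hκ : ∀ a b k, (A E + A F + G) a b k
      = (E * b k * E) * (E * a k * E) - (E * a k * E) * (E * b k * E)
        + ((F * b k * F) * (F * a k * F) - (F * a k * F) * (F * b k * F)) + g a b k :=
    fun a b k => rfl
  refine ⟨A E + A F + G, fun a b => ?_, fun b => ?_, fun a b k => ?_⟩
  · funext k
    rw [Pi.neg_apply, hκ, hκ]
    simp only [hg, hh]
    noncomm_ring
  · have tA : ∀ P, LinearMap.trace ℂ _ ((A P).flip b) = 0 := by
      intro P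
      have : (A P).flip b = homot_LR (fun k => P * b k * P * P) (fun _ => P)
          - homot_LR (fun _ => P) (fun k => P * (P * b k * P)) := by
        refine LinearMap.ext fun a => funext fun k => ?_
        show (P * b k * P) * (P * a k * P) - (P * a k * P) * (P * b k * P)
          = P * b k * P * P * a k * P - P * a k * (P * (P * b k * P))
        simp only [mul_assoc]
      rw [this, map_sub, homot_trace_LR, homot_trace_LR, sub_eq_zero]
      exact Finset.sum_congr rfl fun k _ => by rw [mul_comm, trace_mul_comm (P * b k * P) P]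
    have tG : LinearMap.trace ℂ _ (G.flip b) = 0 := by
      have e1 : G.flip b = homot_LR (fun _ => F) (fun _ => F) ∘ₗ G.flip b := by
        refine LinearMap.ext fun a => funext fun k => ?_
        show g a b k = F * g a b k * F
        rw [Fg, gF]
      have e2 : G.flip b ∘ₗ homot_LR (fun _ => F) (fun _ => F) = 0 := by
        refine LinearMap.ext fun a => funext fun k => ?_
        show g (fun k => F * a k * F) b k = 0
        simp only [hg, hh, mul_assoc, r3, h2, mul_zero, zero_mul, add_zero, sub_self]
      rw [e1, LinearMap.trace_comp_comm', e2, map_zero]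
    have : (A E + A F + G).flip b = (A E).flip b + (A F).flip b + G.flip b := rfl
    rw [this, map_add, map_add, tA, tA, tG, add_zero, add_zero]
  · rw [dif_apply, homot_th_full, homot_th_full]
    have j0 : ∀ (a : Fin m → Matrix N N ℂ) k, jm E a (some (k, 0)) = E * a k * E :=
      fun a k => rfl
    have j1 : ∀ (a : Fin m → Matrix N N ℂ) k, jm E a (some (k, 1)) = E * a k * F + F * a k * E :=
      fun a k => rfl
    have j2 : ∀ (a : Fin m → Matrix N N ℂ) k, jm E a (some (k, 2)) = F * a k * F :=
      fun a k => rfl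
    rw [homot_th_congr _ (β := jm E ((A E + A F + G) a b)) (by simp [jm]) (fun i => ?_) _ (hws k)]
    · congr 5
      have e1 : jm E ((A E + A F + G) a b) (some (k, 1)) = 0 := by
        rw [j1, hκ]
        simp only [mul_add, add_mul, mul_sub, sub_mul, mul_assoc, r1, r2, r3, r4, h1, h2, h3, hEE,
          mul_zero, zero_mul, add_zero, zero_add, sub_zero, gE, gF, Eg]
      have e2 : jm E ((A E + A F + G) a b) (some (k, 2))
          = (F * b k * F) * (F * a k * F) - (F * a k * F) * (F * b k * F) + g a b k := by
        rw [j2, hκ]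
        simp only [mul_add, add_mul, mul_sub, sub_mul, mul_assoc, r1, r2, r3, r4, h1, h2, h3, hEE,
          mul_zero, zero_mul, add_zero, zero_add, sub_zero, gF, Fg]
      rw [e1, e2]
      simp only [j1, j2]
      show -h a b k + _ + u k * h a b k * (u k)ᴴ = _
      simp only [hg]
      noncomm_ring
    · simp only [j0]
      rw [hκ]
      simp only [mul_add, add_mul, mul_sub, sub_mul, mul_assoc, r1, r2, r3, r4, h1, h2, h3, hEE,
        mul_zero, zero_mul, add_zero, zero_add, sub_zero, gE]

/-- Apply `piola` with `ι = Unit ⊕ (Fin m × N × N)`, directions `dir p` and `jm E (bas b)`, and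
`Â = fromBlocks 1 0 v (Jac E ws)`, `v` the column of `(X_(dir p) F) F†`.  Then `W = adjugate Â · (inl ())`
has `W (inl ()) = det Â = det Jac`, `∑_b θ_b W_b = 0` (rows of `Â * adjugate Â`) and divergence zero;
`X_α Phi` is a linear function of `θ_α` at the point, so
`∑_b X_b (Phi^M W_b) = 0` pointwise.  The structure constants `γ` are those of the commutator
on `Fin m → Matrix N N ℂ` (`maurer_cartan`), `dir p` commutes with the `jm E a`. -/
theorem exists_div (hE : Eᴴ = E) (hEE : E * E = E) {ws : Fin m → List (Lt m N)}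
    (hws : ∀ k, ∀ l ∈ ws k, l.Adm) (p : Matrix N N ℂ) (M : ℕ) :
    ∃ W : Fin m × N × N → PR m N, ∀ c ∈ unitaryGroup N ℂ, ∀ x : GG m E,
      ev (pt c x) (der (dir p) (Phi ws ^ M * (Jac E ws).det)) +
        ∑ b, ev (pt c x) (der (jm E (bas b)) (W b)) = 0 := by
  set δ : Unit ⊕ (Fin m × N × N) → Ix m → Matrix N N ℂ :=
    Sum.elim (fun _ => dir p) (fun b => jm E (bas b)) with hδ
  set A : Matrix (Unit ⊕ (Fin m × N × N)) (Unit ⊕ (Fin m × N × N)) (PR m N) :=
    fromBlocks 1 0 (Matrix.of fun c _ =>
      ((pol (full ws c.1)).map (der (dir p)) * pol' (full ws c.1) : Matrix N N (PR m N))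
        c.2.1 c.2.2) (Jac E ws) with hA
  have hA2 : ∀ c i, A (.inr c) i
      = ((pol (full ws c.1)).map (der (δ i)) * pol' (full ws c.1) : Matrix N N (PR m N))
        c.2.1 c.2.2 := fun c i => by cases i <;> rfl
  have hW1 : A.adjugate (.inl ()) (.inl ()) = (Jac E ws).det := by
    have := congrFun (congrFun (mul_adjugate A) (.inl ())) (.inl ())
    rw [mul_apply, Fintype.sum_sum_type] at this
    simpa [hA, det_fromBlocks_zero₁₂] using this
  have hW2 : ∀ c, ∑ i, A (.inr c) i * A.adjugate i (.inl ()) = 0 := fun c => by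
    have := congrFun (congrFun (mul_adjugate A) (.inr c)) (.inl ())
    rw [mul_apply] at this
    simpa using this
  refine ⟨fun b => Phi ws ^ M * A.adjugate (.inr b) (.inl ()), fun c hc x => ?_⟩
  have hx := pt_mem_unitary hc x
  set y := pt c x with hy
  set Θ : Unit ⊕ (Fin m × N × N) → Fin m → Matrix N N ℂ := fun i k => th y (δ i) (full ws k)
    with hΘ
  have hval := fun k => val_mem_unitary hx (uni_full hws k)
  have evA : ∀ c i, ev y (A (.inr c) i) = Θ i c.1 c.2.1 c.2.2 := by
    intro c i
    have : ((pol (full ws c.1)).map (der (δ i)) * pol' (full ws c.1) : Matrix N N (PR m N)).map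
        (ev y) = Θ i c.1 := by
      rw [Matrix.map_mul, ev_der_pol hx _ (uni_full hws _), map_ev_pol', mul_assoc,
        ← star_eq_conjTranspose, (hval c.1).2, mul_one]
    rw [hA2, ← this, Matrix.map_apply]
  obtain ⟨κ, κa, κt, κe⟩ := exists_kappa hE hEE hws c x
  have hdiv := piola (ev y) (fun i => der (δ i)) A
    (fun b b' i => Sum.elim (fun _ => 0) (fun b => Sum.elim (fun _ => 0) (fun b' =>
      Sum.elim (fun _ => 0) (fun i => κ (bas b) (bas b') i.1 i.2.1 i.2.2) i) b') b)
    (fun c i j => Sum.elim (fun _ => 0) (fun c => Sum.elim (fun _ => 0) (fun i =>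
      Sum.elim (fun _ => 0) (fun j => (bas i * bas j - bas j * bas i) c.1 c.2.1 c.2.2) j) i) c)
    (by
      rintro (b | b) (b' | b') (i | i) <;> simp
      rw [κa]; simp)
    (by rintro (b | b) (b' | b') (i | i) <;> simp)
    (by
      rintro (b' | b')
      · simp [Fintype.sum_sum_type]
      · have := κt (bas b')
        rw [homot_trace] at this
        simpa [Fintype.sum_sum_type] using this)
    (by
      rintro (j | j)
      · simp [Fintype.sum_sum_type]
      · have : LinearMap.trace ℂ _ (homot_LR 1 (bas j) - homot_LR (bas j) 1) = 0 := by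
          rw [map_sub, homot_trace_LR, homot_trace_LR, sub_eq_zero]
          exact Finset.sum_congr rfl fun k _ => mul_comm _ _
        rw [homot_trace] at this
        simpa [Fintype.sum_sum_type, homot_LR] using this)
    (by
      rintro (c | c) b b'
      · have z : ∀ i j, der (δ i) (A (.inl c) j) = 0 := by
          rintro i (j | j) <;> simp [hA]
        have z2 : ∀ i, A (.inl c) (.inr i) = 0 := fun i => rfl
        rw [z, z, Fintype.sum_sum_type]
        rcases b with b | b <;> rcases b' with b' | b' <;> simp [z2]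
      · have mc := congrFun (congrFun
          (maurer_cartan hx (δ b) (δ b') (uni_full hws c.1)) c.2.1) c.2.2
        rw [Matrix.sub_apply, Matrix.map_apply, Matrix.map_apply, Matrix.map_apply,
          Matrix.map_apply, ← hA2, ← hA2] at mc
        rw [mc, Matrix.add_apply]
        congr 1
        · have z : th y (fun _ => 0) (full ws c.1) = 0 := (thL y (full ws c.1)).map_zero
          rcases b with b | b <;> rcases b' with b' | b'
          · simp [z]
          · have : (fun j => δ (.inr b') j * δ (.inl b) j - δ (.inl b) j * δ (.inr b') j)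
                = fun _ => 0 := by
              funext j; cases j <;> simp [hδ, dir, jm]
            simp [this, z]
          · have : (fun j => δ (.inl b') j * δ (.inr b) j - δ (.inr b) j * δ (.inl b') j)
                = fun _ => 0 := by
              funext j; cases j <;> simp [hδ, dir, jm]
            simp [this, z]
          · simp only [hδ, Sum.elim_inr]
            rw [κe, Fintype.sum_sum_type]
            conv_lhs => rw [← homot_expand (κ (bas b) (bas b'))]
            simp only [map_sum, map_smul, Finset.sum_apply, Matrix.sum_apply, Pi.smul_apply,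
              Matrix.smul_apply, smul_eq_mul, Sum.elim_inl, Sum.elim_inr, zero_mul,
              Finset.sum_const_zero, zero_add, evA]
            rfl
        · show (Θ b * Θ b' - Θ b' * Θ b) c.1 c.2.1 c.2.2 = _
          have : Θ b * Θ b' - Θ b' * Θ b = ∑ i : Fin m × N × N, ∑ j : Fin m × N × N,
              (Θ b i.1 i.2.1 i.2.2 * Θ b' j.1 j.2.1 j.2.2) • (bas i * bas j - bas j * bas i) := by
            conv_lhs => rw [← homot_expand (Θ b), ← homot_expand (Θ b')]
            rw [Finset.sum_mul_sum, Finset.sum_mul_sum, Finset.sum_comm (f := fun j i =>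
              (Θ b' j.1 j.2.1 j.2.2 • bas j) * (Θ b i.1 i.2.1 i.2.2 • bas i)),
              ← Finset.sum_sub_distrib]
            refine Finset.sum_congr rfl fun i _ => ?_
            rw [← Finset.sum_sub_distrib]
            refine Finset.sum_congr rfl fun j _ => ?_
            rw [smul_mul_smul_comm, smul_mul_smul_comm, smul_sub, mul_comm (Θ b' _ _ _)]
          rw [this]
          simp only [Fintype.sum_sum_type, Finset.sum_apply, Matrix.sum_apply, Pi.smul_apply,
            Matrix.smul_apply, smul_eq_mul, Sum.elim_inl, Sum.elim_inr, zero_mul,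
            Finset.sum_const_zero, zero_add, evA]
          refine Finset.sum_congr rfl fun i _ => Finset.sum_congr rfl fun j _ => ?_
          ring)
    (.inl ())
  -- the derivative of `Phi`
  have hPhi : ∀ i, ev y (der (δ i) (Phi ws)) = 1 / 2 * ∑ k,
      ((Θ i k * val y (full ws k)).trace - ((val y (full ws k))ᴴ * Θ i k).trace) := by
    intro i
    have t : ∀ X : Matrix N N (PR m N), ev y (der (δ i) X.trace)
        = ((X.map (der (δ i))).map (ev y)).trace := fun X => by
      simp [Matrix.trace, map_sum]
    unfold Phi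
    rw [map_add, Derivation.leibniz, MvPolynomial.derivation_C, MvPolynomial.derivation_C]
    simp only [smul_zero, add_zero, zero_add, smul_eq_mul, map_mul, map_sum, map_add, t,
      ev_der_pol hx _ (uni_full hws _), ev_der_pol' hx _ (uni_full hws _), trace_neg]
    have e : ev y (MvPolynomial.C (1 / 2)) = 1 / 2 := by simp [ev]
    simp only [e, hΘ, sub_eq_add_neg, smul_zero, mul_zero, add_zero, map_zero]
  have hΘ0 : ∀ k, ∑ i, ev y (A.adjugate i (.inl ())) • Θ i k = 0 := by
    intro k
    ext a b
    have := congrArg (ev y) (hW2 (k, a, b))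
    simp only [map_sum, map_mul, evA, map_zero] at this
    simp only [Matrix.sum_apply, Matrix.smul_apply, smul_eq_mul, Matrix.zero_apply]
    rw [← this]
    exact Finset.sum_congr rfl fun i _ => mul_comm _ _
  have h0 : ∑ i, ev y (A.adjugate i (.inl ())) * ev y (der (δ i) (Phi ws)) = 0 := by
    simp only [hPhi, Finset.mul_sum]
    rw [Finset.sum_comm]
    refine Finset.sum_eq_zero fun k _ => ?_
    have h1 := congrArg (fun X => 1 / 2 * ((X * val y (full ws k)).trace
      - ((val y (full ws k))ᴴ * X).trace)) (hΘ0 k)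
    simp only [Finset.sum_mul, Finset.mul_sum, trace_sum, smul_mul_assoc, mul_smul_comm,
      trace_smul, smul_eq_mul, zero_mul, mul_zero, trace_zero, sub_self,
      ← Finset.sum_sub_distrib] at h1
    rw [← h1]
    exact Finset.sum_congr rfl fun i _ => by ring
  have h1 : ∑ i, ev y (der (δ i) (Phi ws ^ M * A.adjugate i (.inl ()))) = 0 := by
    have : ∀ i, ev y (der (δ i) (Phi ws ^ M * A.adjugate i (.inl ())))
        = ev y (Phi ws ^ M) * ev y (der (δ i) (A.adjugate i (.inl ())))
          + (M * ev y (Phi ws ^ (M - 1)))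
            * (ev y (A.adjugate i (.inl ())) * ev y (der (δ i) (Phi ws))) := by
      intro i
      rw [Derivation.leibniz, Derivation.leibniz_pow]
      simp only [smul_eq_mul, nsmul_eq_mul, map_add, map_mul, map_natCast]
      ring
    simp only [this, Finset.sum_add_distrib, ← Finset.mul_sum, hdiv, h0, mul_zero, add_zero]
  rw [Fintype.sum_sum_type] at h1
  simpa [hW1, hδ] using h1

/-- `hasDerivAt_integral_rot`, `exists_div`, `integral_der`. -/
theorem II_rot (hE : Eᴴ = E) (hEE : E * E = E) {ws : Fin m → List (Lt m N)}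
    (hws : ∀ k, ∀ l ∈ ws k, l.Adm) {p c : Matrix N N ℂ} (hp : pᴴ = p) (hpp : p * p = p)
    (hc : c ∈ unitaryGroup N ℂ) (s : ℝ) (M : ℕ) : II E ws (rot s p * c) M = II E ws c M := by
  obtain ⟨W, hW⟩ := exists_div hE hEE hws p M
  have hd : ∀ t, HasDerivAt (fun s => II E ws (rot s p * c) M) 0 t := by
    intro t
    have h1 := hasDerivAt_integral_rot (m := m) (E := E) hp hpp c (Phi ws ^ M * (Jac E ws).det) t
    refine h1.congr_deriv ?_
    have hu : rot t p * c ∈ unitaryGroup N ℂ := mul_mem (rot_mem_unitary t hp hpp) hc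
    have h2 : ∀ x : GG m E, ev (pt (rot t p * c) x) (der (dir p) (Phi ws ^ M * (Jac E ws).det))
        = -∑ b, ev (pt (rot t p * c) x) (der (jm E (bas b)) (W b)) := fun x =>
      eq_neg_of_add_eq_zero_left (hW _ hu x)
    simp only [h2]
    rw [integral_neg, integral_finsetSum _ fun b _ => integrable_ev_pt _ _]
    simp only [integral_der hE (inLie_jm hEE _), Finset.sum_const_zero, neg_zero]
  have := is_const_of_deriv_eq_zero (fun t => (hd t).differentiableAt) (fun t => (hd t).deriv) s 0
  simpa only [rot_zero, one_mul] using this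

end Crest.Agent.R174
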