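import Crest.Agent.R174.Defs

/-! # Row 174: group-theoretic preparation -/

set_option autoImplicit false

namespace Crest.Agent.R174

open Monoid

variable {G : Type*} [Group G] {n m : ℕ}

/-- `y` or its inverse. -/
def gsg {H : Type*} [Group H] (b : Bool) (y : H) : H := if b then y else y⁻¹

theorem expo_mul (y y' : Coprod G (FreeGroup (Fin n))) (j : Fin n) :
    expo (y * y') j = expo y j + expo y' j := by
  simp [expo]

theorem expo_inv (y : Coprod G (FreeGroup (Fin n))) (j : Fin n) : expo y⁻¹ j = -expo y j := by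
  simp [expo]

theorem expo_inl (g : G) (j : Fin n) : expo (Coprod.inl g : Coprod G (FreeGroup (Fin n))) j = 0 := by
  simp [expo]

theorem prep_evl_cons {P : Type*} (x : P → Fin n × Bool) (d : P → G) (p : P) (l : List P) :
    evl x d (p :: l) = Coprod.inr (FreeGroup.mk [x p]) * Coprod.inl (d p) * evl x d l := by
  simp [evl]

theorem prep_expo_letter (a : Fin n × Bool) (j : Fin n) :
    expo (Coprod.inr (FreeGroup.mk [a]) : Coprod G (FreeGroup (Fin n))) j =
      if a.1 = j then sgn a.2 else 0 := by
  obtain ⟨i, b⟩ := a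
  by_cases h : i = j
  · subst h
    cases b <;> simp [expo, sgn]
  · cases b <;> simp [expo, h, Ne.symm h]

theorem expo_evl {P : Type*} (x : P → Fin n × Bool) (d : P → G) (l : List P) (j : Fin n) :
    expo (evl x d l) j = (l.map fun p => if (x p).1 = j then sgn (x p).2 else 0).sum := by
  induction l with
  | nil => simp [expo, evl]
  | cons p l ih =>
    rw [prep_evl_cons, expo_mul, expo_mul, ih, expo_inl, prep_expo_letter]
    simp

theorem evl_append {P : Type*} (x : P → Fin n × Bool) (d : P → G) (l l' : List P) :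
    evl x d (l ++ l') = evl x d l * evl x d l' := by
  simp [evl]

theorem evl_map {P P' : Type*} (x : P' → Fin n × Bool) (d : P' → G) (e : P → P') (l : List P) :
    evl x d (l.map e) = evl (fun p => x (e p)) (fun p => d (e p)) l := by
  simp [evl, List.map_map, Function.comp_def]

theorem prep_evl_pair (t : Fin n) (a : G) :
    evl Prod.fst Prod.snd [(((t, true) : Fin n × Bool), (1 : G)), ((t, false), a)] = Coprod.inl a := by
  have : FreeGroup.mk [(t, false)] = (FreeGroup.mk [(t, true)])⁻¹ := by
    rw [FreeGroup.inv_mk]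
    rfl
  rw [prep_evl_cons, prep_evl_cons, this, map_inv]
  simp [evl, -FreeGroup.inv_mk]

theorem prep_exists_list (hn : 0 < n) (y : Coprod G (FreeGroup (Fin n))) :
    ∃ l : List ((Fin n × Bool) × G), evl Prod.fst Prod.snd l = y := by
  induction y using Coprod.induction_on with
  | inl a => exact ⟨_, prep_evl_pair ⟨0, hn⟩ a⟩
  | inr b =>
    obtain ⟨L, rfl⟩ := Quot.exists_rep b
    refine ⟨L.map fun a => (a, 1), ?_⟩
    rw [FreeGroup.quot_mk_eq_mk]
    induction L with
    | nil => simp [evl, ← FreeGroup.one_eq_mk]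
    | cons a L ih =>
      rw [List.map_cons, prep_evl_cons, ih, map_one, mul_one, ← map_mul, FreeGroup.mul_mk]
      rfl
  | mul x y hx hy =>
    obtain ⟨l, rfl⟩ := hx
    obtain ⟨l', rfl⟩ := hy
    exact ⟨l ++ l', evl_append _ _ _ _⟩

/-- Every element is the value of a nonempty word whose last coefficient is `1`
(`Coprod.induction_on`; `inl a = t 1 t⁻¹ a`; append `t 1 t⁻¹ 1`). -/
theorem exists_word (hn : 0 < n) (y : Coprod G (FreeGroup (Fin n))) :
    ∃ (s : ℕ) (x : Fin (s + 1) → Fin n × Bool) (d : Fin (s + 1) → G),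
      d (Fin.last s) = 1 ∧ evl x d (List.finRange (s + 1)) = y := by
  obtain ⟨l, rfl⟩ := prep_exists_list hn y
  let t : Fin n := ⟨0, hn⟩
  let l' : List ((Fin n × Bool) × G) := l ++ [((t, true), 1)]
  let e : Fin (l'.length + 1) → (Fin n × Bool) × G := Fin.snoc l'.get ((t, false), 1)
  refine ⟨l'.length, fun i => (e i).1, fun i => (e i).2, by simp [e], ?_⟩
  have he : (List.finRange (l'.length + 1)).map e = l ++ [((t, true), 1), ((t, false), 1)] := by
    rw [← List.ofFn_eq_map, List.ofFn_succ']
    simp only [e, Fin.snoc_castSucc, Fin.snoc_last, List.ofFn_get]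
    simp [l']
  rw [← evl_map Prod.fst Prod.snd e, he, evl_append, prep_evl_pair]
  simp

/-- A matrix of full row rank has a nonsingular maximal minor. -/
theorem exists_col (M : Matrix (Fin m) (Fin n) ℤ)
    (h : (Matrix.of fun i j => ((M i j : ℤ) : ℚ)).rank = m) :
    ∃ col : Fin m ↪ Fin n, (Matrix.of fun k i : Fin m => M i (col k)).det ≠ 0 := by
  set A : Matrix (Fin m) (Fin n) ℚ := Matrix.of fun i j => ((M i j : ℤ) : ℚ) with hA
  obtain ⟨κ, a, ha, hsp, hli⟩ := exists_linearIndependent' ℚ A.col
  have : Finite κ := Finite.of_injective a ha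
  have := Fintype.ofFinite κ
  have hcard : Fintype.card κ = m := by
    rw [← finrank_span_eq_card hli, hsp, ← Matrix.rank_eq_finrank_span_cols, h]
  let e : Fin m ≃ κ := (Fintype.equivFinOfCardEq hcard).symm
  refine ⟨⟨a ∘ e, ha.comp e.injective⟩, fun hdet => ?_⟩
  have hli' : LinearIndependent ℚ (Matrix.of fun k i : Fin m => ((M i (a (e k)) : ℤ) : ℚ)).row :=
    hli.comp e e.injective
  have hu := (Matrix.isUnit_iff_isUnit_det _).1 (Matrix.linearIndependent_rows_iff_isUnit.1 hli')
  apply hu.ne_zero
  have := congrArg (Int.cast : ℤ → ℚ) hdet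
  rw [Int.cast_det, Int.cast_zero] at this
  exact this

/-- The product of a list of conjugates of the `w i` and their inverses. -/
def prep_val {H : Type*} [Group H] (w : Fin m → H) (L : List (H × Fin m × Bool)) : H :=
  (L.map fun t => t.1 * gsg t.2.2 (w t.2.1) * t.1⁻¹).prod

/-- The number of entries with a given second component. -/
def prep_cnt {H A : Type*} [DecidableEq A] (L : List (H × A)) (a : A) : ℕ :=
  (L.map fun t => if t.2 = a then 1 else 0).sum

theorem prep_val_append {H : Type*} [Group H] (w : Fin m → H) (L L' : List (H × Fin m × Bool)) :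
    prep_val w (L ++ L') = prep_val w L * prep_val w L' := by
  simp [prep_val]

theorem prep_cnt_append {H A : Type*} [DecidableEq A] (L L' : List (H × A)) (a : A) :
    prep_cnt (L ++ L') a = prep_cnt L a + prep_cnt L' a := by
  simp [prep_cnt]

theorem prep_cnt_cons {H A : Type*} [DecidableEq A] (t : H × A) (L : List (H × A)) (a : A) :
    prep_cnt (t :: L) a = (if t.2 = a then 1 else 0) + prep_cnt L a := by
  simp [prep_cnt]

theorem prep_cnt_le {H A : Type*} [DecidableEq A] (L : List (H × A)) (a : A) :
    prep_cnt L a ≤ L.length := by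
  induction L with
  | nil => simp [prep_cnt]
  | cons t L ih =>
    rw [prep_cnt_cons, List.length_cons]
    split_ifs <;> omega

theorem prep_exists_conj {H : Type*} [Group H] (w : Fin m → H) {y : H}
    (hy : y ∈ Subgroup.normalClosure (Set.range w)) : ∃ L, prep_val w L = y := by
  unfold Subgroup.normalClosure at hy
  induction hy using Subgroup.closure_induction'' with
  | mem x hx =>
    obtain ⟨_, ⟨i, rfl⟩, hc⟩ := Group.mem_conjugatesOfSet_iff.1 hx
    obtain ⟨c, rfl⟩ := isConj_iff.1 hc
    exact ⟨[(c, i, true)], by simp [prep_val, gsg]⟩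
  | inv_mem x hx =>
    obtain ⟨_, ⟨i, rfl⟩, hc⟩ := Group.mem_conjugatesOfSet_iff.1 hx
    obtain ⟨c, rfl⟩ := isConj_iff.1 hc
    exact ⟨[(c, i, false)], by simp [prep_val, gsg, mul_assoc]⟩
  | one => exact ⟨[], rfl⟩
  | mul x y _ _ hx hy =>
    obtain ⟨L, rfl⟩ := hx
    obtain ⟨L', rfl⟩ := hy
    exact ⟨L ++ L', prep_val_append _ _ _⟩

theorem prep_expo_val (w : Fin m → Coprod G (FreeGroup (Fin n)))
    (L : List (Coprod G (FreeGroup (Fin n)) × Fin m × Bool)) (j : Fin n) :
    expo (prep_val w L) j =
      ∑ i, expo (w i) j * ((prep_cnt L (i, true) : ℤ) - prep_cnt L (i, false)) := by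
  induction L with
  | nil => simp [prep_val, prep_cnt, expo]
  | cons t L ih =>
    obtain ⟨h, i, b⟩ := t
    have h1 : prep_val w ((h, i, b) :: L) = h * gsg b (w i) * h⁻¹ * prep_val w L := by
      simp [prep_val]
    have h2 : ∀ k, expo (w k) j * ((prep_cnt ((h, i, b) :: L) (k, true) : ℤ) -
        prep_cnt ((h, i, b) :: L) (k, false)) =
        (if i = k then expo (gsg b (w k)) j else 0) +
          expo (w k) j * ((prep_cnt L (k, true) : ℤ) - prep_cnt L (k, false)) := by
      intro k
      rw [prep_cnt_cons, prep_cnt_cons]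
      by_cases hik : i = k
      · subst hik
        cases b
        · simp [gsg, expo_inv]
          ring
        · simp [gsg]
          ring
      · simp [hik]
    rw [h1, expo_mul, expo_mul, expo_mul, expo_inv, ih, Finset.sum_congr rfl fun k _ => h2 k,
      Finset.sum_add_distrib, Finset.sum_ite_eq]
    simp

theorem prep_exists_pad {H : Type*} [Group H] (w : Fin m → H) (k : Fin m → ℕ) :
    ∃ L, prep_val w L = 1 ∧ ∀ i b, prep_cnt L (i, b) = k i := by
  have hadd : ∀ k k' : Fin m → ℕ, (∃ L, prep_val w L = 1 ∧ ∀ i b, prep_cnt L (i, b) = k i) →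
      (∃ L, prep_val w L = 1 ∧ ∀ i b, prep_cnt L (i, b) = k' i) →
      ∃ L, prep_val w L = 1 ∧ ∀ i b, prep_cnt L (i, b) = (k + k') i := by
    rintro k k' ⟨L, h1, h2⟩ ⟨L', h1', h2'⟩
    refine ⟨L ++ L', by rw [prep_val_append, h1, h1', mul_one], fun i b => ?_⟩
    rw [prep_cnt_append, h2, h2', Pi.add_apply]
  induction k using Pi.single_induction with
  | zero => exact ⟨[], rfl, fun _ _ => rfl⟩
  | add f g hf hg => exact hadd f g hf hg
  | single i r =>
    induction r with
    | zero => exact ⟨[], rfl, fun _ _ => by simp [prep_cnt]⟩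
    | succ r ih =>
      rw [Pi.single_add]
      refine hadd _ _ ih ⟨[(1, i, true), (1, i, false)], by simp [prep_val, gsg], fun k b => ?_⟩
      by_cases hik : i = k
      · subst hik
        cases b <;> simp [prep_cnt]
      · simp [prep_cnt, hik, Ne.symm hik]

theorem prep_exists_equiv {H A : Type*} [DecidableEq A] (L : List (H × A)) (f : ℕ)
    (h : ∀ a, prep_cnt L a = f) : ∃ e : Fin L.length ≃ A × Fin f, ∀ p, (e p).1 = (L.get p).2 := by
  have hc : ∀ a, Fintype.card {p : Fin L.length // (L.get p).2 = a} = f := by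
    intro a
    rw [← h a, prep_cnt, ← Fin.sum_univ_fun_getElem, Fintype.card_subtype, Finset.card_filter]
    rfl
  exact ⟨(Equiv.sigmaFiberEquiv fun p : Fin L.length => (L.get p).2).symm.trans
    ((Equiv.sigmaCongrRight fun a => Fintype.equivFinOfCardEq (hc a)).trans
      (Equiv.sigmaEquivProd A (Fin f))), fun p => rfl⟩

/-- An element of the normal closure is a product of a list of conjugates `h (w i)^{±1} h⁻¹`.
Taking exponent sums and using the nonsingular minor, each `w i` occurs as often with `+` as with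
`-`.  Append pairs `w i * (w i)⁻¹` so that all these numbers are equal to one `f ≥ 1`, and number the
entries with the same `(i, b)` by `Fin f`. -/
theorem exists_lollipops (w : Fin m → Coprod G (FreeGroup (Fin n))) (col : Fin m → Fin n)
    (hdet : (Matrix.of fun k i : Fin m => expo (w i) (col k)).det ≠ 0) {g : G}
    (hg : Coprod.inl g ∈ Subgroup.normalClosure (Set.range w)) :
    ∃ (f : ℕ) (lt : List (Fin m × Bool × Fin f))
      (h : Fin m × Bool × Fin f → Coprod G (FreeGroup (Fin n))),
      0 < f ∧ lt.Nodup ∧ (∀ t, t ∈ lt) ∧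
      (lt.map fun t => h t * gsg t.2.1 (w t.1) * (h t)⁻¹).prod = Coprod.inl g := by
  obtain ⟨L, hL⟩ := prep_exists_conj w hg
  -- the numbers of `+` and `-` agree
  have hbal : ∀ i, prep_cnt L (i, true) = prep_cnt L (i, false) := by
    have hv : (Matrix.of fun k i : Fin m => expo (w i) (col k)).mulVec
        (fun i => (prep_cnt L (i, true) : ℤ) - prep_cnt L (i, false)) = 0 := by
      funext k
      have := prep_expo_val w L (col k)
      rw [hL, expo_inl] at this
      exact this.symm
    intro i
    have := congrFun (Matrix.eq_zero_of_mulVec_eq_zero hdet hv) i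
    simp only [Pi.zero_apply] at this
    omega
  -- padding
  obtain ⟨L', hL'1, hL'2⟩ := prep_exists_pad w (fun i => L.length + 1 - prep_cnt L (i, true))
  have hcnt : ∀ a, prep_cnt (L ++ L') a = L.length + 1 := by
    rintro ⟨i, b⟩
    have h1 := prep_cnt_le L (i, true)
    have h2 := hbal i
    rw [prep_cnt_append, hL'2]
    cases b <;> omega
  obtain ⟨e, he⟩ := prep_exists_equiv (L ++ L') _ hcnt
  let e' := e.trans (Equiv.prodAssoc (Fin m) Bool (Fin (L.length + 1)))
  refine ⟨L.length + 1, (List.finRange (L ++ L').length).map e',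
    fun t => ((L ++ L').get (e'.symm t)).1, Nat.succ_pos _,
    (List.nodup_finRange _).map e'.injective,
    fun t => List.mem_map.2 ⟨e'.symm t, List.mem_finRange _, e'.apply_symm_apply t⟩, ?_⟩
  have hval : prep_val w (L ++ L') = Coprod.inl g := by
    rw [prep_val_append, hL, hL'1, mul_one]
  rw [← hval, prep_val]
  conv_rhs => rw [← List.map_get_finRange (L ++ L')]
  rw [List.map_map, List.map_map]
  congr 1
  refine List.map_congr_left fun p _ => ?_
  simp only [Function.comp_apply, Equiv.symm_apply_apply, ← he p]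
  rfl

end Crest.Agent.R174
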