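import Crest.Agent.R174.Match
import Crest.Agent.R174.Prep

/-! # Row 174: the long word and its mirror structure -/

set_option autoImplicit false

namespace Crest.Agent.R174

open Monoid Equiv

variable {G : Type*} [Group G] {n m : ℕ}

/-- Mirror image of a word.  Induction on the chain; `d (μ p') = (d p)⁻¹` for consecutive `p, p'`. -/
theorem evl_mirror {P : Type*} (x : P → Fin n × Bool) (d : P → G) (μ : P → P)
    (hx : ∀ p, x (μ p) = linv (x p)) (l : List P) (hne : l ≠ [])
    (hc : List.IsChain (fun p p' => d (μ p') = (d p)⁻¹) l) :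
    evl x d (l.map μ).reverse =
      Coprod.inl (d (l.getLast hne)) * (evl x d l)⁻¹ * Coprod.inl (d (μ (l.head hne))) := by
  have hinv : ∀ y : Fin n × Bool, FreeGroup.mk [linv y] = (FreeGroup.mk [y])⁻¹ := fun y => by
    rw [FreeGroup.inv_mk]; rfl
  induction l with
  | nil => exact absurd rfl hne
  | cons a l ih =>
    rw [List.map_cons, List.reverse_cons, evl_append]
    cases l with
    | nil =>
      simp only [evl, List.map_nil, List.reverse_nil, List.prod_nil, List.map_cons, List.prod_cons,
        List.getLast_singleton, List.head_cons, hx, hinv, map_inv]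
      group
    | cons b l =>
      rw [List.isChain_cons_cons] at hc
      rw [ih (List.cons_ne_nil _ _) hc.2]
      simp only [List.getLast_cons_cons, List.head_cons, hc.1, map_inv]
      simp only [evl, List.map_nil, List.prod_nil, List.map_cons, List.prod_cons, hx, hinv, map_inv]
      group

namespace Lolli

section perm

variable {P : Type} [DecidableEq P]

theorem formPerm_eq (σ : Perm P) {l : List P} (hl : l.Nodup)
    (hc : List.IsChain (fun a b => σ a = b) l) (he : ∀ a ∈ l.getLast?, ∀ b ∈ l.head?, σ a = b)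
    {p : P} (hp : p ∈ l) : l.formPerm p = σ p := by
  obtain ⟨i, hi, rfl⟩ := List.getElem_of_mem hp
  by_cases h : i + 1 < l.length
  · rw [List.formPerm_apply_lt_getElem l hl i h, List.isChain_iff_getElem.1 hc i h]
  · rw [List.formPerm_apply_getElem l hl i hi]
    have e : i + 1 = l.length := by omega
    refine (he _ ?_ _ ?_).symm
    · rw [List.getLast?_eq_getElem?, Option.mem_def, List.getElem?_eq_some_iff]
      exact ⟨by omega, by congr 1; omega⟩
    · rw [List.head?_eq_getElem?, Option.mem_def, List.getElem?_eq_some_iff]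
      exact ⟨by omega, by congr 1; rw [e, Nat.mod_self]⟩

theorem sw_flatMap {T : Type} (L : T → List P) (lt : List T) :
    ∃ τ : Perm P, Sw (lt.length - 1) τ ∧
      (lt.flatMap L).formPerm = τ * (lt.map fun t => (L t).formPerm).prod := by
  induction lt with
  | nil => exact ⟨1, Sw.one _, by simp⟩
  | cons t lt ih =>
    obtain ⟨τ, h1, h2⟩ := ih
    cases lt with
    | nil => exact ⟨1, Sw.one _, by simp⟩
    | cons t' lt =>
      obtain ⟨τ', h3, -, h4⟩ := formPerm_append (L t) ((t' :: lt).flatMap L)
      refine ⟨τ' * ((L t).formPerm * τ * (L t).formPerm⁻¹), (h3.mul (h1.conj _)).mono ?_, ?_⟩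
      · simp only [List.length_cons]; omega
      · rw [List.flatMap_cons, h4, h2, List.map_cons (l := t' :: lt), List.prod_cons]
        group

theorem sw_prod {T : Type} (a b : T → Perm P) (hab : ∀ t, ∃ τ, Sw 1 τ ∧ a t = τ * b t)
    (lt : List T) : ∃ τ : Perm P, Sw lt.length τ ∧ (lt.map a).prod = τ * (lt.map b).prod := by
  induction lt with
  | nil => exact ⟨1, Sw.one _, by simp⟩
  | cons t lt ih =>
    obtain ⟨τ, h1, h2⟩ := ih
    obtain ⟨τ', h3, h4⟩ := hab t
    refine ⟨τ' * (b t * τ * (b t)⁻¹), (h3.mul (h1.conj _)).mono ?_, ?_⟩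
    · simp only [List.length_cons]; omega
    · rw [List.map_cons, List.prod_cons, List.map_cons, List.prod_cons, h2, h4]
      group

omit [DecidableEq P] in
theorem prod_apply {T : Type} [DecidableEq T] (own : P → T) (c : P → P) (σ : T → Perm P)
    (hc : ∀ p, own (c p) = own p) (hσ : ∀ t p, σ t p = if own p = t then c p else p)
    (lt : List T) (hlt : lt.Nodup) (p : P) :
    (lt.map σ).prod p = if own p ∈ lt then c p else p := by
  induction lt with
  | nil => simp
  | cons t lt ih =>
    rw [List.nodup_cons] at hlt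
    rw [List.map_cons, List.prod_cons, Perm.mul_apply, ih hlt.2, hσ]
    by_cases h : own p ∈ lt
    · have h' : own p ≠ t := fun e => hlt.1 (e ▸ h)
      simp [h, hc, h']
    · by_cases h' : own p = t <;> simp [h, h', hlt.1]

end perm

section poly

variable {J : Type} (s : J → ℕ) (st : J → Bool)

/-- positions -/
abbrev Pos : Type := (Σ j : J, Fin (s j + 1)) × Bool

/-- the mirror map -/
def mu : Perm (Pos s) := Equiv.prodCongr (Equiv.refl _) Equiv.boolNot

@[simp] theorem mu_apply (β : Σ j : J, Fin (s j + 1)) (b : Bool) : mu s (β, b) = (β, !b) := rfl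

theorem mu_mu (p : Pos s) : mu s (mu s p) = p := by
  obtain ⟨β, b⟩ := p
  simp

/-- the successor inside the polygons -/
def nx : Pos s → Pos s
  | (⟨j, k⟩, true) => if st j = true ∧ k = Fin.last _ then (⟨j, k⟩, false) else (⟨j, k + 1⟩, true)
  | (⟨j, k⟩, false) => if st j = true ∧ k = 0 then (⟨j, k⟩, true) else (⟨j, k - 1⟩, false)

theorem add_one_eq_zero {N : ℕ} {k : Fin (N + 1)} : k + 1 = 0 ↔ k = Fin.last N := by
  rw [← Fin.last_add_one N, add_left_inj]

theorem sub_one_eq_last {N : ℕ} {k : Fin (N + 1)} : k - 1 = Fin.last N ↔ k = 0 := by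
  rw [sub_eq_iff_eq_add, Fin.last_add_one]

theorem zero_sub_one {N : ℕ} : (0 : Fin (N + 1)) - 1 = Fin.last N := sub_one_eq_last.2 rfl

theorem nx_mu_nx (p : Pos s) : nx s st (mu s (nx s st p)) = mu s p := by
  obtain ⟨⟨j, k⟩, b⟩ := p
  cases b
  · by_cases h : st j = true ∧ k = 0
    · simp only [nx, if_pos h, mu_apply, Bool.not_true, Bool.not_false]
    · simp only [nx, if_neg h, mu_apply, Bool.not_false, sub_one_eq_last, sub_add_cancel]
  · by_cases h : st j = true ∧ k = Fin.last _
    · simp only [nx, if_pos h, mu_apply, Bool.not_true, Bool.not_false]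
    · simp only [nx, if_neg h, mu_apply, Bool.not_true, add_one_eq_zero, add_sub_cancel_right]

/-- the successor as a permutation -/
def c0 : Perm (Pos s) where
  toFun := nx s st
  invFun p := mu s (nx s st (mu s p))
  left_inv p := by simp only [nx_mu_nx, mu_mu]
  right_inv p := by simp only [nx_mu_nx, mu_mu]

theorem c0_apply (p : Pos s) : c0 s st p = nx s st p := rfl

theorem nx_fst (p : Pos s) : (nx s st p).1.1 = p.1.1 := by
  obtain ⟨⟨j, k⟩, b⟩ := p
  cases b <;> simp only [nx] <;> split_ifs <;> rfl

theorem nx_snd (p : Pos s) (h : st p.1.1 = false) : (nx s st p).2 = p.2 := by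
  obtain ⟨⟨j, k⟩, b⟩ := p
  simp only at h
  cases b <;> simp [nx, h]

/-- the forward word -/
def fw (j : J) : List (Pos s) := (List.finRange (s j + 1)).map fun k => (⟨j, k⟩, true)

/-- the word or its mirror image -/
def blk (j : J) (b : Bool) : List (Pos s) := if b then fw s j else ((fw s j).map (mu s)).reverse

theorem mem_fw {j : J} {p : Pos s} : p ∈ fw s j ↔ p.1.1 = j ∧ p.2 = true := by
  obtain ⟨⟨j', k⟩, b⟩ := p
  simp only [fw, List.mem_map, List.mem_finRange, true_and, Prod.mk.injEq]
  constructor
  · rintro ⟨k', h1, h2⟩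
    exact ⟨(congrArg Sigma.fst h1).symm, h2.symm⟩
  · rintro ⟨rfl, rfl⟩
    exact ⟨k, rfl, rfl⟩

theorem mem_blk {j : J} {b : Bool} {p : Pos s} : p ∈ blk s j b ↔ p.1.1 = j ∧ p.2 = b := by
  cases b
  · simp only [blk, Bool.false_eq_true, if_false, List.mem_reverse, List.mem_map, mem_fw]
    constructor
    · rintro ⟨⟨β, b⟩, ⟨h1, h2⟩, rfl⟩
      simp only at h1 h2
      simp [h1, h2]
    · obtain ⟨β, b⟩ := p
      rintro ⟨h1, h2⟩
      simp only at h1 h2
      subst h2
      exact ⟨(β, true), ⟨h1, rfl⟩, rfl⟩
  · simp only [blk, if_true, mem_fw]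

theorem nodup_fw (j : J) : (fw s j).Nodup :=
  (List.nodup_finRange _).map fun k k' h => by simpa using h

theorem nodup_blk (j : J) (b : Bool) : (blk s j b).Nodup := by
  cases b
  · simp only [blk, Bool.false_eq_true, if_false, List.nodup_reverse]
    exact (nodup_fw s j).map (mu s).injective
  · exact nodup_fw s j

theorem head_fw (j : J) : (fw s j).head? = some (⟨j, 0⟩, true) := by
  simp [fw, List.finRange_succ]

theorem last_fw (j : J) : (fw s j).getLast? = some (⟨j, Fin.last _⟩, true) := by
  simp [fw, List.finRange_succ_last]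

theorem fw_ne (j : J) : fw s j ≠ [] := fun h => by simpa [h] using head_fw s j

theorem head_blk (j : J) (b : Bool) :
    (blk s j b).head? = some (⟨j, if b then 0 else Fin.last _⟩, b) := by
  cases b
  · simp [blk, last_fw]
  · simp [blk, head_fw]

theorem last_blk (j : J) (b : Bool) :
    (blk s j b).getLast? = some (⟨j, if b then Fin.last _ else 0⟩, b) := by
  cases b
  · simp [blk, head_fw]
  · simp [blk, last_fw]

theorem blk_ne (j : J) (b : Bool) : blk s j b ≠ [] := fun h => by simpa [h] using head_blk s j b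

theorem chain_finRange (N : ℕ) :
    List.IsChain (fun a b : Fin (N + 1) => a ≠ Fin.last N ∧ b = a + 1) (List.finRange (N + 1)) := by
  rw [List.isChain_iff_getElem]
  intro i hi
  rw [List.length_finRange] at hi
  have h1 : (List.finRange (N + 1))[i]'(by simp; omega) < Fin.last N := by
    rw [Fin.lt_def]; simp; omega
  refine ⟨h1.ne, Fin.ext ?_⟩
  rw [Fin.val_add_one_of_lt h1]
  simp

theorem chain_fw (j : J) : List.IsChain (fun a b => c0 s st a = b) (fw s j) := by
  rw [fw, List.isChain_map]
  refine (chain_finRange _).imp fun a b h => ?_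
  rw [c0_apply, h.2]
  simp only [nx, h.1, and_false, if_false]

theorem chain_blk (j : J) (b : Bool) : List.IsChain (fun a b => c0 s st a = b) (blk s j b) := by
  cases b
  · simp only [blk, Bool.false_eq_true, if_false, List.isChain_reverse, List.isChain_map]
    refine (chain_fw s st j).imp fun a b h => ?_
    rw [← h]
    exact nx_mu_nx s st a
  · exact chain_fw s st j

variable [DecidableEq (Pos s)]

theorem formPerm_face {j : J} (hj : st j = false) (b : Bool) {p : Pos s} (hp : p ∈ blk s j b) :
    (blk s j b).formPerm p = c0 s st p := by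
  refine formPerm_eq _ (nodup_blk s j b) (chain_blk s st j b) ?_ hp
  rw [head_blk, last_blk]
  simp only [Option.mem_def, Option.some_inj]
  rintro _ rfl _ rfl
  cases b
  · simp only [c0_apply, nx, hj, Bool.false_eq_true, false_and, if_false, zero_sub_one]
  · simp only [c0_apply, nx, hj, Bool.false_eq_true, false_and, if_false, if_true,
      Fin.last_add_one]

omit [DecidableEq (Pos s)] in
theorem nodup_stem (j : J) : (blk s j false ++ blk s j true).Nodup := by
  refine List.nodup_append.2 ⟨nodup_blk s j _, nodup_blk s j _, fun a ha b hb e => ?_⟩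
  subst e
  rw [mem_blk] at ha hb
  simp [ha.2] at hb

theorem formPerm_stem {j : J} (hj : st j = true) {p : Pos s}
    (hp : p ∈ blk s j false ++ blk s j true) :
    (blk s j false ++ blk s j true).formPerm p = c0 s st p := by
  refine formPerm_eq _ (nodup_stem s j)
    ((chain_blk s st j false).append (chain_blk s st j true) ?_) ?_ hp
  · rw [head_blk, last_blk]
    simp only [Option.mem_def, Option.some_inj]
    rintro _ rfl _ rfl
    simp [c0_apply, nx, hj]
  · rw [List.getLast?_append, List.head?_append, head_blk, last_blk]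
    simp only [Option.mem_def, Option.some_or, Option.some_inj]
    rintro _ rfl _ rfl
    simp [c0_apply, nx, hj]

omit [DecidableEq (Pos s)]

variable {s} (xw : ∀ j, Fin (s j + 1) → Fin n × Bool) (dw : ∀ j, Fin (s j + 1) → G)

/-- letters -/
def xx : Pos s → Fin n × Bool
  | (⟨j, k⟩, true) => xw j k
  | (⟨j, k⟩, false) => linv (xw j k)

/-- coefficients -/
def dd : Pos s → G
  | (⟨j, k⟩, true) => dw j k
  | (⟨j, k⟩, false) => (dw j (k - 1))⁻¹

theorem xx_mu (p : Pos s) : xx xw (mu s p) = linv (xx xw p) := by
  obtain ⟨⟨j, k⟩, b⟩ := p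
  cases b <;> simp [xx, linv]

theorem dd_mu (hd : ∀ j, dw j (Fin.last _) = 1) (p : Pos s) :
    dd dw (mu s (c0 s st p)) = (dd dw p)⁻¹ := by
  obtain ⟨⟨j, k⟩, b⟩ := p
  rw [c0_apply]
  cases b
  · by_cases h : st j = true ∧ k = 0
    · simp only [nx, if_pos h, mu_apply, Bool.not_true, dd]
      simp only [h.2, zero_sub_one, hd, inv_one]
    · simp only [nx, if_neg h, mu_apply, Bool.not_false, dd, inv_inv]
  · by_cases h : st j = true ∧ k = Fin.last _
    · simp only [nx, if_pos h, mu_apply, Bool.not_false, dd]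
      simp only [h.2, hd, inv_one]
    · simp only [nx, if_neg h, mu_apply, Bool.not_true, dd, add_sub_cancel_right]

theorem evl_fw (j : J) :
    evl (xx xw) (dd dw) (fw s j) = evl (xw j) (dw j) (List.finRange (s j + 1)) := by
  rw [fw, evl_map]; rfl

theorem evl_blk (hd : ∀ j, dw j (Fin.last _) = 1) (j : J) (b : Bool) :
    evl (xx xw) (dd dw) (blk s j b) = gsg b (evl (xw j) (dw j) (List.finRange (s j + 1))) := by
  cases b
  · simp only [blk, gsg, Bool.false_eq_true, if_false]
    rw [evl_mirror _ _ _ (xx_mu xw) _ (fw_ne s j)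
      ((chain_fw s (fun _ => false) j).imp fun a b h => h ▸ dd_mu _ dw hd a), evl_fw]
    have h1 : (fw s j).getLast (fw_ne s j) = (⟨j, Fin.last _⟩, true) := by
      have := last_fw s j
      rwa [List.getLast?_eq_some_getLast (fw_ne s j), Option.some_inj] at this
    have h2 : (fw s j).head (fw_ne s j) = (⟨j, 0⟩, true) := by
      have := head_fw s j
      rwa [List.head?_eq_some_head (fw_ne s j), Option.some_inj] at this
    rw [h1, h2]
    simp only [mu_apply, Bool.not_true, dd, zero_sub_one, hd, inv_one, map_one, one_mul, mul_one]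
  · simp only [blk, gsg, if_true, evl_fw]

end poly

theorem evl_flatMap {P T : Type*} (x : P → Fin n × Bool) (d : P → G) (L : T → List P)
    (lt : List T) : evl x d (lt.flatMap L) = (lt.map fun t => evl x d (L t)).prod := by
  induction lt with
  | nil => simp [evl]
  | cons t lt ih => rw [List.flatMap_cons, evl_append, ih, List.map_cons, List.prod_cons]

section lolli

variable {f : ℕ}

/-- polygons: stems and faces -/
abbrev JJ (m f : ℕ) : Type := (Fin m × Bool × Fin f) ⊕ Fin m × Fin f

/-- the lollipop a position belongs to -/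
def ownJ : JJ m f → Bool → Fin m × Bool × Fin f
  | Sum.inl t, _ => t
  | Sum.inr ia, b => (ia.1, b, ia.2)

variable (s : JJ m f → ℕ)

/-- the lollipop of a position -/
def own (p : Pos s) : Fin m × Bool × Fin f := ownJ p.1.1 p.2

/-- the face of a lollipop -/
def face (t : Fin m × Bool × Fin f) : List (Pos s) := blk s (Sum.inr (t.1, t.2.2)) t.2.1

/-- the stem of a lollipop -/
def stem (t : Fin m × Bool × Fin f) : List (Pos s) :=
  blk s (Sum.inl t) false ++ blk s (Sum.inl t) true

/-- a lollipop -/
def lol (t : Fin m × Bool × Fin f) : List (Pos s) :=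
  blk s (Sum.inl t) true ++ (face s t ++ blk s (Sum.inl t) false)

theorem mem_stem {t : Fin m × Bool × Fin f} {p : Pos s} : p ∈ stem s t ↔ p.1.1 = Sum.inl t := by
  simp only [stem, List.mem_append, mem_blk]
  cases p.2 <;> simp

theorem mem_face {t : Fin m × Bool × Fin f} {p : Pos s} :
    p ∈ face s t ↔ p.1.1 = Sum.inr (t.1, t.2.2) ∧ p.2 = t.2.1 := mem_blk s

theorem own_eq {t : Fin m × Bool × Fin f} {p : Pos s} :
    own s p = t ↔ p ∈ face s t ∨ p ∈ stem s t := by
  rw [mem_stem, mem_face, own]
  obtain ⟨⟨j, k⟩, b⟩ := p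
  obtain ⟨i, b', a⟩ := t
  cases j with
  | inl t' => simp [ownJ]
  | inr ia =>
    obtain ⟨i', a'⟩ := ia
    simp only [ownJ, Prod.mk.injEq, Sum.inr.injEq, reduceCtorEq, or_false]
    tauto

theorem not_face_stem {t : Fin m × Bool × Fin f} {p : Pos s} (h : p ∈ face s t)
    (h' : p ∈ stem s t) : False := by
  rw [mem_stem] at h'
  rw [mem_face, h'] at h
  simp at h

theorem lol_rot (t : Fin m × Bool × Fin f) : lol s t ~r face s t ++ stem s t := by
  rw [lol, stem, ← List.append_assoc (face s t)]
  exact List.isRotated_append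

theorem nodup_lol (t : Fin m × Bool × Fin f) : (lol s t).Nodup :=
  (lol_rot s t).nodup_iff.2 (List.nodup_append.2 ⟨nodup_blk s _ _, nodup_stem s _,
    fun _ ha _ hb e => not_face_stem s ha (e ▸ hb)⟩)

theorem mem_lol {t : Fin m × Bool × Fin f} {p : Pos s} : p ∈ lol s t ↔ own s p = t := by
  rw [(lol_rot s t).mem_iff, List.mem_append, own_eq]

theorem own_c0 (p : Pos s) : own s (c0 s Sum.isLeft p) = own s p := by
  rw [own, own, c0_apply, nx_fst]
  cases h : p.1.1 with
  | inl t => rfl
  | inr ia => rw [nx_snd _ _ _ (by rw [h]; rfl)]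

variable [DecidableEq (Pos s)]

theorem piece_apply (t : Fin m × Bool × Fin f) (p : Pos s) :
    ((face s t).formPerm * (stem s t).formPerm) p =
      if own s p = t then c0 s Sum.isLeft p else p := by
  rw [Perm.mul_apply]
  by_cases h1 : p ∈ stem s t
  · rw [if_pos ((own_eq s).2 (Or.inr h1)), List.formPerm_apply_of_notMem
      fun h => not_face_stem s h (List.formPerm_apply_mem_of_mem h1)]
    exact formPerm_stem s _ rfl h1
  · rw [List.formPerm_apply_of_notMem h1]
    by_cases h2 : p ∈ face s t
    · rw [if_pos ((own_eq s).2 (Or.inl h2))]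
      exact formPerm_face s _ rfl _ h2
    · rw [List.formPerm_apply_of_notMem h2, if_neg fun h => ((own_eq s).1 h).elim h2 h1]

theorem sw_main (lt : List (Fin m × Bool × Fin f)) (hlt : lt.Nodup) (hall : ∀ t, t ∈ lt) :
    Sw (lt.length - 1 + lt.length) ((lt.flatMap (lol s)).formPerm * (c0 s Sum.isLeft)⁻¹) := by
  obtain ⟨τ, h1, h2⟩ := sw_flatMap (lol s) lt
  obtain ⟨τ', h3, h4⟩ := sw_prod (fun t => (lol s t).formPerm)
    (fun t => (face s t).formPerm * (stem s t).formPerm) (fun t => by
      obtain ⟨τ, h1, -, h2⟩ := formPerm_append (face s t) (stem s t)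
      exact ⟨τ, h1, (List.formPerm_eq_of_isRotated (nodup_lol s t) (lol_rot s t)).trans h2⟩) lt
  have h5 : (lt.map fun t => (face s t).formPerm * (stem s t).formPerm).prod =
      c0 s Sum.isLeft := by
    ext1 p
    rw [prod_apply (own s) (c0 s Sum.isLeft) _ (own_c0 s) (piece_apply s) lt hlt, if_pos (hall _)]
  rw [h2, h4, h5, ← mul_assoc, mul_inv_cancel_right]
  exact h1.mul h3

omit [DecidableEq (Pos s)]

/-- the tips of the stems -/
def tipEmb : (Fin m × Bool × Fin f) × Bool ↪ Pos s where
  toFun q := (⟨Sum.inl q.1, if q.2 then Fin.last _ else 0⟩, q.2)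
  inj' q q' h := by
    have h1 := congrArg (fun p : Pos s => p.1.1) h
    have h2 := congrArg (fun p : Pos s => p.2) h
    exact Prod.ext (by simpa using h1) h2

theorem tip_fix {D : ∀ j, Fin (s j + 1) → G} (hD : ∀ j, D j (Fin.last _) = 1)
    (q : (Fin m × Bool × Fin f) × Bool) :
    mu s (c0 s Sum.isLeft (tipEmb s q)) = tipEmb s q ∧ dd D (tipEmb s q) = 1 := by
  obtain ⟨t, b⟩ := q
  cases b
  · have e : tipEmb s (t, false) = (⟨Sum.inl t, 0⟩, false) := rfl
    rw [e]
    simp only [c0_apply, nx, dd, zero_sub_one, hD, inv_one, Sum.isLeft_inl, and_self, if_true,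
      mu_apply, Bool.not_true]
  · have e : tipEmb s (t, true) = (⟨Sum.inl t, Fin.last _⟩, true) := rfl
    rw [e]
    simp only [c0_apply, nx, dd, hD, Sum.isLeft_inl, and_self, if_true, mu_apply, Bool.not_false]

end lolli

end Lolli

/-- Let `T = Fin m × Bool × Fin f`, choose words for the `w i` and the `h t` (`exists_word`), put
`Q = Σ i, Fin (n i + 1)`, `S = Σ t : T, Fin (s t + 1)`, `P = (S ⊕ Q × Fin f) × Bool`, `μ` = flip of the
last coordinate, `x (β, b)` = the letter of `β` or its inverse.  Lists: `out t` = the positions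
`(inl ⟨t, k⟩, true)` in order, `back t = ((out t).map μ).reverse`, `face (i, true, a)` = the positions
`(inr (⟨i, k⟩, a), true)` in order, `face (i, false, a)` its mirror image;
`l = lt.flatMap fun t => out t ++ face t ++ back t`.
`c₀` = product over `t` of `formPerm (face t) * formPerm (back t ++ out t)` (disjoint supports: on a
polygon it acts as the `formPerm` of that polygon); or define it explicitly.  The mirror image of
a polygon is a polygon, so `μ c₀ μ c₀ = 1` (`formPerm_map`, `List.formPerm_reverse`).
`d (β, true)` = the coefficient of `β`; `d (β, false)` = inverse of the coefficient before `β`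
(cyclically; the last coefficients are `1`).  `tip` = last of `out t`, last of `back t` (`2 |T|`
points).  `formPerm l * c₀⁻¹` is a product of `2 |T| - 1` transpositions: `formPerm_append` for the
concatenation of the `|T|` lollipops, and `out ++ face ++ back` is a rotation of
`face ++ (back ++ out)`.  `|T| = 2 m f`. -/
theorem exists_mirr (hm : 0 < m) (hn : 0 < n) (w : Fin m → Coprod G (FreeGroup (Fin n)))
    (col : Fin m ↪ Fin n) (hdet : (Matrix.of fun k i : Fin m => expo (w i) (col k)).det ≠ 0)
    {f : ℕ} (hf : 0 < f) (lt : List (Fin m × Bool × Fin f))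
    (h : Fin m × Bool × Fin f → Coprod G (FreeGroup (Fin n))) (hlt : lt.Nodup)
    (hall : ∀ t, t ∈ lt) :
    ∃ (P Q : Type) (_ : Fintype P) (_ : DecidableEq P) (_ : Fintype Q) (_ : DecidableEq Q)
      (x : P → Fin n × Bool) (d : P → G) (l : List P),
      l.Nodup ∧ (∀ p, p ∈ l) ∧ l ≠ [] ∧
      evl x d l = (lt.map fun t => h t * gsg t.2.1 (w t.1) * (h t)⁻¹).prod ∧
      Nonempty (Mirr m f Q x d l.formPerm) := by
  classical
  choose nw xw dw hdw hw using fun i => exists_word hn (w i)
  choose nh xh dh hdh hh using fun t => exists_word hn (h t)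
  let s : Lolli.JJ m f → ℕ := fun j => match j with
    | Sum.inl t => nh t
    | Sum.inr ia => nw ia.1
  let X : ∀ j, Fin (s j + 1) → Fin n × Bool := fun j => match j with
    | Sum.inl t => xh t
    | Sum.inr ia => xw ia.1
  let D : ∀ j, Fin (s j + 1) → G := fun j => match j with
    | Sum.inl t => dh t
    | Sum.inr ia => dw ia.1
  have hD : ∀ j, D j (Fin.last _) = 1 := fun j => match j with
    | Sum.inl t => hdh t
    | Sum.inr ia => hdw ia.1
  have hlen : lt.length = m * (2 * f) := by
    rw [← List.toFinset_card_of_nodup hlt, Finset.eq_univ_of_forall (s := lt.toFinset)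
      fun t => List.mem_toFinset.2 (hall t)]
    simp
  have hmf : 0 < m * f := Nat.mul_pos hm hf
  have hmem : ∀ p, p ∈ lt.flatMap (Lolli.lol s) := fun p =>
    List.mem_flatMap.2 ⟨_, hall _, (Lolli.mem_lol s).2 rfl⟩
  refine ⟨Lolli.Pos s, Σ i : Fin m, Fin (nw i + 1), inferInstance, inferInstance, inferInstance,
    inferInstance, Lolli.xx X, Lolli.dd D, lt.flatMap (Lolli.lol s), ?_, hmem,
    List.ne_nil_of_mem (hmem (⟨Sum.inr (⟨0, hm⟩, ⟨0, hf⟩), 0⟩, true)), ?_, ⟨?_⟩⟩
  · refine List.nodup_flatMap.2 ⟨fun t _ => Lolli.nodup_lol s t, hlt.imp fun {t t'} hne => ?_⟩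
    intro p hp hp'
    exact hne (((Lolli.mem_lol s).1 hp).symm.trans ((Lolli.mem_lol s).1 hp'))
  · rw [Lolli.evl_flatMap]
    congr 1
    refine List.map_congr_left fun t _ => ?_
    rw [Lolli.lol, evl_append, evl_append, Lolli.face, Lolli.evl_blk X D hD, Lolli.evl_blk X D hD,
      Lolli.evl_blk X D hD, mul_assoc, ← hh t, ← hw t.1]
    rfl
  · exact
      { c₀ := Lolli.c0 s Sum.isLeft
        μ := Lolli.mu s
        k := lt.length - 1 + lt.length
        tip := Finset.univ.map (Lolli.tipEmb s)
        ι := ⟨fun q => (⟨Sum.inr (q.1.1, q.2.2), q.1.2⟩, q.2.1), by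
          rintro ⟨⟨i, k⟩, b, a⟩ ⟨⟨i', k'⟩, b', a'⟩ e
          have h1 := congrArg (fun p : Lolli.Pos s => p.1.1) e
          simp only [Sum.inr.injEq, Prod.mk.injEq] at h1
          obtain ⟨rfl, rfl⟩ := h1
          simp only [Prod.mk.injEq, Sigma.mk.injEq, heq_eq_eq, true_and] at e
          obtain ⟨rfl, rfl⟩ := e
          rfl⟩
        ν := Equiv.Perm.sigmaCongrRight fun i => Equiv.addRight 1
        rel := fun q => q.1
        lab := fun q => dw q.1 q.2
        xq := fun q => xw q.1 q.2
        col := col
        q₁ := ⟨⟨0, hm⟩, 0⟩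
        μμ := Equiv.ext (Lolli.mu_mu s)
        x_μ := Lolli.xx_mu X
        μc := Equiv.ext fun p => by
          simp only [Perm.mul_apply, Lolli.c0_apply, Lolli.nx_mu_nx, Lolli.mu_mu, Perm.one_apply]
        d_μ := Lolli.dd_mu _ D hD
        sw := Lolli.sw_main s lt hlt hall
        tip_fix := by
          intro p hp
          obtain ⟨q, -, rfl⟩ := Finset.mem_map.1 hp
          exact Lolli.tip_fix s hD q
        rel_ν := fun q => rfl
        μ_ι := fun q b a => rfl
        c_ι := fun q a => rfl
        d_ι := fun q a => rfl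
        x_ι := fun q a => rfl
        k_le := by
          rw [Finset.card_map, Finset.card_univ, hlen]
          simp only [Fintype.card_prod, Fintype.card_fin, Fintype.card_bool]
          have : m * (2 * f) = 2 * (m * f) := by ring
          omega
        det_ne := by
          convert hdet using 3
          funext k i
          rw [← hw i, expo_evl, ← Fin.sum_univ_def, Fintype.sum_sigma, Finset.sum_eq_single i]
          · simp
          · intro i' _ hi'; simp [hi']
          · simp }

end Crest.Agent.R174
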