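import Crest.Agent.R174.Defs

/-! # Row 174: the cancellation pairing of a word with value in `G` -/

set_option autoImplicit false
set_option linter.unusedSectionVars false

namespace Crest.Agent.R174

open Equiv

variable {P : Type} [DecidableEq P]

theorem Sw.mono {k k' : ℕ} {σ : Perm P} (h : Sw k σ) (hk : k ≤ k') : Sw k' σ := by
  induction h generalizing k' with
  | one k => exact Sw.one _
  | step x y _ ih =>
    obtain ⟨k'', rfl⟩ : ∃ k'', k' = k'' + 1 := ⟨k' - 1, by omega⟩
    exact Sw.step x y (ih (by omega))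

theorem Sw.mul {k k' : ℕ} {σ σ' : Perm P} (h : Sw k σ) (h' : Sw k' σ') : Sw (k + k') (σ * σ') := by
  induction h with
  | one k => simpa using h'.mono (by omega)
  | @step k σ x y _ ih =>
    rw [mul_assoc, show k + 1 + k' = (k + k') + 1 by omega]
    exact Sw.step x y ih

theorem Sw.conj {k : ℕ} {σ : Perm P} (h : Sw k σ) (ρ : Perm P) : Sw k (ρ * σ * ρ⁻¹) := by
  induction h with
  | one k => simpa using Sw.one k
  | @step k σ x y _ ih =>
    have : ρ * (swap x y * σ) * ρ⁻¹ = swap (ρ x) (ρ y) * (ρ * σ * ρ⁻¹) := by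
      rw [swap_apply_apply]; group
    rw [this]
    exact Sw.step _ _ ih

theorem Sw.inv {k : ℕ} {σ : Perm P} (h : Sw k σ) : Sw k σ⁻¹ := by
  induction h with
  | one k => simpa using Sw.one k
  | @step k σ x y _ ih =>
    have : (swap x y * σ)⁻¹ = swap (σ⁻¹ x) (σ⁻¹ y) * σ⁻¹ := by
      rw [swap_apply_apply, mul_inv_rev, swap_inv]; group
    rw [this]
    exact Sw.step _ _ ih

theorem sw_swap (x y : P) : Sw 1 (swap x y) := by
  simpa using Sw.step x y (Sw.one 0)

theorem match_formPerm_app (l₁ : List P) (x b : P) (l₂ : List P) :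
    ∃ a, (x :: l₁ ++ b :: l₂).formPerm = (x :: l₁).formPerm * swap a b * (b :: l₂).formPerm := by
  induction l₁ generalizing x with
  | nil => exact ⟨x, by simp [List.formPerm_cons_cons]⟩
  | cons y l₁ ih =>
    obtain ⟨a, ha⟩ := ih y
    refine ⟨a, ?_⟩
    simp only [List.cons_append, List.formPerm_cons_cons] at ha ⊢
    rw [ha]; simp only [mul_assoc]

/-- `formPerm` is the product of the transpositions of adjacent entries (no `Nodup` needed); if one
of the lists is empty take `τ = 1`. -/
theorem formPerm_append (l₁ l₂ : List P) :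
    ∃ τ : Perm P, Sw 1 τ ∧ (l₁ = [] ∨ l₂ = [] → τ = 1) ∧
      (l₁ ++ l₂).formPerm = τ * (l₁.formPerm * l₂.formPerm) := by
  rcases l₁ with _ | ⟨x, l₁⟩
  · exact ⟨1, Sw.one _, fun _ => rfl, by simp⟩
  rcases l₂ with _ | ⟨b, l₂⟩
  · exact ⟨1, Sw.one _, fun _ => rfl, by simp⟩
  obtain ⟨a, ha⟩ := match_formPerm_app l₁ x b l₂
  refine ⟨(x :: l₁).formPerm * swap a b * ((x :: l₁).formPerm)⁻¹, (sw_swap a b).conj _,
    fun h => by simp at h, ?_⟩
  rw [ha]; group

theorem formPerm_map {P' : Type} [DecidableEq P'] {e : P → P'} (he : Function.Injective e)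
    (l : List P) (a : P) : (l.map e).formPerm (e a) = e (l.formPerm a) := by
  induction l with
  | nil => simp
  | cons x l ih =>
    rcases l with _ | ⟨y, l⟩
    · simp
    · simp only [List.map_cons, List.formPerm_cons_cons, Perm.mul_apply] at ih ⊢
      rw [ih, he.swap_apply]

theorem isChain_formPerm {l : List P} (hl : l.Nodup) :
    List.IsChain (fun a b => l.formPerm a = b) l :=
  List.isChain_iff_getElem.2 fun i hi => List.formPerm_apply_lt_getElem l hl i hi

/-- The pairing of a list whose free word reduces to the empty word. -/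
theorem match_pairing {α : Type*} (y : P → α × Bool) (N : ℕ) :
    ∀ l : List P, l.length = N → l.Nodup → FreeGroup.Red (l.map y) [] →
      ∃ (π : Perm P) (k : ℕ), π * π = 1 ∧ (∀ q, q ∉ l → π q = q) ∧
        (∀ q ∈ l, y (π q) = ((y q).1, !(y q).2)) ∧ Sw k (π * l.formPerm) ∧
        (2 * k + 2 ≤ l.length ∨ (l = [] ∧ k = 0)) := by
  induction N using Nat.strong_induction_on with
  | _ N ih =>
  intro l hN hl hr
  rcases Relation.ReflTransGen.cases_head hr with h0 | ⟨L', hs, hr'⟩
  · have : l = [] := by simpa using h0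
    subst this
    exact ⟨1, 0, by simp, by simp, by simp, by simpa using Sw.one 0, Or.inr ⟨rfl, rfl⟩⟩
  generalize hL : l.map y = L at hs
  cases hs with
  | @not L₁ L₂ a b =>
  obtain ⟨l₁, l₂', rfl, rfl, h2⟩ := List.map_eq_append_iff.1 hL
  obtain ⟨p, l₃, rfl, hp, h3⟩ := List.map_eq_cons_iff.1 h2
  obtain ⟨p', l₂, rfl, hp', rfl⟩ := List.map_eq_cons_iff.1 h3
  have hrot : (l₁ ++ p :: p' :: l₂) ~r ([p, p'] ++ (l₂ ++ l₁)) := by
    simpa using List.isRotated_append (l := l₁) (l' := p :: p' :: l₂)
  have hnd : ([p, p'] ++ (l₂ ++ l₁)).Nodup := hrot.nodup_iff.1 hl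
  have hnd' : (l₂ ++ l₁).Nodup := (List.nodup_append.1 hnd).2.1
  have hrot' : (l₂ ++ l₁) ~r (l₁ ++ l₂) := List.isRotated_append
  have hpp : p ≠ p' := by
    have := (List.nodup_append.1 hnd).1
    simpa using this
  have hpn : p ∉ l₁ ++ l₂ := fun hm =>
    (List.nodup_append.1 hnd).2.2 p (by simp) p (hrot'.mem_iff.2 hm) rfl
  have hpn' : p' ∉ l₁ ++ l₂ := fun hm =>
    (List.nodup_append.1 hnd).2.2 p' (by simp) p' (hrot'.mem_iff.2 hm) rfl
  obtain ⟨π, k, hππ, hsupp, hy, hsw, hk⟩ := ih (l₁ ++ l₂).length
    (by rw [← hN]; simp only [List.length_append, List.length_cons]; omega) (l₁ ++ l₂) rfl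
    (hrot'.nodup_iff.1 hnd') (by rw [List.map_append]; exact hr')
  have hπp : π p = p := hsupp p hpn
  have hπp' : π p' = p' := hsupp p' hpn'
  have hcomm : π * swap p p' = swap p p' * π := by
    have := swap_apply_apply π p p'
    rw [hπp, hπp'] at this
    calc π * swap p p' = (π * swap p p' * π⁻¹) * π := by group
      _ = swap p p' * π := by rw [← this]
  have hmem : ∀ q ∈ l₁ ++ l₂, π q ∈ l₁ ++ l₂ := by
    intro q hq
    by_contra hn
    have h1 := hsupp _ hn
    have h2 : π q = q := π.injective h1
    exact hn (h2.symm ▸ hq)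
  obtain ⟨τ, hτ, hτ1, hf⟩ := formPerm_append [p, p'] (l₂ ++ l₁)
  have hform : (l₁ ++ p :: p' :: l₂).formPerm = τ * (swap p p' * (l₁ ++ l₂).formPerm) := by
    rw [List.formPerm_eq_of_isRotated hl hrot, hf, List.formPerm_pair,
      List.formPerm_eq_of_isRotated hnd' hrot']
  have hss : swap p p' * swap p p' = 1 := swap_mul_self p p'
  have hkey : swap p p' * π * (l₁ ++ p :: p' :: l₂).formPerm =
      ((swap p p' * π) * τ * (swap p p' * π)⁻¹) * (π * (l₁ ++ l₂).formPerm) := by
    rw [hform]
    have : (swap p p' * π)⁻¹ * π = swap p p' := by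
      rw [← hcomm, mul_inv_rev, swap_inv]; group
    calc swap p p' * π * (τ * (swap p p' * (l₁ ++ l₂).formPerm))
        = swap p p' * π * (τ * (((swap p p' * π)⁻¹ * π) * (l₁ ++ l₂).formPerm)) := by rw [this]
      _ = _ := by simp only [mul_assoc]
  have hA : swap p p' * π * (swap p p' * π) = 1 := by
    calc swap p p' * π * (swap p p' * π) = swap p p' * (π * swap p p') * π := by
          simp only [mul_assoc]
      _ = (swap p p' * swap p p') * (π * π) := by rw [hcomm]; simp only [mul_assoc]
      _ = 1 := by rw [hss, hππ, mul_one]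
  have hB : ∀ q, q ∉ l₁ ++ p :: p' :: l₂ → (swap p p' * π) q = q := by
    intro q hq
    simp only [List.mem_append, List.mem_cons, not_or] at hq
    rw [Perm.mul_apply, hsupp q (by simp [hq.1, hq.2.2.2]), swap_apply_of_ne_of_ne hq.2.1 hq.2.2.1]
  have hC : ∀ q ∈ l₁ ++ p :: p' :: l₂, y ((swap p p' * π) q) = ((y q).1, !(y q).2) := by
    intro q hq
    by_cases h1 : q = p
    · subst h1
      rw [Perm.mul_apply, hπp, swap_apply_left, hp', hp]
    by_cases h2 : q = p'
    · subst h2
      rw [Perm.mul_apply, hπp', swap_apply_right, hp', hp]; simp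
    have hq' : q ∈ l₁ ++ l₂ := by
      simp only [List.mem_append, List.mem_cons] at hq ⊢
      tauto
    have hm := hmem q hq'
    have n1 : π q ≠ p := fun h => hpn (h ▸ hm)
    have n2 : π q ≠ p' := fun h => hpn' (h ▸ hm)
    rw [Perm.mul_apply, swap_apply_of_ne_of_ne n1 n2, hy q hq']
  rcases hk with hk | ⟨hnil, rfl⟩
  · refine ⟨swap p p' * π, 1 + k, hA, hB, hC, ?_, Or.inl ?_⟩
    · rw [hkey]; exact (hτ.conj _).mul hsw
    · simp only [List.length_append, List.length_cons] at hk ⊢; omega
  · refine ⟨swap p p' * π, 0, hA, hB, hC, ?_, Or.inl ?_⟩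
    · have hτ' : τ = 1 := hτ1 (Or.inr (by
        have := List.append_eq_nil_iff.1 hnil
        simp [this.1, this.2]))
      rw [hkey, hτ']
      simpa using hsw
    · simp only [List.length_append, List.length_cons]; omega

/-- The letters of the free word, twisted by the partial products of the coefficients. -/
def match_yl {G : Type*} [Group G] {n : ℕ} (x : P → Fin n × Bool) (d : P → G) :
    G → List P → List ((G × Fin n) × Bool)
  | _, [] => []
  | h, p :: l => ((h, (x p).1), (x p).2) :: match_yl x d (h * d p) l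

/-- The action of a coefficient. -/
def match_actG {G : Type*} [Group G] (W : Type*) : G →* Perm (W × G) where
  toFun a := Equiv.prodCongr (Equiv.refl W) (Equiv.mulRight a⁻¹)
  map_one' := by ext ⟨w, h⟩ <;> simp
  map_mul' a b := by ext ⟨w, h⟩ <;> simp [mul_assoc]

/-- The action of a letter. -/
def match_actX {G : Type*} {n : ℕ} (k : Fin n) : Perm (FreeGroup (G × Fin n) × G) where
  toFun z := (z.1 * (FreeGroup.of (z.2, k))⁻¹, z.2)
  invFun z := (z.1 * FreeGroup.of (z.2, k), z.2)
  left_inv z := by simp
  right_inv z := by simp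

theorem match_act {G : Type*} [Group G] {n : ℕ} (x : P → Fin n × Bool) (d : P → G) (l : List P)
    (w : FreeGroup (G × Fin n)) (h : G) :
    (Monoid.Coprod.lift (match_actG (FreeGroup (G × Fin n)))
        (FreeGroup.lift (match_actX (G := G) (n := n))) (evl x d l))⁻¹ (w, h) =
      (w * FreeGroup.mk (match_yl x d h l), h * (l.map d).prod) := by
  induction l generalizing w h with
  | nil =>
    simp only [evl, List.map_nil, List.prod_nil, map_one, inv_one, Perm.one_apply, match_yl,
      mul_one]
    rw [← FreeGroup.one_eq_mk, mul_one]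
  | cons p l ih =>
    have e1 : evl x d (p :: l) =
        Monoid.Coprod.inr (FreeGroup.mk [x p]) * Monoid.Coprod.inl (d p) * evl x d l := by
      simp [evl]
    have e2 : (FreeGroup.lift (match_actX (G := G) (n := n)) (FreeGroup.mk [x p]))⁻¹ (w, h) =
        (w * FreeGroup.mk [((h, (x p).1), (x p).2)], h) := by
      rcases hx : x p with ⟨k, b⟩
      cases b
      · have : FreeGroup.mk [((h, k), false)] = (FreeGroup.of (h, k))⁻¹ := rfl
        rw [this, FreeGroup.lift_mk]
        simp [match_actX]
      · have : FreeGroup.mk [((h, k), true)] = FreeGroup.of (h, k) := rfl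
        rw [this, FreeGroup.lift_mk]
        simp only [List.map_cons, List.map_nil, List.prod_cons, List.prod_nil, cond_true, mul_one]
        rfl
    have e3 : ∀ w' : FreeGroup (G × Fin n),
        (match_actG (FreeGroup (G × Fin n)) (d p))⁻¹ (w', h) = (w', h * d p) := by
      intro w'
      rw [← map_inv]
      simp [match_actG]
    rw [e1, map_mul, map_mul, Monoid.Coprod.lift_apply_inr, Monoid.Coprod.lift_apply_inl,
      mul_inv_rev, mul_inv_rev, Perm.mul_apply, Perm.mul_apply, e2, e3, ih]
    simp only [match_yl, List.map_cons, List.prod_cons, mul_assoc, FreeGroup.mul_mk,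
      List.singleton_append]

theorem match_yl_eq {G : Type*} [Group G] {n : ℕ} (x : P → Fin n × Bool) (d : P → G) (l : List P)
    (hl : l.Nodup) (h : G) :
    match_yl x d h l =
      l.map fun p => ((h * ((l.take (l.idxOf p)).map d).prod, (x p).1), (x p).2) := by
  induction l generalizing h with
  | nil => rfl
  | cons p l ih =>
    rw [List.nodup_cons] at hl
    simp only [match_yl, List.map_cons, List.idxOf_cons_self, List.take_zero, List.map_nil,
      List.prod_nil, mul_one, List.cons.injEq, true_and]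
    rw [ih hl.2]
    refine List.map_congr_left fun q hq => ?_
    have : p ≠ q := fun e => hl.1 (e ▸ hq)
    rw [List.idxOf_cons_ne _ this]
    simp [mul_assoc]

/-- Let `γ p` be the product of the coefficients strictly before `p` in `l`, `idx p = l.idxOf p`.
(1) Let `G ∗ F` act on `FreeGroup (G × Fin n) × G` by `a • (w, h) = (w, h a⁻¹)`,
`x_k • (w, h) = (w * (of (h, k))⁻¹, h)` (`Coprod.lift`, `FreeGroup.lift`, values in `Perm`).
Applying `(evl x d l)⁻¹` to `(1, 1)` shows that the free word with letters
`y p = ((γ p, (x p).1), (x p).2)` is trivial and that the product of all coefficients is `g`.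
(2) Balanced lists: `[]`, and `p :: l₁ ++ p' :: l₂` with `l₁`, `l₂` balanced and `y p'` inverse to
`y p`.  Induction on `l` with `FreeGroup.reduce.cons`: `l = l₀ ++ p₁ :: l₁ ++ ...` with balanced `l_i`
and `reduce (l.map y) = [y p₁, y p₂, ...]`; so `l` is balanced.
(3) For a balanced `Nodup` list there is an involution `π` supported on `l` with `y (π p)` inverse to
`y p` for `p ∈ l` and `Sw k (π * formPerm l)`, `2 k + 2 ≤ |l|` (or `l = []`, `k = 0`): take
`π = swap p p' * π₁ * π₂` and use `formPerm_append` twice, with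
`formPerm (p :: l₁ ++ [p']) = formPerm ([p', p] ++ l₁)` (`formPerm_eq_of_isRotated`). -/
theorem exists_canc [Fintype P] {G : Type*} [Group G] {n : ℕ} (x : P → Fin n × Bool) (d : P → G)
    (g : G) (l : List P) (hl : l.Nodup) (hall : ∀ p, p ∈ l) (hne : l ≠ [])
    (h : evl x d l = Monoid.Coprod.inl g) :
    Nonempty (Canc x d g l.formPerm (l.getLast hne)) := by
  classical
  have h1 := match_act x d l 1 1
  rw [h, Monoid.Coprod.lift_apply_inl, ← map_inv] at h1
  have h1' : ((1 : FreeGroup (G × Fin n)), g) =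
      (1 * FreeGroup.mk (match_yl x d 1 l), 1 * (l.map d).prod) := by
    rw [← h1]; simp [match_actG]
  simp only [one_mul, Prod.mk.injEq] at h1'
  obtain ⟨hw, hg⟩ := h1'
  set γ : P → G := fun p => ((l.take (l.idxOf p)).map d).prod with hγ
  set y : P → (G × Fin n) × Bool := fun p => ((γ p, (x p).1), (x p).2) with hy
  have hyl : match_yl x d 1 l = l.map y := by
    rw [match_yl_eq x d l hl]; simp [hy, hγ]
  have hred : FreeGroup.Red (l.map y) [] := by
    have h2 : FreeGroup.reduce (l.map y) = [] := by
      rw [← FreeGroup.toWord_mk, ← hyl, ← hw, FreeGroup.toWord_one]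
    have := FreeGroup.reduce.red (L := l.map y)
    rwa [h2] at this
  obtain ⟨π, k, hππ, -, hπ, hsw, hk⟩ := match_pairing y l.length l rfl hl hred
  have hcard : l.length = Fintype.card P := by
    rw [← List.toFinset_card_of_nodup hl]
    congr 1
    ext p; simp [hall p]
  have hlen : 0 < l.length := List.length_pos_iff.2 hne
  have hlast : l.getLast hne = l[l.length - 1] := List.getLast_eq_getElem hne
  have hstep : ∀ p, p ≠ l.getLast hne →
      ∃ i, ∃ hi : i + 1 < l.length, p = l[i] ∧ l.formPerm p = l[i + 1] := by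
    intro p hp
    obtain ⟨i, hi, rfl⟩ := List.getElem_of_mem (hall p)
    have hi' : i + 1 < l.length := by
      by_contra hc
      apply hp
      rw [hlast]
      congr 1; omega
    exact ⟨i, hi', rfl, List.formPerm_apply_lt_getElem l hl i hi'⟩
  have hidx : ∀ i (hi : i < l.length), l.idxOf l[i] = i := fun i hi => hl.idxOf_getElem i hi
  have hγs : ∀ i (hi : i < l.length), ((l.take (i + 1)).map d).prod = γ l[i] * d l[i] := by
    intro i hi
    simp only [hγ, hidx i hi]
    rw [List.take_succ_eq_append_getElem hi, List.map_append, List.prod_append]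
    simp
  refine ⟨⟨π, γ, fun p => l.idxOf p, k, hππ, fun p => ?_, fun p => ?_, fun p hp => ?_, ?_,
    fun p hp => ?_, hsw, ?_⟩⟩
  · have := hπ p (hall p)
    simp only [hy, Prod.mk.injEq] at this
    exact Prod.ext this.1.2 this.2
  · have := hπ p (hall p)
    simp only [hy, Prod.mk.injEq] at this
    exact this.1.1
  · obtain ⟨i, hi, rfl, hc⟩ := hstep p hp
    rw [hc, ← hγs i (by omega)]
    simp only [hγ, hidx (i + 1) hi]
  · rw [hlast, ← hγs _ (by omega), List.formPerm_apply_getElem l hl]
    have e : (l.length - 1 + 1) = l.length := by omega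
    simp only [e, Nat.mod_self, List.take_length, hγ, hidx 0 hlen]
    simp [hg]
  · obtain ⟨i, hi, rfl, hc⟩ := hstep p hp
    simp only [hc, hidx (i + 1) hi, hidx i (by omega)]
  · rcases hk with hk | ⟨hnil, -⟩
    · omega
    · exact absurd hnil hne

end Crest.Agent.R174
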