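import Crest.Agent.R174.Deg

/-! # Row 174: the mixing unitary -/

set_option autoImplicit false
set_option linter.unusedSectionVars false

namespace Crest.Agent.R174

open Matrix

variable {G : Type*} [Group G] {n m f : ℕ} {P Q : Type} [Fintype P] [DecidableEq P] [Fintype Q]
  [DecidableEq Q] {x : P → Fin n × Bool} {d : P → G} {c : Equiv.Perm P}

section mix_ext
variable {I : Type} [Fintype I] [DecidableEq I]

theorem mix_ext_in (j : I ↪ P) (A : Matrix I I ℂ) (u v : I) : ext j A (j u) (j v) = A u v := by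
  simp [ext, emb, mul_apply, one_apply, conjTranspose_apply, apply_ite (starRingEnd ℂ)]

theorem mix_ext_out (j : I ↪ P) (A : Matrix I I ℂ) {a b : P}
    (h : (∀ u, a ≠ j u) ∨ ∀ u, b ≠ j u) : ext j A a b = if a = b then 1 else 0 := by
  rcases h with h | h <;> simp [ext, emb, mul_apply, one_apply, conjTranspose_apply, h]

theorem mix_cases (j : I ↪ P) (a b : P) :
    (∃ u v, a = j u ∧ b = j v) ∨ (∀ u, a ≠ j u) ∨ ∀ u, b ≠ j u := by
  by_contra h
  push Not at h
  obtain ⟨h1, ⟨u, hu⟩, v, hv⟩ := h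
  exact h1 u v hu hv

theorem mix_out_perm (j : I ↪ P) (σ : Equiv.Perm P) (τ : I → I) (h : ∀ u, σ (j u) = j (τ u))
    {a : P} (ha : ∀ u, a ≠ j u) (u : I) : σ a ≠ j u := by
  have hτ : Function.Injective τ := fun u v huv =>
    j.injective (σ.injective (by rw [h, h, huv]))
  obtain ⟨v, rfl⟩ := Finite.surjective_of_injective hτ u
  rw [← h]
  exact fun e => ha v (σ.injective e)

theorem mix_ext_perm (j : I ↪ P) (σ : Equiv.Perm P) (τ : I → I) (h : ∀ u, σ (j u) = j (τ u))
    (A : Matrix I I ℂ) (a b : P) : ext j A (σ a) (σ b) = ext j (A.submatrix τ τ) a b := by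
  rcases mix_cases j a b with ⟨u, v, rfl, rfl⟩ | h'
  · rw [h, h, mix_ext_in, mix_ext_in, submatrix_apply]
  · rw [mix_ext_out j _ h', mix_ext_out j _ (h'.imp (mix_out_perm j σ τ h) (mix_out_perm j σ τ h))]
    simp

end mix_ext

section mix_alg
variable {A : Type*} [Ring A] [StarRing A]

theorem mix_cut_unitary {M e ε : A} (hM : M ∈ unitary A) (he : star e = e) (hee : e * e = e)
    (hc : e * M = M * e) (hε : ε = 1 - e ∨ ε = -(1 - e)) : M * e + ε ∈ unitary A := by
  have hc' : star M * e = e * star M := by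
    have := congrArg star hc
    rwa [star_mul, star_mul, he] at this
  have h1 : e * (1 - e) = 0 := by rw [mul_sub, mul_one, hee, sub_self]
  have h2 : (1 - e) * e = 0 := by rw [sub_mul, one_mul, hee, sub_self]
  have h3 : (1 - e) * (1 - e) = 1 - e := by rw [mul_sub, mul_one, h2, sub_zero]
  have k1 : e * ε = 0 := by rcases hε with rfl | rfl <;> simp only [mul_neg, h1, neg_zero]
  have k2 : ε * e = 0 := by rcases hε with rfl | rfl <;> simp only [neg_mul, h2, neg_zero]
  have k3 : ε * ε = 1 - e := by rcases hε with rfl | rfl <;> simp only [neg_mul_neg, h3]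
  have k4 : star ε = ε := by
    rcases hε with rfl | rfl <;> simp only [star_neg, star_sub, star_one, he]
  constructor
  · rw [star_add, star_mul, he, k4, add_mul, mul_add, mul_add, k3, ← hc', mul_assoc _ e ε, k1,
      ← hc, ← mul_assoc ε, k2, hc, hc', mul_assoc e, ← mul_assoc (star M), hM.1, one_mul, hee]
    simp
  · rw [star_add, star_mul, he, k4, add_mul, mul_add, mul_add, k3, mul_assoc _ e ε, k1,
      ← mul_assoc ε, k2, mul_assoc M, ← mul_assoc e, hee, ← hc', ← mul_assoc, hM.2]
    simp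

theorem mix_fin {J S e : A} (hJs : star J = J) (hJJ : J * J = 1) (hSs : star S = S)
    (hes : star e = e) (hee : e * e = e) (hJe : J * e = (1 - e) * J)
    (hc : e * (J * S) = J * S * e) :
    (J * S * e + (1 - e)) * (J * star (J * S * e + (1 - e)) * star J) = J * S := by
  have k2 : J * e * J = 1 - e := by rw [hJe, mul_assoc, hJJ, mul_one]
  have k1 : J * star (J * S * e + (1 - e)) * star J = (1 - e) * (J * S) + e := by
    rw [star_add, star_mul, star_sub, star_one, hes, hJs, star_mul, hSs, hJs, mul_add, add_mul,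
      mul_sub, sub_mul, k2, mul_one, hJJ, sub_sub_cancel, ← mul_assoc J e, hJe]
    simp only [mul_assoc, hJJ, mul_one]
  rw [k1]
  generalize J * S = U at hc
  have h1 : e * (1 - e) = 0 := by rw [mul_sub, mul_one, hee, sub_self]
  have h2 : (1 - e) * e = 0 := by rw [sub_mul, one_mul, hee, sub_self]
  have h3 : (1 - e) * (1 - e) = 1 - e := by rw [mul_sub, mul_one, h2, sub_zero]
  rw [add_mul, mul_add, mul_add, mul_assoc U e, ← mul_assoc e, h1, mul_assoc U e, hee,
    ← mul_assoc (1 - e), h3, h2, sub_mul, hc]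
  simp

end mix_alg

/-- the diagonal projection of a class of letters -/
noncomputable def mixE (x : P → Fin n × Bool) (C : Fin n × Bool → Prop) [DecidablePred C] :
    Matrix P P ℂ := diagonal fun p => if C (x p) then 1 else 0

section mixE
variable (C : Fin n × Bool → Prop) [DecidablePred C]

theorem mixE_star : star (mixE x C) = mixE x C := by
  rw [mixE, star_eq_conjTranspose, diagonal_conjTranspose]
  congr 1
  funext p
  simp [apply_ite (starRingEnd ℂ)]

theorem mixE_sq : mixE x C * mixE x C = mixE x C := by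
  rw [mixE, diagonal_mul_diagonal]
  congr 1
  funext p
  split_ifs <;> simp

theorem mixE_comm {M : Matrix P P ℂ} (h : ∀ a b, M a b ≠ 0 → x a = x b) :
    mixE x C * M = M * mixE x C := by
  ext a b
  rw [mixE, diagonal_mul, mul_diagonal]
  by_cases h0 : M a b = 0
  · simp [h0]
  · rw [h a b h0, mul_comm]

end mixE

namespace Mirr
variable (K : Mirr m f Q x d c)

/-- the faces as an embedding adapted to `blockDiagonal` -/
def mixJ : Fin f × (Q × Bool) ↪ P :=
  ⟨fun u => K.ι (u.2.1, u.2.2, u.1), fun u v h => by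
    have := K.ι.injective h
    simp only [Prod.mk.injEq] at this
    exact Prod.ext this.2.2 (Prod.ext this.1 this.2.1)⟩

theorem mixJ_apply (a : Fin f) (q : Q) (b : Bool) : K.mixJ (a, q, b) = K.ι (q, b, a) := rfl

/-- one block -/
def mixB (t : Q × Bool) : Fin f ↪ P :=
  ⟨fun a => K.mixJ (a, t), fun _ _ h => (Prod.mk.inj (K.mixJ.injective h)).1⟩

theorem mixB_apply (t : Q × Bool) (a : Fin f) : K.mixB t a = K.mixJ (a, t) := rfl

/-- block unitaries -/
noncomputable def mixΦ : (Q × Bool → Matrix (Fin f) (Fin f) ℂ) →* Matrix P P ℂ where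
  toFun g := ext K.mixJ (blockDiagonal g)
  map_one' := by rw [blockDiagonal_one, ext_one]
  map_mul' g g' := by
    rw [← ext_mul K.mixJ.injective, ← blockDiagonal_mul]; rfl

theorem mixΦ_apply (g : Q × Bool → Matrix (Fin f) (Fin f) ℂ) :
    K.mixΦ g = ext K.mixJ (blockDiagonal g) := rfl

theorem mixΦ_star (g : Q × Bool → Matrix (Fin f) (Fin f) ℂ) :
    star (K.mixΦ g) = K.mixΦ (star g) := by
  rw [mixΦ_apply, mixΦ_apply, star_eq_conjTranspose, ext_ct, blockDiagonal_conjTranspose]; rfl

theorem mixΦ_ne {g : Q × Bool → Matrix (Fin f) (Fin f) ℂ} {a b : P} (h : K.mixΦ g a b ≠ 0) :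
    a = b ∨ ∃ t a' b', a = K.mixJ (a', t) ∧ b = K.mixJ (b', t) := by
  rw [mixΦ_apply] at h
  rcases mix_cases K.mixJ a b with ⟨⟨a', t⟩, ⟨b', t'⟩, rfl, rfl⟩ | h'
  · rw [mix_ext_in, blockDiagonal_apply] at h
    obtain rfl : t = t' := by
      by_contra h1
      exact h (if_neg h1)
    exact Or.inr ⟨t, a', b', rfl, rfl⟩
  · rw [mix_ext_out _ _ h'] at h
    left
    by_contra h1
    exact h (if_neg h1)

theorem mix_ext_block (t : Q × Bool) (A : Matrix (Fin f) (Fin f) ℂ) :
    ext (K.mixB t) A = K.mixΦ (Pi.mulSingle t A) := by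
  ext a b
  rw [mixΦ_apply]
  rcases mix_cases (K.mixB t) a b with ⟨u, v, rfl, rfl⟩ | h
  · rw [mix_ext_in, mixB_apply, mixB_apply, mix_ext_in, blockDiagonal_apply_eq, Pi.mulSingle_eq_same]
  · rw [mix_ext_out _ _ h]
    rcases mix_cases K.mixJ a b with ⟨⟨a', s⟩, ⟨b', s'⟩, rfl, rfl⟩ | h'
    · rw [mix_ext_in, blockDiagonal_apply]
      by_cases hs : s = s'
      · subst hs
        have : s ≠ t := by
          rintro rfl
          rcases h with h | h
          · exact h a' rfl
          · exact h b' rfl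
        simp [Pi.mulSingle_eq_of_ne this, one_apply]
      · simp [hs]
    · rw [mix_ext_out _ _ h']

theorem mix_μμ (p : P) : K.μ (K.μ p) = p := by
  rw [← Equiv.Perm.mul_apply, K.μμ, Equiv.Perm.one_apply]

theorem mix_c_false (q : Q) (a : Fin f) :
    K.c₀ (K.ι (q, false, a)) = K.ι (K.ν.symm q, false, a) := by
  have h := congrArg (fun σ : Equiv.Perm P => K.μ (σ (K.ι (K.ν.symm q, true, a)))) K.μc
  simpa only [Equiv.Perm.mul_apply, K.c_ι, Equiv.apply_symm_apply, K.μ_ι, K.mix_μμ,
    Equiv.Perm.one_apply, Bool.not_true] using h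

theorem mix_x (a : Fin f) (t : Q × Bool) :
    x (K.mixJ (a, t)) = if t.2 then K.xq t.1 else linv (K.xq t.1) := by
  obtain ⟨q, b⟩ := t
  cases b
  · have := K.x_μ (K.ι (q, true, a))
    rw [K.μ_ι, K.x_ι] at this
    exact this
  · exact K.x_ι q a

theorem mix_d (a : Fin f) (t : Q × Bool) :
    d (K.mixJ (a, t)) = if t.2 then K.lab t.1 else (K.lab (K.ν.symm t.1))⁻¹ := by
  obtain ⟨q, b⟩ := t
  cases b
  · have := K.d_μ (K.ι (K.ν.symm q, true, a))
    rw [K.c_ι, Equiv.apply_symm_apply, K.μ_ι, K.d_ι] at this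
    exact this
  · exact K.d_ι q a

theorem mixΦ_x {g : Q × Bool → Matrix (Fin f) (Fin f) ℂ} (a b : P) (h : K.mixΦ g a b ≠ 0) :
    x a = x b := by
  rcases K.mixΦ_ne h with rfl | ⟨t, a', b', rfl, rfl⟩
  · rfl
  · rw [K.mix_x, K.mix_x]

theorem mixΦ_cut (g : Q × Bool → Matrix (Fin f) (Fin f) ℂ) (C : Fin n × Bool → Prop)
    [DecidablePred C] :
    K.mixΦ (fun t => if C (if t.2 then K.xq t.1 else linv (K.xq t.1)) then g t else 1)
      = K.mixΦ g * mixE x C + (1 - mixE x C) := by
  ext a b
  rw [mixE, Matrix.add_apply, mul_diagonal, Matrix.sub_apply, mixΦ_apply, mixΦ_apply,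
    Matrix.one_apply, diagonal_apply]
  rcases mix_cases K.mixJ a b with ⟨⟨a', t⟩, ⟨b', t'⟩, rfl, rfl⟩ | h'
  · rw [mix_ext_in, mix_ext_in, blockDiagonal_apply, blockDiagonal_apply, K.mix_x, K.mix_x]
    by_cases ht : t = t'
    · subst ht
      by_cases hC : C (if t.2 then K.xq t.1 else linv (K.xq t.1)) <;> simp [hC, one_apply]
    · simp [ht]
  · rw [mix_ext_out _ _ h', mix_ext_out _ _ h']
    by_cases hab : a = b
    · subst hab; simp
    · simp [hab]

end Mirr

theorem mix_prod_single {M : Type*} [Monoid M] (s : Q → Bool) (A : Q → M) (l : List Q)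
    (hl : l.Nodup) :
    (l.map fun q => (Pi.mulSingle (q, s q) (A q) : Q × Bool → M)).prod
      = fun t => if t.1 ∈ l ∧ t.2 = s t.1 then A t.1 else 1 := by
  induction l with
  | nil => funext t; simp
  | cons q l ih =>
    rw [List.nodup_cons] at hl
    rw [List.map_cons, List.prod_cons, ih hl.2]
    funext ⟨q', b⟩
    rw [Pi.mul_apply]
    by_cases h : (q', b) = (q, s q)
    · obtain ⟨rfl, rfl⟩ := Prod.mk.inj h
      simp [hl.1]
    · rw [Pi.mulSingle_eq_of_ne h, one_mul]
      by_cases hq : q' = q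
      · subst hq
        have : b ≠ s q' := fun e => h (by rw [e])
        simp [this]
      · simp [hq]

theorem mix_sg_star {F : Type} (b : Bool) (r : Matrix F F ℂ) : (sg b r)ᴴ = sg (!b) r := by
  cases b <;> simp [sg]

theorem mix_half (π : Equiv.Perm P) (hx : ∀ p, x (π p) = linv (x p)) :
    2 * Fintype.card {p // ¬ (x p).2 = true} = Fintype.card P := by
  have h1 : Fintype.card {p // ¬ (x p).2 = true} = Fintype.card {p // (x p).2 = true} :=
    Fintype.card_congr (π.subtypeEquiv fun p => by simp [hx, linv])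
  have h2 := Fintype.card_subtype_compl fun p => (x p).2 = true
  have h3 := Fintype.card_subtype_le fun p => (x p).2 = true
  omega

/-- For unitaries `r i` put `R = 1 + ∑_{q,b} emb (ι (q,b,·)) (sg b (r (rel q)) - 1) (emb _)†` (or define
it entrywise): `sg b (r (rel q))` on the block `ι (q, b, ·)`, identity elsewhere.  The first five
properties hold for every `r` (note `c₀ (ι (ν q, false, a)) = ι (q, false, a)` by `μc`, and
`d (ι (ν q, false, a)) = (lab q)⁻¹` by `d_μ`; `c₀` keeps the sign `b`, `μ` flips it).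
Let `S = Λ† (pm π) Λ`, `J = pm μ * R` (self-adjoint unitaries), `U = J S = R† β`, `β = pm μ * S`.
`R` and `β` preserve the classes `{p | x p = ℓ}`.  For `k : Fin m` let `e k` be the diagonal projection
of the class `ℓ = (col k, true)`, `β k = β e_k - (1 - e_k)`, and `w k` the list of the blocks
`ι (q, (xq q).2, ·)` with `(xq q).1 = col k`, index `rel q`, sign `!(xq q).2`: the product of the `ext`
is `R† e_k + (1 - e_k)` (blocks are disjoint), the exponent matrix is minus the one of `det_ne`.
`deg` (with `ι₀, ι₁` the two blocks of `q₁`) gives `r` and isometries `V k`, supported on the class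
`k` (off the class the word is `-1`), with `U V_k = V_k`.  Let `e` be the diagonal projection on
`{p | (x p).2 = true}`, `U₊ = U e + (1 - e)`, `U₋ = U (1 - e) + e`.  Then `U = U₊ U₋`,
`U₋ = J U₊† J`, and `U₊` fixes the isometry with columns `V k` and `e_p`, `(x p).2 = false`
(`|P| / 2` of them, by `π`).  Apply `cost_pair`, `Cost.conj`, `Cost.mul`. -/
theorem exists_mix (K : Mirr m f Q x d c) (π : Equiv.Perm P) (hπ : π * π = 1)
    (hx : ∀ p, x (π p) = linv (x p)) (lam : P → ℂ) (hlam : ∀ p, ‖lam p‖ = 1) :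
    ∃ R : Matrix P P ℂ, R ∈ unitary (Matrix P P ℂ) ∧ pm K.μ * R * pm K.μ = star R ∧
      (∀ a b, R (K.c₀ a) (K.c₀ b) = R a b) ∧ (∀ a b, R a b ≠ 0 → d a = d b) ∧
      (∀ p, R (K.μ p) (K.c₀ p) = if K.μ p = K.c₀ p then 1 else 0) ∧
      Cost (trC.mat P) (Real.pi * ((Fintype.card P : ℝ) - 2 * (m * f)))
        (pm K.μ * R * (star (diagonal lam) * pm π * diagonal lam)) := by
  classical
  set Λ : Matrix P P ℂ := diagonal lam with hΛ
  have hΛu : Λ ∈ unitary (Matrix P P ℂ) := by
    have h1 : ∀ p, lam p * star (lam p) = 1 := fun p => by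
      rw [Complex.star_def, Complex.mul_conj, Complex.normSq_eq_norm_sq, hlam]; simp
    constructor <;> rw [hΛ, star_eq_conjTranspose, diagonal_conjTranspose, diagonal_mul_diagonal,
      ← diagonal_one] <;> congr 1 <;> funext p
    · rw [mul_comm]; exact h1 p
    · exact h1 p
  set S := star Λ * pm π * Λ with hS
  have hπi : π⁻¹ = π := inv_eq_of_mul_eq_one_right hπ
  have hμi : K.μ⁻¹ = K.μ := inv_eq_of_mul_eq_one_right K.μμ
  have hμμ : pm K.μ * pm K.μ = 1 := by rw [← pm_mul, K.μμ, pm_one]
  have hSu : S ∈ unitary (Matrix P P ℂ) :=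
    mul_mem (mul_mem (Unitary.star_mem hΛu) (pm_mem_unitary π)) hΛu
  have hSs : star S = S := by
    rw [hS, star_mul, star_mul, star_star, star_pm, hπi, Matrix.mul_assoc]
  set β := pm K.μ * S with hβ
  have hβu : β ∈ unitary (Matrix P P ℂ) := mul_mem (pm_mem_unitary _) hSu
  have hlinv : ∀ y z : Fin n × Bool, linv y = linv z → y = z := by
    rintro ⟨y, b⟩ ⟨z, b'⟩ h
    simpa [linv] using h
  have hβx : ∀ a b, β a b ≠ 0 → x a = x b := by
    intro a b h
    rw [hβ, pm_mul_apply, hμi, hS, hΛ, mul_diagonal, star_eq_conjTranspose,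
      diagonal_conjTranspose, diagonal_mul] at h
    have h1 : K.μ a = π b := by
      by_contra h1
      exact h (by simp [pm, h1])
    exact hlinv _ _ (by rw [← K.x_μ, h1, hx])
  -- the degree theorem
  set E : Fin m → Matrix P P ℂ := fun k => mixE x fun y => y = (K.col k, true) with hE
  obtain ⟨r, hr, hV⟩ := deg (K.mixB (K.q₁, true)) (K.mixB (K.q₁, false))
    (fun a b h => by simpa using (Prod.mk.inj (K.mixJ.injective h)).2)
    (fun k => (Finset.univ.filter fun q => (K.xq q).1 = K.col k).toList.map fun q =>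
      (K.mixB (q, (K.xq q).2), K.rel q, !(K.xq q).2))
    (fun k => β * E k + -(1 - E k))
    (fun k => mix_cut_unitary hβu (mixE_star _) (mixE_sq _) (mixE_comm _ hβx) (Or.inr rfl))
    (by
      have e : (Matrix.of fun k i : Fin m =>
          (((Finset.univ.filter fun q => (K.xq q).1 = K.col k).toList.map fun q =>
            (K.mixB (q, (K.xq q).2), K.rel q, !(K.xq q).2)).map
              fun l => if l.2.1 = i then sgn l.2.2 else 0).sum)
          = -(Matrix.of fun k i : Fin m =>
            ∑ q, if K.rel q = i ∧ (K.xq q).1 = K.col k then sgn (K.xq q).2 else 0) := by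
        ext k i
        rw [Matrix.neg_apply, of_apply, of_apply, List.map_map, Finset.sum_map_toList,
          Finset.sum_filter, ← Finset.sum_neg_distrib]
        refine Finset.sum_congr rfl fun q _ => ?_
        by_cases h1 : K.rel q = i <;> by_cases h2 : (K.xq q).1 = K.col k <;>
          cases h3 : (K.xq q).2 <;> simp [h1, h2, h3, sgn]
      rw [e, det_neg]
      exact mul_ne_zero (pow_ne_zero _ (by norm_num)) K.det_ne)
  choose V hV1 hV2 using hV
  set g : Q × Bool → Matrix (Fin f) (Fin f) ℂ := fun t => sg t.2 (r (K.rel t.1)) with hg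
  set R := K.mixΦ g with hR
  have hgu : g ∈ unitary (Q × Bool → Matrix (Fin f) (Fin f) ℂ) := by
    constructor <;> funext ⟨q, b⟩ <;> cases b <;>
      simp [hg, sg, star_eq_conjTranspose] <;>
      first | exact (hr _).1 | exact (hr _).2
  have hRu : R ∈ unitary (Matrix P P ℂ) := by
    constructor <;> rw [hR, K.mixΦ_star, ← map_mul]
    · rw [hgu.1, map_one]
    · rw [hgu.2, map_one]
  have hR2 : pm K.μ * R * pm K.μ = star R := by
    ext a b
    rw [mul_pm_apply, pm_mul_apply, hμi, hR, K.mixΦ_star, K.mixΦ_apply, K.mixΦ_apply,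
      mix_ext_perm K.mixJ K.μ (fun u => (u.1, u.2.1, !u.2.2)) fun u => K.μ_ι _ _ _]
    refine congrArg (fun A => ext K.mixJ A a b) ?_
    ext ⟨a', q, b'⟩ ⟨a'', q', b''⟩
    simp only [submatrix_apply, blockDiagonal_apply, Prod.mk.injEq, Bool.not_inj_iff, hg,
      Pi.star_apply, star_eq_conjTranspose, mix_sg_star]
  refine ⟨R, hRu, hR2, fun a b => ?_, fun a b h => ?_, fun p => ?_, ?_⟩
  · rw [hR, K.mixΦ_apply, mix_ext_perm K.mixJ K.c₀
      (fun u => (u.1, if u.2.2 then K.ν u.2.1 else K.ν.symm u.2.1, u.2.2))]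
    · refine congrArg (fun A => ext K.mixJ A a b) ?_
      ext ⟨a', q, b'⟩ ⟨a'', q', b''⟩
      have h1 : K.rel (K.ν.symm q) = K.rel q := by rw [← K.rel_ν, Equiv.apply_symm_apply]
      cases b' <;> cases b'' <;> simp [blockDiagonal_apply, hg, K.rel_ν, h1]
    · rintro ⟨a', q, b'⟩
      cases b'
      · exact K.mix_c_false q a'
      · exact K.c_ι q a'
  · rcases K.mixΦ_ne h with rfl | ⟨t, a', b', rfl, rfl⟩
    · rfl
    · rw [K.mix_d, K.mix_d]
  · rw [hR, K.mixΦ_apply]
    by_cases hp : ∀ u, p ≠ K.mixJ u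
    · exact mix_ext_out _ _ (Or.inl (mix_out_perm K.mixJ K.μ (fun u => (u.1, u.2.1, !u.2.2))
        (fun u => K.μ_ι _ _ _) hp))
    · push Not at hp
      obtain ⟨⟨a, q, b⟩, rfl⟩ := hp
      have h1 : K.μ (K.mixJ (a, q, b)) = K.mixJ (a, q, !b) := K.μ_ι _ _ _
      have h2 : ∃ q', K.c₀ (K.mixJ (a, q, b)) = K.mixJ (a, q', b) := by
        cases b
        · exact ⟨_, K.mix_c_false q a⟩
        · exact ⟨_, K.c_ι q a⟩
      obtain ⟨q', h2⟩ := h2
      rw [h1, h2, mix_ext_in]
      simp [blockDiagonal_apply]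
  -- the cost
  set J := pm K.μ * R with hJ
  have hJu : J ∈ unitary (Matrix P P ℂ) := mul_mem (pm_mem_unitary _) hRu
  have hJs : star J = J := by
    rw [hJ, star_mul, star_pm, hμi, ← hR2, Matrix.mul_assoc, hμμ, Matrix.mul_one]
  have hJJ : J * J = 1 := by simpa only [hJs] using hJu.1
  set U := J * S with hU
  have hUu : U ∈ unitary (Matrix P P ℂ) := mul_mem hJu hSu
  have hUR : U = star R * β := by
    rw [hU, hJ, hβ, ← hR2, Matrix.mul_assoc (pm K.μ * R), ← Matrix.mul_assoc (pm K.μ) (pm K.μ), hμμ,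
      Matrix.one_mul]
  have hRc : ∀ (C : Fin n × Bool → Prop) [DecidablePred C], mixE x C * R = R * mixE x C :=
    fun C _ => mixE_comm C K.mixΦ_x
  have hRc' : ∀ (C : Fin n × Bool → Prop) [DecidablePred C],
      mixE x C * star R = star R * mixE x C := fun C _ => by
    rw [hR, K.mixΦ_star]; exact mixE_comm C K.mixΦ_x
  have hUc : ∀ (C : Fin n × Bool → Prop) [DecidablePred C], mixE x C * U = U * mixE x C :=
    fun C _ => by
      rw [hUR, ← Matrix.mul_assoc, hRc', Matrix.mul_assoc, mixE_comm C hβx,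
        ← Matrix.mul_assoc (star R)]
  have hVk : ∀ k, E k * V k = V k ∧ U * V k = V k := by
    intro k
    have h1 := hV2 k
    rw [List.map_map] at h1
    have h2 : (((Finset.univ.filter fun q => (K.xq q).1 = K.col k).toList).map
        ((fun l : (Fin f ↪ P) × Fin m × Bool => ext l.1 (sg l.2.2 (r l.2.1))) ∘ fun q =>
          (K.mixB (q, (K.xq q).2), K.rel q, !(K.xq q).2))).prod = star R * E k + (1 - E k) := by
      rw [hR, K.mixΦ_star, hE, ← K.mixΦ_cut]
      have h3 := mix_prod_single (fun q => (K.xq q).2) (fun q => sg (!(K.xq q).2) (r (K.rel q))) _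
        (Finset.nodup_toList (Finset.univ.filter fun q => (K.xq q).1 = K.col k))
      have h4 := congrArg K.mixΦ h3
      rw [map_list_prod, List.map_map] at h4
      refine Eq.trans ?_ (h4.trans ?_)
      · congr 1
        exact List.map_congr_left fun q _ => K.mix_ext_block _ _
      · congr 1
        funext ⟨q, b⟩
        obtain ⟨y, b', hq⟩ : ∃ y b', K.xq q = (y, b') := ⟨_, _, rfl⟩
        cases b <;> cases b' <;>
          simp [hq, linv, hg, star_eq_conjTranspose, mix_sg_star]
    rw [h2] at h1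
    have hee : E k * E k = E k := mixE_sq _
    have h5 : (star R * E k + (1 - E k)) * (β * E k + -(1 - E k)) = U * E k - (1 - E k) := by
      have c1 : E k * β = β * E k := mixE_comm _ hβx
      have c2 : E k * (β * E k) = β * E k := by rw [← Matrix.mul_assoc, c1, Matrix.mul_assoc, hee]
      rw [hUR]
      simp only [add_mul, mul_add, sub_mul, mul_sub, mul_neg, Matrix.mul_assoc, c2, hee,
        Matrix.mul_one, Matrix.one_mul]
      abel
    rw [h5] at h1
    have h6 : E k * U = U * E k := hUc _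
    have h7 : E k * V k = U * (E k * V k) := by
      conv_lhs => rw [← h1]
      rw [← Matrix.mul_assoc, mul_sub, mul_sub, ← Matrix.mul_assoc, h6, Matrix.mul_assoc U, hee,
        Matrix.mul_one, sub_self, sub_zero, Matrix.mul_assoc]
    have h8 : E k * V k = V k := by
      rw [Matrix.sub_mul, Matrix.sub_mul, Matrix.one_mul, Matrix.mul_assoc, ← h7] at h1
      have h9 : (2 : ℂ) • (E k * V k - V k) = 0 := by
        rw [← sub_eq_zero.2 h1, two_smul]
        abel
      exact sub_eq_zero.1 ((smul_eq_zero.1 h9).resolve_left two_ne_zero)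
    exact ⟨h8, by rw [h8] at h7; exact h7.symm⟩
  set e := mixE x fun y => y.2 = true with he
  have hee : e * e = e := mixE_sq _
  have heE : ∀ k, e * E k = E k := fun k => by
    simp only [he, hE, mixE, diagonal_mul_diagonal]
    congr 1
    funext p
    by_cases h : x p = (K.col k, true) <;> simp [h]
  have heV : ∀ k, e * V k = V k := fun k => by
    rw [← (hVk k).1, ← Matrix.mul_assoc, heE]
  have hEE : ∀ k k', k ≠ k' → E k * E k' = 0 := fun k k' hk => by
    simp only [hE, mixE, diagonal_mul_diagonal, ← diagonal_zero]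
    congr 1
    funext p
    by_cases h : x p = (K.col k, true) <;> simp [h, hk]
  set W : Matrix P (Fin m × Fin f) ℂ := Matrix.of fun p u => V u.1 p u.2 with hW
  set Z := emb (Subtype.val : {p // ¬ (x p).2 = true} → P) with hZ
  have heW : e * W = W := by
    ext p ⟨k, a⟩
    exact congrFun (congrFun (heV k) p) a
  have hUW : U * W = W := by
    ext p ⟨k, a⟩
    exact congrFun (congrFun (hVk k).2 p) a
  have heZ : e * Z = 0 := by
    ext p ⟨p', hp'⟩
    rw [he, mixE, diagonal_mul]
    by_cases h : p = p'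
    · subst h; simp [hp']
    · simp [hZ, emb, h]
  have hWW : Wᴴ * W = 1 := by
    ext ⟨k, a⟩ ⟨k', a'⟩
    change ((V k)ᴴ * V k') a a' = _
    by_cases hk : k = k'
    · subst hk
      rw [hV1]; simp [Matrix.one_apply]
    · have h1 : (E k)ᴴ = E k := mixE_star _
      rw [← (hVk k).1, ← (hVk k').1, conjTranspose_mul, h1, Matrix.mul_assoc,
        ← Matrix.mul_assoc (E k), hEE k k' hk]
      simp [hk]
  have hWZ : Wᴴ * Z = 0 := by
    have h1 : eᴴ = e := mixE_star _
    rw [← heW, conjTranspose_mul, h1, Matrix.mul_assoc, heZ, Matrix.mul_zero]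
  have hZW : Zᴴ * W = 0 := by
    have := congrArg conjTranspose hWZ
    rwa [conjTranspose_mul, conjTranspose_conjTranspose, conjTranspose_zero] at this
  have hc : e * U = U * e := hUc _
  obtain ⟨c₁, c₂, h1, h2, h3⟩ := cost_pair (Y := U * e + (1 - e))
    (mix_cut_unitary hUu (mixE_star _) hee hc (Or.inl rfl)) (fromCols W Z)
    (by
      rw [conjTranspose_fromCols_eq_fromRows_conjTranspose, fromRows_mul_fromCols, hWW, hWZ, hZW,
        emb_iso Subtype.val_injective, fromBlocks_one])
    (by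
      rw [mul_fromCols, Matrix.add_mul, Matrix.add_mul, Matrix.mul_assoc U, Matrix.mul_assoc U,
        Matrix.sub_mul, Matrix.sub_mul, heW, heZ, hUW]
      simp)
  have hμe : pm K.μ * e = (1 - e) * pm K.μ := by
    ext a b
    rw [he, mixE, mul_diagonal, ← diagonal_one, diagonal_sub, diagonal_mul]
    by_cases h : a = K.μ b
    · subst h
      cases h' : (x b).2 <;> simp [pm, K.x_μ, linv, h']
    · simp [pm, h]
  have hJe : J * e = (1 - e) * J := by
    rw [hJ, Matrix.mul_assoc, ← hRc, ← Matrix.mul_assoc, hμe, Matrix.mul_assoc]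
  have hfin : (U * e + (1 - e)) * (J * star (U * e + (1 - e)) * star J) = U :=
    mix_fin hJs hJJ hSs (mixE_star _) hee hJe hc
  have h4 := h1.mul (h2.conj hJu)
  rw [hfin] at h4
  refine h4.mono (h3.trans (le_of_eq ?_))
  have h5 : (2 : ℝ) * Fintype.card {p // ¬ (x p).2 = true} = Fintype.card P := by
    exact_mod_cast mix_half π hx
  rw [Fintype.card_sum, Fintype.card_prod, Fintype.card_fin, Fintype.card_fin]
  push_cast
  linear_combination (-Real.pi) * h5

end Crest.Agent.R174
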