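import Crest.Agent.R174.Defs

/-!
# Row 174: definitions for the degree theorem

Variables: `none` is a homotopy parameter, and for `k : Fin m` we have `t k = some (k, 0)` (fixing
the range of `1 - E`), `y k = some (k, 1)` (free) and `u k = some (k, 2)` (fixing the range of `E`).
For words `ws k` in the `t i` and constants, the map `x ↦ (ws k (t) * (y k)† (u k) (y k))_k` goes
from the compact group `GG` to `U(N)^m`; `II` integrates a power of a peak function times the
Jacobian (in the directions `jm`) of this map.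
-/

set_option autoImplicit false

namespace Crest.Agent.R174

open Matrix MvPolynomial MeasureTheory

/-- Names of the matrix variables. -/
abbrev Ix (m : ℕ) := Option (Fin m × Fin 3)

/-- Polynomials in the entries (`true`) and their conjugates (`false`). -/
abbrev PR (m : ℕ) (N : Type) := MvPolynomial (Ix m × N × N × Bool) ℂ

variable {m : ℕ} {N : Type} [Fintype N] [DecidableEq N]

/-- The generic matrix. -/
noncomputable def gen (j : Ix m) : Matrix N N (PR m N) := Matrix.of fun a b => X (j, a, b, true)

/-- The generic adjoint. -/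
noncomputable def gen' (j : Ix m) : Matrix N N (PR m N) := Matrix.of fun a b => X (j, b, a, false)

/-- Constant matrices. -/
noncomputable def cst (a : Matrix N N ℂ) : Matrix N N (PR m N) := a.map C

/-- Evaluation at a family of matrices. -/
noncomputable def ev (x : Ix m → Matrix N N ℂ) : PR m N →ₐ[ℂ] ℂ :=
  aeval fun v => if v.2.2.2 then x v.1 v.2.1 v.2.2.1 else (starRingEnd ℂ) (x v.1 v.2.1 v.2.2.1)

/-- The (complexified) right-invariant vector field `x j ↦ α j * x j`. -/
noncomputable def der (α : Ix m → Matrix N N ℂ) : Derivation ℂ (PR m N) (PR m N) :=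
  mkDerivation ℂ fun v => if v.2.2.2 then (cst (α v.1) * gen v.1 : Matrix N N (PR m N)) v.2.1 v.2.2.1
    else -(gen' v.1 * cst (α v.1) : Matrix N N (PR m N)) v.2.2.1 v.2.1

/-- Letters: constants and variables. -/
inductive Lt (m : ℕ) (N : Type)
  | c (b : Matrix N N ℂ)
  | v (j : Ix m) (ε : Bool)

/-- A letter as a polynomial matrix. -/
noncomputable def Lt.pol : Lt m N → Matrix N N (PR m N)
  | .c b => cst b
  | .v j ε => if ε then gen j else gen' j

/-- The adjoint of a letter as a polynomial matrix. -/
noncomputable def Lt.pol' : Lt m N → Matrix N N (PR m N)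
  | .c b => cst bᴴ
  | .v j ε => if ε then gen' j else gen j

/-- The value of a letter. -/
def Lt.val (x : Ix m → Matrix N N ℂ) : Lt m N → Matrix N N ℂ
  | .c b => b
  | .v j ε => sg ε (x j)

/-- The logarithmic derivative of a letter. -/
def Lt.th (x α : Ix m → Matrix N N ℂ) : Lt m N → Matrix N N ℂ
  | .c _ => 0
  | .v j ε => if ε then α j else -((x j)ᴴ * α j * x j)

/-- Constants are unitary. -/
def Lt.Uni : Lt m N → Prop
  | .c b => b ∈ unitaryGroup N ℂ
  | .v _ _ => True

/-- Constants are unitary; variables are the parameter or some `t i`. -/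
def Lt.Adm : Lt m N → Prop
  | .c b => b ∈ unitaryGroup N ℂ
  | .v j _ => j = none ∨ ∃ i, j = some (i, 0)

/-- Constants are unitary; variables are some `t i`. -/
def Lt.Adm₀ : Lt m N → Prop
  | .c b => b ∈ unitaryGroup N ℂ
  | .v j _ => ∃ i, j = some (i, 0)

/-- The exponent of `t i` in a letter. -/
def Lt.ex (i : Fin m) : Lt m N → ℤ
  | .c _ => 0
  | .v j ε => if j = some (i, 0) then sgn ε else 0

/-- A word as a polynomial matrix. -/
noncomputable def pol (w : List (Lt m N)) : Matrix N N (PR m N) := (w.map Lt.pol).prod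

/-- The adjoint of a word as a polynomial matrix. -/
noncomputable def pol' (w : List (Lt m N)) : Matrix N N (PR m N) := (w.reverse.map Lt.pol').prod

/-- The value of a word. -/
def val (x : Ix m → Matrix N N ℂ) (w : List (Lt m N)) : Matrix N N ℂ := (w.map (Lt.val x)).prod

/-- The logarithmic derivative `(X_α F) F†` of a word. -/
def th (x α : Ix m → Matrix N N ℂ) : List (Lt m N) → Matrix N N ℂ
  | [] => 0
  | l :: w => l.th x α + l.val x * th x α w * (l.val x)ᴴ

/-- The word `ws k * (y k)† (u k) (y k)`. -/
def full (ws : Fin m → List (Lt m N)) (k : Fin m) : List (Lt m N) :=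
  ws k ++ [.v (some (k, 1)) false, .v (some (k, 2)) true, .v (some (k, 1)) true]

/-- The source directions. -/
def jm (E : Matrix N N ℂ) (a : Fin m → Matrix N N ℂ) : Ix m → Matrix N N ℂ
  | none => 0
  | some (k, i) =>
    if i = 0 then E * a k * E
    else if i = 1 then E * a k * (1 - E) + (1 - E) * a k * E
    else (1 - E) * a k * (1 - E)

/-- The direction of the homotopy. -/
def dir (p : Matrix N N ℂ) : Ix m → Matrix N N ℂ
  | none => Complex.I • p
  | some _ => 0

/-- The standard basis of `Fin m → Matrix N N ℂ`. -/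
def bas (b : Fin m × N × N) : Fin m → Matrix N N ℂ := Pi.single b.1 (single b.2.1 b.2.2 1)

/-- The Jacobian matrix. -/
noncomputable def Jac (E : Matrix N N ℂ) (ws : Fin m → List (Lt m N)) :
    Matrix (Fin m × N × N) (Fin m × N × N) (PR m N) :=
  Matrix.of fun c b =>
    ((pol (full ws c.1)).map (der (jm E (bas b))) * pol' (full ws c.1) : Matrix N N (PR m N))
      c.2.1 c.2.2

/-- The peak function `m |N| + ∑ Re tr F_k`. -/
noncomputable def Phi (ws : Fin m → List (Lt m N)) : PR m N :=
  C ((m : ℂ) * Fintype.card N) +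
    C (1 / 2) * ∑ k, ((pol (full ws k)).trace + (pol' (full ws k)).trace)

/-- The compact group of the variables. -/
def GG (m : ℕ) (E : Matrix N N ℂ) : Subgroup (Fin m × Fin 3 → unitary (Matrix N N ℂ)) where
  carrier := {x | ∀ k, (x (k, 0) : Matrix N N ℂ) * (1 - E) = 1 - E ∧
    (x (k, 2) : Matrix N N ℂ) * E = E}
  one_mem' k := by simp
  mul_mem' {x y} hx hy k := by
    simp only [Pi.mul_apply, Submonoid.coe_mul, mul_assoc, (hx k).1, (hx k).2, (hy k).1, (hy k).2,
      and_self]
  inv_mem' {x} hx k := by
    have h : ∀ (u : unitary (Matrix N N ℂ)) (W : Matrix N N ℂ), (u : Matrix N N ℂ) * W = W →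
        ((u⁻¹ : unitary (Matrix N N ℂ)) : Matrix N N ℂ) * W = W := fun u W h => by
      conv_lhs => rw [← h, ← mul_assoc, ← Submonoid.coe_mul, inv_mul_cancel]
      simp
    exact ⟨h _ _ (hx k).1, h _ _ (hx k).2⟩

/-- Complexified Lie algebra of `GG`. -/
def InLie (E : Matrix N N ℂ) (α : Ix m → Matrix N N ℂ) : Prop :=
  α none = 0 ∧ ∀ k, α (some (k, 0)) * (1 - E) = 0 ∧ (1 - E) * α (some (k, 0)) = 0 ∧
    α (some (k, 2)) * E = 0 ∧ E * α (some (k, 2)) = 0

/-- The point with parameter `c`. -/
def pt {E : Matrix N N ℂ} (c : Matrix N N ℂ) (x : GG m E) : Ix m → Matrix N N ℂ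
  | none => c
  | some j => (x.1 j : Matrix N N ℂ)

instance : CompactSpace (unitary (Matrix N N ℂ)) := by
  refine isCompact_iff_compactSpace.1 ?_
  have hc : IsCompact (Set.pi Set.univ fun _ : N => Set.pi Set.univ fun _ : N =>
      Metric.closedBall (0 : ℂ) 1) :=
    isCompact_univ_pi fun _ => isCompact_univ_pi fun _ => isCompact_closedBall _ _
  refine hc.of_isClosed_subset ?_ fun U hU a _ b _ => ?_
  · exact (isClosed_eq (by fun_prop) continuous_const).inter
      (isClosed_eq (by fun_prop) continuous_const)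
  · simpa using entry_norm_bound_of_unitary hU a b

instance (E : Matrix N N ℂ) : CompactSpace (GG m E) := by
  refine isCompact_iff_compactSpace.1 (IsClosed.isCompact ?_)
  have : ((GG m E : Set (Fin m × Fin 3 → unitary (Matrix N N ℂ)))) =
      ⋂ k, ({x | (x (k, 0) : Matrix N N ℂ) * (1 - E) = 1 - E} ∩
        {x | (x (k, 2) : Matrix N N ℂ) * E = E}) := by
    ext x; simp [GG]
  rw [this]
  exact isClosed_iInter fun k => (isClosed_eq (by fun_prop) continuous_const).inter
    (isClosed_eq (by fun_prop) continuous_const)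

noncomputable instance (E : Matrix N N ℂ) : MeasurableSpace (GG m E) := borel _
instance (E : Matrix N N ℂ) : BorelSpace (GG m E) := ⟨rfl⟩

/-- Haar measure of `GG`. -/
noncomputable def hm (m : ℕ) (E : Matrix N N ℂ) : Measure (GG m E) := Measure.haar

/-- The weighted degree integral. -/
noncomputable def II (E : Matrix N N ℂ) (ws : Fin m → List (Lt m N)) (c : Matrix N N ℂ) (M : ℕ) :
    ℂ :=
  ∫ x : GG m E, ev (pt c x) (Phi ws ^ M * (Jac E ws).det) ∂(hm m E)

/-- The standard words `(t k)^d (2E - 1)`. -/
def std (E : Matrix N N ℂ) (d : ℕ) (k : Fin m) : List (Lt m N) :=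
  List.replicate d (.v (some (k, 0)) true) ++ [.c (E - (1 - E))]

end Crest.Agent.R174
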