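import Crest.Agent.R174.PDefs

/-! # Row 174: polynomial functions of matrices and their vector fields -/

set_option autoImplicit false
set_option linter.unusedSectionVars false

namespace Crest.Agent.R174

open Matrix MvPolynomial

variable {m : ℕ} {N : Type} [Fintype N] [DecidableEq N]

theorem poly_cst_add (a b : Matrix N N ℂ) :
    (cst (a + b) : Matrix N N (PR m N)) = cst a + cst b := by
  ext i j : 2; simp [cst]

theorem poly_cst_sub (a b : Matrix N N ℂ) :
    (cst (a - b) : Matrix N N (PR m N)) = cst a - cst b := by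
  ext i j : 2; simp [cst]

theorem poly_cst_smul (c : ℂ) (a : Matrix N N ℂ) :
    (cst (c • a) : Matrix N N (PR m N)) = c • cst a := by
  ext i j : 2; simp [cst, smul_eq_C_mul]

theorem poly_cst_mul (a b : Matrix N N ℂ) :
    (cst (a * b) : Matrix N N (PR m N)) = cst a * cst b := by
  simp only [cst]; exact Matrix.map_mul

theorem poly_der_true (α : Ix m → Matrix N N ℂ) (j : Ix m) (a b : N) :
    der α (X (j, a, b, true)) = (cst (α j) * gen j : Matrix N N (PR m N)) a b := by
  simp only [der, mkDerivation_X, if_true]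

theorem poly_der_false (α : Ix m → Matrix N N ℂ) (j : Ix m) (a b : N) :
    der α (X (j, a, b, false)) = -(gen' j * cst (α j) : Matrix N N (PR m N)) b a := by
  simp only [der, mkDerivation_X, Bool.false_eq_true, if_false]

theorem poly_map_der_neg (α : Ix m → Matrix N N ℂ) (A : Matrix N N (PR m N)) :
    (-A).map (der α) = -A.map (der α) := by
  ext i j : 2; simp

theorem poly_map_der_one (α : Ix m → Matrix N N ℂ) :
    (1 : Matrix N N (PR m N)).map (der α) = 0 := by
  ext i j : 2
  by_cases h : i = j <;> simp [one_apply, h]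

theorem poly_map_der_add (α : Ix m → Matrix N N ℂ) (A B : Matrix N N (PR m N)) :
    (A + B).map (der α) = A.map (der α) + B.map (der α) := by
  ext i j : 2; simp

theorem poly_ev_mul (x : Ix m → Matrix N N ℂ) (A B : Matrix N N (PR m N)) :
    (A * B).map (ev x) = A.map (ev x) * B.map (ev x) := Matrix.map_mul

theorem poly_ev_add (x : Ix m → Matrix N N ℂ) (A B : Matrix N N (PR m N)) :
    (A + B).map (ev x) = A.map (ev x) + B.map (ev x) := by
  ext i j : 2; simp

theorem poly_ev_sub (x : Ix m → Matrix N N ℂ) (A B : Matrix N N (PR m N)) :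
    (A - B).map (ev x) = A.map (ev x) - B.map (ev x) := by
  ext i j : 2; simp

theorem poly_ev_neg (x : Ix m → Matrix N N ℂ) (A : Matrix N N (PR m N)) :
    (-A).map (ev x) = -A.map (ev x) := by
  ext i j : 2; simp

theorem poly_ev_zero (x : Ix m → Matrix N N ℂ) :
    (0 : Matrix N N (PR m N)).map (ev x) = 0 := by
  ext i j : 2; simp

theorem poly_ev_one (x : Ix m → Matrix N N ℂ) :
    (1 : Matrix N N (PR m N)).map (ev x) = 1 := by
  ext i j : 2
  by_cases h : i = j <;> simp [one_apply, h]

theorem poly_pol_cons (l : Lt m N) (w : List (Lt m N)) : pol (l :: w) = l.pol * pol w := by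
  simp [pol]

theorem poly_pol'_cons (l : Lt m N) (w : List (Lt m N)) : pol' (l :: w) = pol' w * l.pol' := by
  simp [pol']

theorem poly_val_cons (x : Ix m → Matrix N N ℂ) (l : Lt m N) (w : List (Lt m N)) :
    val x (l :: w) = l.val x * val x w := by
  simp [val]

theorem der_add (α β : Ix m → Matrix N N ℂ) : der (α + β) = der α + der β := by
  refine derivation_ext fun ⟨j, a, b, ε⟩ => ?_
  cases ε
  · simp only [Derivation.add_apply, poly_der_false, Pi.add_apply, poly_cst_add, mul_add,
      Matrix.add_apply, neg_add]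
  · simp only [Derivation.add_apply, poly_der_true, Pi.add_apply, poly_cst_add, add_mul,
      Matrix.add_apply]

theorem der_smul (c : ℂ) (α : Ix m → Matrix N N ℂ) : der (c • α) = c • der α := by
  refine derivation_ext fun ⟨j, a, b, ε⟩ => ?_
  cases ε
  · simp only [Derivation.smul_apply, poly_der_false, Pi.smul_apply, poly_cst_smul,
      Matrix.mul_smul, Matrix.smul_apply, smul_neg]
  · simp only [Derivation.smul_apply, poly_der_true, Pi.smul_apply, poly_cst_smul,
      Matrix.smul_mul, Matrix.smul_apply]

theorem map_der_mul (α : Ix m → Matrix N N ℂ) (A B : Matrix N N (PR m N)) :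
    (A * B).map (der α) = A.map (der α) * B + A * B.map (der α) := by
  refine Matrix.ext fun i j => ?_
  simp only [map_apply, mul_apply, map_sum, Derivation.leibniz, Matrix.add_apply, smul_eq_mul,
    ← Finset.sum_add_distrib]
  exact Finset.sum_congr rfl fun k _ => by ring

theorem map_der_gen (α : Ix m → Matrix N N ℂ) (j : Ix m) :
    (gen j : Matrix N N (PR m N)).map (der α) = cst (α j) * gen j := by
  ext a b : 2
  rw [map_apply, ← poly_der_true]; rfl

theorem map_der_gen' (α : Ix m → Matrix N N ℂ) (j : Ix m) :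
    (gen' j : Matrix N N (PR m N)).map (der α) = -(gen' j * cst (α j)) := by
  ext a b : 2
  rw [map_apply, Matrix.neg_apply, ← poly_der_false]; rfl

theorem map_der_cst (α : Ix m → Matrix N N ℂ) (a : Matrix N N ℂ) :
    (cst a : Matrix N N (PR m N)).map (der α) = 0 := by
  ext i j : 2
  simp [cst]

/-- Both sides are derivations (`Derivation.commutator`); compare on the variables. -/
theorem der_bracket (α β : Ix m → Matrix N N ℂ) (P : PR m N) :
    der α (der β P) - der β (der α P) = der (fun j => β j * α j - α j * β j) P := by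
  have : ⁅der α, der β⁆ = der (fun j => β j * α j - α j * β j) := by
    refine derivation_ext fun ⟨j, a, b, ε⟩ => ?_
    rw [Derivation.commutator_apply]
    have key : ∀ (γ : Ix m → Matrix N N ℂ) (A : Matrix N N (PR m N)) (a b : N),
        der γ (A a b) = (A.map (der γ)) a b := fun _ _ _ _ => rfl
    cases ε
    · simp only [poly_der_false, map_neg, key, map_der_mul, map_der_cst, map_der_gen',
        poly_cst_sub, poly_cst_mul, mul_zero, add_zero, mul_sub, neg_mul, Matrix.neg_apply,
        Matrix.sub_apply, mul_assoc]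
      ring
    · simp only [poly_der_true, key, map_der_mul, map_der_cst, map_der_gen,
        poly_cst_sub, poly_cst_mul, zero_mul, zero_add, sub_mul, Matrix.sub_apply, mul_assoc]
  rw [← this, Derivation.commutator_apply]

theorem map_ev_gen (x : Ix m → Matrix N N ℂ) (j : Ix m) : (gen j).map (ev x) = x j := by
  ext a b; simp [gen, ev]

theorem map_ev_gen' (x : Ix m → Matrix N N ℂ) (j : Ix m) : (gen' j).map (ev x) = (x j)ᴴ := by
  ext a b; simp [gen', ev]

theorem map_ev_cst (x : Ix m → Matrix N N ℂ) (a : Matrix N N ℂ) : (cst a).map (ev x) = a := by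
  ext i j; simp [cst, ev]

theorem poly_ev_lt (x : Ix m → Matrix N N ℂ) (l : Lt m N) : l.pol.map (ev x) = l.val x := by
  rcases l with b | ⟨j, _ | _⟩ <;> simp [Lt.pol, Lt.val, sg, map_ev_cst, map_ev_gen, map_ev_gen']

theorem poly_ev_lt' (x : Ix m → Matrix N N ℂ) (l : Lt m N) : l.pol'.map (ev x) = (l.val x)ᴴ := by
  rcases l with b | ⟨j, _ | _⟩ <;> simp [Lt.pol', Lt.val, sg, map_ev_cst, map_ev_gen, map_ev_gen']

theorem map_ev_pol (x : Ix m → Matrix N N ℂ) (w : List (Lt m N)) :
    (pol w).map (ev x) = val x w := by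
  induction w with
  | nil => simp only [pol, val, List.map_nil, List.prod_nil, poly_ev_one]
  | cons l w ih => rw [poly_pol_cons, poly_val_cons, poly_ev_mul, ih, poly_ev_lt]

theorem map_ev_pol' (x : Ix m → Matrix N N ℂ) (w : List (Lt m N)) :
    (pol' w).map (ev x) = (val x w)ᴴ := by
  induction w with
  | nil =>
    simp only [pol', val, List.reverse_nil, List.map_nil, List.prod_nil, poly_ev_one,
      conjTranspose_one]
  | cons l w ih =>
    rw [poly_pol'_cons, poly_val_cons, poly_ev_mul, ih, poly_ev_lt', conjTranspose_mul]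

theorem val_append (x : Ix m → Matrix N N ℂ) (w w' : List (Lt m N)) :
    val x (w ++ w') = val x w * val x w' := by
  simp [val]

theorem poly_lt_unitary {x : Ix m → Matrix N N ℂ} (hx : ∀ j, x j ∈ unitaryGroup N ℂ)
    {l : Lt m N} (hl : l.Uni) : l.val x ∈ unitaryGroup N ℂ := by
  rcases l with b | ⟨j, _ | _⟩
  · exact hl
  · exact Unitary.star_mem (hx j)
  · exact hx j

theorem val_mem_unitary {x : Ix m → Matrix N N ℂ} (hx : ∀ j, x j ∈ unitaryGroup N ℂ)
    {w : List (Lt m N)} (hw : ∀ l ∈ w, l.Uni) : val x w ∈ unitaryGroup N ℂ := by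
  induction w with
  | nil => exact one_mem _
  | cons l w ih =>
    rw [poly_val_cons]
    exact mul_mem (poly_lt_unitary hx (hw l List.mem_cons_self))
      (ih fun l' h => hw l' (List.mem_cons_of_mem _ h))

theorem th_append (x α : Ix m → Matrix N N ℂ) (w w' : List (Lt m N)) :
    th x α (w ++ w') = th x α w + val x w * th x α w' * (val x w)ᴴ := by
  induction w with
  | nil => simp [th, val]
  | cons l w ih =>
    rw [List.cons_append, th, th, ih, poly_val_cons, conjTranspose_mul]
    noncomm_ring

/-- `th` is linear in the direction. -/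
noncomputable def thL (x : Ix m → Matrix N N ℂ) (w : List (Lt m N)) :
    (Ix m → Matrix N N ℂ) →ₗ[ℂ] Matrix N N ℂ where
  toFun α := th x α w
  map_add' α β := by
    induction w with
    | nil => simp [th]
    | cons l w ih =>
      have : l.th x (α + β) = l.th x α + l.th x β := by
        rcases l with b | ⟨j, _ | _⟩ <;> simp [Lt.th, mul_add, add_mul, add_comm]
      rw [th, th, th, ih, this]
      noncomm_ring
  map_smul' c α := by
    induction w with
    | nil => simp [th]
    | cons l w ih =>
      have : l.th x (c • α) = c • l.th x α := by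
        rcases l with b | ⟨j, _ | _⟩ <;> simp [Lt.th]
      rw [th, th, ih, this]
      simp

theorem th_star (x α : Ix m → Matrix N N ℂ) (w : List (Lt m N)) :
    th x (fun j => (α j)ᴴ) w = (th x α w)ᴴ := by
  induction w with
  | nil => simp [th]
  | cons l w ih =>
    have : l.th x (fun j => (α j)ᴴ) = (l.th x α)ᴴ := by
      rcases l with b | ⟨j, _ | _⟩ <;> simp [Lt.th, mul_assoc]
    rw [th, th, ih, this]
    simp [mul_assoc]

theorem poly_u1 {u : Matrix N N ℂ} (hu : u ∈ unitaryGroup N ℂ) : u * uᴴ = 1 := hu.2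

theorem poly_u2 {u : Matrix N N ℂ} (hu : u ∈ unitaryGroup N ℂ) : uᴴ * u = 1 := hu.1

theorem poly_ev_der_lt {x : Ix m → Matrix N N ℂ} (hx : ∀ j, x j ∈ unitaryGroup N ℂ)
    (α : Ix m → Matrix N N ℂ) (l : Lt m N) :
    (l.pol.map (der α)).map (ev x) = l.th x α * l.val x := by
  rcases l with b | ⟨j, _ | _⟩
  · simp only [Lt.pol, Lt.th, map_der_cst, poly_ev_zero, zero_mul]
  · simp only [Lt.pol, Lt.th, Lt.val, sg, Bool.false_eq_true, if_false, map_der_gen',
      poly_ev_neg, poly_ev_mul, map_ev_gen', map_ev_cst, neg_mul, mul_assoc, poly_u1 (hx j),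
      mul_one]
  · simp only [Lt.pol, Lt.th, Lt.val, sg, if_true, map_der_gen, poly_ev_mul, map_ev_gen,
      map_ev_cst]

theorem poly_ev_der_lt' {x : Ix m → Matrix N N ℂ} (hx : ∀ j, x j ∈ unitaryGroup N ℂ)
    (α : Ix m → Matrix N N ℂ) (l : Lt m N) :
    (l.pol'.map (der α)).map (ev x) = -((l.val x)ᴴ * l.th x α) := by
  rcases l with b | ⟨j, _ | _⟩
  · simp only [Lt.pol', Lt.th, map_der_cst, poly_ev_zero, mul_zero, neg_zero]
  · simp only [Lt.pol', Lt.th, Lt.val, sg, Bool.false_eq_true, if_false, map_der_gen,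
      poly_ev_mul, map_ev_gen, map_ev_cst, mul_neg, neg_neg, conjTranspose_conjTranspose,
      ← mul_assoc, poly_u1 (hx j), one_mul]
  · simp only [Lt.pol', Lt.th, Lt.val, sg, if_true, map_der_gen', poly_ev_neg, poly_ev_mul,
      map_ev_gen', map_ev_cst]

theorem ev_der_pol {x : Ix m → Matrix N N ℂ} (hx : ∀ j, x j ∈ unitaryGroup N ℂ)
    (α : Ix m → Matrix N N ℂ) {w : List (Lt m N)} (hw : ∀ l ∈ w, l.Uni) :
    ((pol w).map (der α)).map (ev x) = th x α w * val x w := by
  induction w with
  | nil => simp only [pol, th, List.map_nil, List.prod_nil, poly_map_der_one, poly_ev_zero, zero_mul]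
  | cons l w ih =>
    have hl := poly_u2 (poly_lt_unitary hx (hw l List.mem_cons_self))
    rw [poly_pol_cons, map_der_mul, poly_ev_add, poly_ev_mul, poly_ev_mul,
      ih fun l' h => hw l' (List.mem_cons_of_mem _ h), poly_ev_der_lt hx, map_ev_pol, poly_ev_lt,
      th, poly_val_cons, add_mul]
    simp only [mul_assoc]
    rw [← mul_assoc (l.val x)ᴴ, hl, one_mul]

theorem ev_der_pol' {x : Ix m → Matrix N N ℂ} (hx : ∀ j, x j ∈ unitaryGroup N ℂ)
    (α : Ix m → Matrix N N ℂ) {w : List (Lt m N)} (hw : ∀ l ∈ w, l.Uni) :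
    ((pol' w).map (der α)).map (ev x) = -((val x w)ᴴ * th x α w) := by
  induction w with
  | nil =>
    simp only [pol', th, List.reverse_nil, List.map_nil, List.prod_nil, poly_map_der_one,
      poly_ev_zero, mul_zero, neg_zero]
  | cons l w ih =>
    have hl := poly_u2 (poly_lt_unitary hx (hw l List.mem_cons_self))
    rw [poly_pol'_cons, map_der_mul, poly_ev_add, poly_ev_mul, poly_ev_mul,
      ih fun l' h => hw l' (List.mem_cons_of_mem _ h), poly_ev_der_lt' hx, map_ev_pol',
      poly_ev_lt', th, poly_val_cons, conjTranspose_mul, mul_add]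
    simp only [mul_assoc]
    rw [← mul_assoc (l.val x)ᴴ (l.val x), hl, one_mul]
    simp only [neg_mul, mul_neg, mul_assoc, neg_add]
    abel

/-- Maurer–Cartan equation (from `map_der_mul`, `der_bracket`, `ev_der_pol`, `ev_der_pol'`). -/
theorem maurer_cartan {x : Ix m → Matrix N N ℂ} (hx : ∀ j, x j ∈ unitaryGroup N ℂ)
    (α β : Ix m → Matrix N N ℂ) {w : List (Lt m N)} (hw : ∀ l ∈ w, l.Uni) :
    (((pol w).map (der β) * pol' w).map (der α)).map (ev x) -
        (((pol w).map (der α) * pol' w).map (der β)).map (ev x) =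
      th x (fun j => β j * α j - α j * β j) w + (th x α w * th x β w - th x β w * th x α w) := by
  have hb : ((pol w).map (der β)).map (der α) - ((pol w).map (der α)).map (der β) =
      (pol w).map (der fun j => β j * α j - α j * β j) := by
    ext i j : 2
    simp only [Matrix.sub_apply, map_apply, der_bracket]
  have hb' := congrArg (fun A => A.map (ev x)) hb
  simp only [poly_ev_sub, ev_der_pol hx _ hw] at hb'
  have hv := poly_u1 (val_mem_unitary hx hw)
  simp only [map_der_mul, poly_ev_add, poly_ev_mul, ev_der_pol hx _ hw, ev_der_pol' hx _ hw,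
    map_ev_pol']
  have e : ∀ a b : Matrix N N ℂ, a * val x w * -((val x w)ᴴ * b) = -(a * b) := fun a b => by
    rw [mul_neg, mul_assoc, ← mul_assoc (val x w), hv, one_mul]
  rw [e, e]
  have h2 := congrArg (fun A => A * (val x w)ᴴ) hb'
  simp only [sub_mul, mul_assoc, hv, mul_one] at h2
  rw [← h2]
  abel

theorem continuous_ev (P : PR m N) : Continuous fun x : Ix m → Matrix N N ℂ => ev x P := by
  induction P using MvPolynomial.induction_on with
  | C a => simp only [ev, aeval_C]; exact continuous_const
  | add p q hp hq => simp only [map_add]; exact hp.add hq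
  | mul_X p v hp =>
    simp only [map_mul]
    refine hp.mul ?_
    obtain ⟨j, a, b, _ | _⟩ := v
    · simp only [ev, aeval_X, Bool.false_eq_true, if_false]
      exact Complex.continuous_conj.comp (by fun_prop)
    · simp only [ev, aeval_X, if_true]
      fun_prop

/-- Chain rule along a curve with `x' = α x`, `α` skew-adjoint (induction on `P`). -/
theorem hasDerivAt_ev {x : ℝ → Ix m → Matrix N N ℂ} {α : Ix m → Matrix N N ℂ} {t : ℝ}
    (hα : ∀ j, (α j)ᴴ = -α j)
    (hx : ∀ j a b, HasDerivAt (fun s => x s j a b) ((α j * x t j) a b) t) (P : PR m N) :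
    HasDerivAt (fun s => ev (x s) P) (ev (x t) (der α P)) t := by
  induction P using MvPolynomial.induction_on with
  | C a =>
    simp only [ev, aeval_C, derivation_C, map_zero]
    exact hasDerivAt_const _ _
  | add p q hp hq => simp only [map_add]; exact hp.add hq
  | mul_X p v hp =>
    have hv : HasDerivAt (fun s => ev (x s) (X v)) (ev (x t) (der α (X v))) t := by
      obtain ⟨j, a, b, _ | _⟩ := v
      · have e : ev (x t) (der α (X (j, a, b, false))) = star ((α j * x t j) a b) := by
          have h1 : ev (x t) ((gen' j * cst (α j) : Matrix N N (PR m N)) b a) =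
              ((gen' j * cst (α j) : Matrix N N (PR m N)).map (ev (x t))) b a := rfl
          rw [poly_der_false, map_neg, h1, poly_ev_mul, map_ev_gen', map_ev_cst,
            ← conjTranspose_apply, conjTranspose_mul, hα, mul_neg, Matrix.neg_apply]
        rw [e]
        simp only [ev, aeval_X, Bool.false_eq_true, if_false]
        exact (hx j a b).star
      · have e : ev (x t) (der α (X (j, a, b, true))) = (α j * x t j) a b := by
          have h1 : ev (x t) ((cst (α j) * gen j : Matrix N N (PR m N)) a b) =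
              ((cst (α j) * gen j : Matrix N N (PR m N)).map (ev (x t))) a b := rfl
          rw [poly_der_true, h1, poly_ev_mul, map_ev_gen, map_ev_cst]
        rw [e]
        simp only [ev, aeval_X, if_true]
        exact hx j a b
    simp only [map_mul, Derivation.leibniz, map_add, smul_eq_mul]
    rw [add_comm, mul_comm (ev (x t) (X v))]
    exact hp.mul hv

/-- The source directions as a linear map. -/
noncomputable def jmL (E : Matrix N N ℂ) : (Fin m → Matrix N N ℂ) →ₗ[ℂ] (Ix m → Matrix N N ℂ) where
  toFun := jm E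
  map_add' a b := by
    funext j
    rcases j with _ | ⟨k, i⟩
    · simp [jm]
    · simp only [jm, Pi.add_apply]
      split_ifs <;> noncomm_ring
  map_smul' c a := by
    funext j
    rcases j with _ | ⟨k, i⟩
    · simp [jm]
    · simp only [jm, Pi.smul_apply, RingHom.id_apply]
      split_ifs <;> simp

/-- The differential as an endomorphism. -/
noncomputable def dif (E : Matrix N N ℂ) (ws : Fin m → List (Lt m N)) (x : Ix m → Matrix N N ℂ) :
    (Fin m → Matrix N N ℂ) →ₗ[ℂ] (Fin m → Matrix N N ℂ) :=
  LinearMap.pi fun k => thL x (full ws k) ∘ₗ jmL E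

theorem dif_apply (E : Matrix N N ℂ) (ws : Fin m → List (Lt m N)) (x : Ix m → Matrix N N ℂ)
    (a : Fin m → Matrix N N ℂ) (k : Fin m) : dif E ws x a k = th x (jm E a) (full ws k) := rfl

theorem uni_full {ws : Fin m → List (Lt m N)} (hws : ∀ k, ∀ l ∈ ws k, l.Adm) (k : Fin m) :
    ∀ l ∈ full ws k, l.Uni := by
  intro l hl
  rcases List.mem_append.1 hl with h | h
  · have := hws k l h
    rcases l with b | ⟨j, ε⟩
    · exact this
    · trivial
  · simp only [List.mem_cons, List.not_mem_nil, or_false] at h
    rcases h with rfl | rfl | rfl <;> trivial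

theorem ev_Jac_apply (E : Matrix N N ℂ) {ws : Fin m → List (Lt m N)}
    (hws : ∀ k, ∀ l ∈ ws k, l.Adm) {x : Ix m → Matrix N N ℂ} (hx : ∀ j, x j ∈ unitaryGroup N ℂ)
    (c b : Fin m × N × N) : ev x (Jac E ws c b) = dif E ws x (bas b) c.1 c.2.1 c.2.2 := by
  have h1 : ev x (Jac E ws c b) =
      (((pol (full ws c.1)).map (der (jm E (bas b))) * pol' (full ws c.1) :
        Matrix N N (PR m N)).map (ev x)) c.2.1 c.2.2 := rfl
  rw [h1, poly_ev_mul, ev_der_pol hx _ (uni_full hws c.1), map_ev_pol', mul_assoc,
    poly_u1 (val_mem_unitary hx (uni_full hws c.1)), mul_one, dif_apply]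

/-- coordinates of a family of matrices -/
def poly_equiv : (Fin m → Matrix N N ℂ) ≃ₗ[ℂ] (Fin m × N × N → ℂ) where
  toFun a c := a c.1 c.2.1 c.2.2
  invFun f k := Matrix.of fun a b => f (k, a, b)
  map_add' _ _ := rfl
  map_smul' _ _ := rfl
  left_inv _ := rfl
  right_inv _ := rfl

/-- `bas` is a basis (build it from `Pi.basis`, `Matrix.stdBasis`, or `Basis.ofEquivFun`) and the
evaluated Jacobian matrix is the matrix of `dif` in it (`LinearMap.det_toMatrix`). -/
theorem ev_det_Jac (E : Matrix N N ℂ) {ws : Fin m → List (Lt m N)}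
    (hws : ∀ k, ∀ l ∈ ws k, l.Adm) {x : Ix m → Matrix N N ℂ} (hx : ∀ j, x j ∈ unitaryGroup N ℂ) :
    ev x (Jac E ws).det = LinearMap.det (dif E ws x) := by
  let B := Module.Basis.ofEquivFun (poly_equiv (m := m) (N := N))
  have hB : ∀ b, B b = bas b := fun ⟨k, a, b⟩ => by
    funext k'
    ext a' b'
    simp only [B, Module.Basis.coe_ofEquivFun, poly_equiv, LinearEquiv.coe_symm_mk, of_apply, bas]
    by_cases hk : k' = k
    · subst hk
      simp only [Pi.single_eq_same, Pi.single_apply, single_apply, Prod.mk.injEq, true_and,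
        eq_comm]
    · simp [Pi.single_apply, hk]
  rw [← LinearMap.det_toMatrix B, AlgHom.map_det]
  congr 1
  ext c b
  rw [LinearMap.toMatrix_apply, hB, AlgHom.mapMatrix_apply, map_apply, ev_Jac_apply E hws hx]
  rfl

theorem ev_Phi (ws : Fin m → List (Lt m N)) (x : Ix m → Matrix N N ℂ) :
    ev x (Phi ws) =
      (((m : ℝ) * Fintype.card N + ∑ k, (val x (full ws k)).trace.re : ℝ) : ℂ) := by
  have h1 : ∀ A : Matrix N N (PR m N), ev x A.trace = (A.map (ev x)).trace := fun A => by
    simp [trace]
  have hC : ∀ c : ℂ, ev x (C c : PR m N) = c := fun c => by simp [ev]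
  simp only [Phi, map_add, map_mul (ev x), hC, map_sum, h1, map_ev_pol, map_ev_pol',
    trace_conjTranspose, Finset.mul_sum]
  push_cast
  congr 1
  refine Finset.sum_congr rfl fun k _ => ?_
  rw [Complex.star_def, Complex.add_conj]
  push_cast
  ring

end Crest.Agent.R174
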