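import Crest.Agent.R174.Words
import Crest.Agent.R174.DetPos

/-! # Row 174: the degree theorem -/

set_option autoImplicit false
set_option linter.unusedSectionVars false

namespace Crest.Agent.R174

open Matrix MeasureTheory

theorem std_integrable {X F : Type} [TopologicalSpace X] [CompactSpace X] [MeasurableSpace X]
    [BorelSpace X] [NormedAddCommGroup F] [SecondCountableTopology F] [MeasurableSpace F]
    [BorelSpace F] (μ : Measure X) [IsFiniteMeasure μ] {f : X → F} (hf : Continuous f) :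
    Integrable f μ :=
  (BoundedContinuousFunction.mkOfCompact ⟨f, hf⟩).integrable μ

theorem std_exists_lt {X : Type} [TopologicalSpace X] {K : Set X} (hK : IsCompact K) {f : X → ℝ}
    (hf : Continuous f) {B : ℝ} (h : ∀ x ∈ K, f x < B) : ∃ a, a < B ∧ ∀ x ∈ K, f x ≤ a := by
  obtain ⟨a, h1, h2⟩ := hK.exists_forall_le' hf.neg.continuousOn (a := -B)
    fun x hx => neg_lt_neg (h x hx)
  exact ⟨-a, by linarith, fun x hx => le_neg.1 (h2 x hx)⟩

/-- Laplace's method.  Suppose `φ' < B` everywhere.  By compactness there is `a < B`, `0 ≤ a`, with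
`φ' ≤ a` everywhere and `φ ≤ a` on `{J₁ ≤ 0}`.  Take `a < b < B`; the open set
`O = {φ > b, J₁ > 0, J₂ > 0}` contains `x₀`, so `η = ∫_O J₁ J₂ > 0` and `η b^M ≤ C a^M` for all `M`. -/
theorem peak {X : Type} [TopologicalSpace X] [CompactSpace X] [MeasurableSpace X] [BorelSpace X]
    (μ : Measure X) [IsFiniteMeasure μ] [μ.IsOpenPosMeasure] {φ φ' J₁ J₂ : X → ℝ} {J' : X → ℂ}
    {B : ℝ} (hφ : Continuous φ) (hφ' : Continuous φ') (hJ₁ : Continuous J₁) (hJ₂ : Continuous J₂)
    (hJ' : Continuous J') (h0 : ∀ x, 0 ≤ φ x) (hB : ∀ x, φ x ≤ B) (h0' : ∀ x, 0 ≤ φ' x)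
    (h2 : ∀ x, 0 ≤ J₂ x) (h1 : ∀ x, φ x = B → 0 < J₁ x) {x₀ : X} (hx₀ : φ x₀ = B) (hx₀' : 0 < J₂ x₀)
    (hI : ∀ M : ℕ, ∫ x, (φ' x : ℂ) ^ M * J' x ∂μ = ((∫ x, φ x ^ M * (J₁ x * J₂ x) ∂μ : ℝ) : ℂ)) :
    ∃ x, B ≤ φ' x := by
  by_contra hne
  simp only [not_exists, not_le] at hne
  have hB0 : 0 < B := (h0' x₀).trans_lt (hne x₀)
  obtain ⟨a₁, ha₁, k₁⟩ := std_exists_lt isCompact_univ hφ' fun x _ => hne x
  obtain ⟨a₂, ha₂, k₂⟩ := std_exists_lt (isClosed_le hJ₁ continuous_const).isCompact hφ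
    (B := B) fun x (hx : J₁ x ≤ 0) => (hB x).lt_of_ne fun e => (h1 x e).not_ge hx
  set a := max a₁ a₂ with ha
  have ha0 : 0 ≤ a := ((h0' x₀).trans (k₁ x₀ trivial)).trans (le_max_left _ _)
  obtain ⟨b, hab, hbB⟩ := exists_between (max_lt ha₁ ha₂ : a < B)
  have hb0 : 0 < b := ha0.trans_lt hab
  set g : X → ℝ := fun x => max 0 (min (φ x - b) (min (J₁ x) (J₁ x * J₂ x))) with hg
  have hgc : Continuous g := by fun_prop
  have hη : 0 < ∫ x, g x ∂μ := by
    refine integral_pos_of_integrable_nonneg_nonzero (x := x₀) hgc (std_integrable μ hgc)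
      (fun x => le_max_left _ _) (ne_of_gt ?_)
    have := h1 x₀ hx₀
    exact lt_max_of_lt_right (lt_min (by linarith) (lt_min this (mul_pos this hx₀')))
  set C : ℝ := ∫ x, ‖J' x‖ ∂μ + ∫ x, |J₁ x * J₂ x| ∂μ with hC
  have hC0 : 0 ≤ C := add_nonneg (integral_nonneg fun _ => norm_nonneg _)
    (integral_nonneg fun _ => abs_nonneg _)
  have key : ∀ M : ℕ, b ^ M * ∫ x, g x ∂μ ≤ a ^ M * C := by
    intro M
    have e1 : ∫ x, φ x ^ M * (J₁ x * J₂ x) ∂μ ≤ a ^ M * ∫ x, ‖J' x‖ ∂μ := by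
      refine (le_abs_self _).trans ?_
      rw [← Real.norm_eq_abs, ← Complex.norm_real, ← hI, ← integral_const_mul]
      refine norm_integral_le_of_norm_le (std_integrable μ (by fun_prop))
        (Filter.Eventually.of_forall fun x => ?_)
      rw [norm_mul, norm_pow, Complex.norm_real, Real.norm_of_nonneg (h0' x)]
      gcongr
      · exact h0' x
      · exact (k₁ x trivial).trans (le_max_left _ _)
    have e2 : b ^ M * ∫ x, g x ∂μ ≤
        ∫ x, φ x ^ M * (J₁ x * J₂ x) ∂μ + a ^ M * ∫ x, |J₁ x * J₂ x| ∂μ := by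
      rw [← integral_const_mul, ← integral_const_mul,
        ← integral_add (std_integrable μ (by fun_prop)) (std_integrable μ (by fun_prop))]
      refine integral_mono (std_integrable μ (by fun_prop)) (std_integrable μ (by fun_prop))
        fun x => ?_
      have p1 : 0 ≤ φ x ^ M := pow_nonneg (h0 x) M
      have p2 : 0 ≤ a ^ M * |J₁ x * J₂ x| := by positivity
      show b ^ M * g x ≤ φ x ^ M * (J₁ x * J₂ x) + a ^ M * |J₁ x * J₂ x|
      rcases le_or_gt (J₁ x) 0 with hx | hx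
      · have hg0 : g x = 0 := max_eq_left ((min_le_right _ _).trans ((min_le_left _ _).trans hx))
        have p3 : φ x ^ M ≤ a ^ M :=
          pow_le_pow_left₀ (h0 x) ((k₂ x hx).trans (le_max_right _ _)) M
        have p4 : J₁ x * J₂ x ≤ 0 := mul_nonpos_of_nonpos_of_nonneg hx (h2 x)
        rw [hg0, abs_of_nonpos p4]
        nlinarith
      · have p4 : 0 ≤ J₁ x * J₂ x := mul_nonneg hx.le (h2 x)
        rcases le_or_gt (φ x) b with hx' | hx'
        · have hg0 : g x = 0 := max_eq_left ((min_le_left _ _).trans (by linarith))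
          rw [hg0, mul_zero]
          positivity
        · have p5 : g x ≤ J₁ x * J₂ x := max_le p4 ((min_le_right _ _).trans (min_le_right _ _))
          have p6 : b ^ M ≤ φ x ^ M := pow_le_pow_left₀ hb0.le hx'.le M
          have p7 := mul_le_mul p6 p5 (le_max_left _ _) p1
          linarith
    rw [hC, mul_add]
    linarith
  obtain ⟨M, hM⟩ := exists_pow_lt_of_lt_one (div_pos hη (by linarith : 0 < C + 1))
    ((div_lt_one hb0).2 hab)
  rw [div_pow, div_lt_div_iff₀ (pow_pos hb0 M) (by linarith)] at hM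
  nlinarith [key M, pow_nonneg ha0 M]

variable {m : ℕ} {N : Type} [Fintype N] [DecidableEq N] {E : Matrix N N ℂ}

theorem abs_re_trace_le {U : Matrix N N ℂ} (hU : U ∈ unitaryGroup N ℂ) :
    |U.trace.re| ≤ Fintype.card N := by
  rw [trace, Complex.re_sum]
  refine (Finset.abs_sum_le_sum_abs _ _).trans ?_
  refine (Finset.sum_le_card_nsmul _ _ 1 fun i _ => ?_).trans (by simp)
  exact (Complex.abs_re_le_norm _).trans (entry_norm_bound_of_unitary hU i i)

theorem eq_one_of_re_trace {U : Matrix N N ℂ} (hU : U ∈ unitaryGroup N ℂ)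
    (h : (Fintype.card N : ℝ) ≤ U.trace.re) : U = 1 := by
  open scoped ComplexOrder in
  have h1 : U.trace.re = Fintype.card N :=
    le_antisymm ((le_abs_self _).trans (abs_re_trace_le hU)) h
  have h2 : Uᴴ * U = 1 := hU.1
  refine sub_eq_zero.1 (trace_conjTranspose_mul_self_eq_zero_iff.1 ?_)
  simp only [conjTranspose_sub, conjTranspose_one, sub_mul, mul_sub, h2, mul_one, one_mul,
    trace_sub, trace_one, trace_conjTranspose]
  apply Complex.ext <;> simp [h1]

theorem std_all_one {F : Fin m → Matrix N N ℂ} (hF : ∀ k, F k ∈ unitaryGroup N ℂ)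
    (h : 2 * ((m : ℝ) * Fintype.card N) ≤ (m : ℝ) * Fintype.card N + ∑ k, (F k).trace.re) (k) :
    F k = 1 := by
  refine eq_one_of_re_trace (hF k) (not_lt.1 fun hk => ?_)
  have := Finset.sum_lt_sum (s := Finset.univ) (f := fun k => (F k).trace.re)
    (g := fun _ => (Fintype.card N : ℝ))
    (fun k _ => (le_abs_self _).trans (abs_re_trace_le (hF k))) ⟨k, Finset.mem_univ k, hk⟩
  simp only [Finset.sum_const, Finset.card_univ, Fintype.card_fin, nsmul_eq_mul] at this
  linarith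

theorem std_bounds {F : Fin m → Matrix N N ℂ} (hF : ∀ k, F k ∈ unitaryGroup N ℂ) :
    0 ≤ (m : ℝ) * Fintype.card N + ∑ k, (F k).trace.re ∧
      (m : ℝ) * Fintype.card N + ∑ k, (F k).trace.re ≤ 2 * ((m : ℝ) * Fintype.card N) := by
  have h : |∑ k, (F k).trace.re| ≤ (m : ℝ) * Fintype.card N := by
    refine (Finset.abs_sum_le_sum_abs _ _).trans ?_
    refine (Finset.sum_le_card_nsmul _ _ _ fun k _ => abs_re_trace_le (hF k)).trans (by simp)
  rw [abs_le] at h
  constructor <;> linarith [h.1, h.2]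

theorem std_adm {l : Lt m N} (h : l.Adm₀) : l.Adm := by
  cases l with
  | c b => exact h
  | v j ε => exact Or.inr h

theorem std_adm₀ (hE : Eᴴ = E) (hEE : E * E = E) (d : ℕ) (k : Fin m) :
    ∀ l ∈ std E d k, l.Adm₀ := by
  intro l hl
  rcases List.mem_append.1 hl with hl | hl
  · obtain rfl := List.eq_of_mem_replicate hl
    exact ⟨k, rfl⟩
  · obtain rfl := List.mem_singleton.1 hl
    refine mem_unitaryGroup_iff.2 ?_
    rw [star_eq_conjTranspose, conjTranspose_sub, conjTranspose_sub, conjTranspose_one, hE]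
    simp only [sub_mul, mul_sub, hEE, one_mul, mul_one]
    abel

theorem std_ex (d : ℕ) (k i : Fin m) :
    ((std E d k).map (Lt.ex i)).sum = if k = i then (d : ℤ) else 0 := by
  simp [std, Lt.ex, sgn]

/-- `II_eq_of_ex` with `std E d`, `ev_Phi`, `ev_det_Jac`, `std_jac` and `peak` with `B = 2 m |N|`. -/
theorem exists_sol (hE : Eᴴ = E) (hEE : E * E = E) {σ : Matrix N N ℂ} (hσ : σ ∈ unitaryGroup N ℂ)
    (hσE : E * σ * E = 0) {ws : Fin m → List (Lt m N)} (hws : ∀ k, ∀ l ∈ ws k, l.Adm₀)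
    {d : ℕ} (hd : 0 < d)
    (h : ∀ k i, ((ws k).map (Lt.ex i)).sum = if k = i then (d : ℤ) else 0) :
    ∃ x : GG m E, ∀ k, val (pt 1 x) (full ws k) = 1 := by
  have hst := std_adm₀ (m := m) hE hEE d
  have ha : ∀ k, ∀ l ∈ ws k, l.Adm := fun k l hl => std_adm (hws k l hl)
  have ha' : ∀ k : Fin m, ∀ l ∈ std E d k, l.Adm := fun k l hl => std_adm (hst k l hl)
  have hp : ∀ (x : GG m E) j, pt 1 x j ∈ unitaryGroup N ℂ := pt_mem_unitary (one_mem _)
  have hu : ∀ (x : GG m E) k, val (pt 1 x) (full ws k) ∈ unitaryGroup N ℂ := fun x k =>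
    val_mem_unitary (hp x) (uni_full ha k)
  have hu' : ∀ (x : GG m E) k, val (pt 1 x) (full (std E d) k) ∈ unitaryGroup N ℂ := fun x k =>
    val_mem_unitary (hp x) (uni_full ha' k)
  have hc : ∀ ws : Fin m → List (Lt m N), Continuous fun x : GG m E =>
      (m : ℝ) * Fintype.card N + ∑ k, (val (pt 1 x) (full ws k)).trace.re := fun ws => by
    refine (Complex.continuous_re.comp (continuous_ev_pt 1 (Phi ws))).congr fun x => ?_
    rw [Function.comp_apply, ev_Phi, Complex.ofReal_re]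
  obtain ⟨J₁, J₂, hJ₁, hJ₂, h2, hdet, h1, x₀, hx₀, hx₀'⟩ := std_jac (m := m) hE hEE hd
  obtain ⟨x, hx⟩ := peak (hm m E) (hc (std E d)) (hc ws) hJ₁ hJ₂
    (continuous_ev_pt 1 (Jac E ws).det) (fun x => (std_bounds (hu' x)).1)
    (fun x => (std_bounds (hu' x)).2) (fun x => (std_bounds (hu x)).1) h2
    (fun x hx => h1 x (std_all_one (hu' x) hx.ge)) (x₀ := x₀) (by simp [hx₀]; ring) hx₀' fun M => by
      have := II_eq_of_ex hE hEE hσ hσE hws hst (fun k i => by rw [h, std_ex]) M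
      simp only [II, map_mul, map_pow, ev_Phi] at this
      rw [this, ← integral_complex_ofReal]
      refine integral_congr_ae (Filter.Eventually.of_forall fun x => ?_)
      simp only [ev_det_Jac E ha' (hp x), hdet]
      push_cast
      rfl
  exact ⟨x, std_all_one (hu x) hx⟩

end Crest.Agent.R174
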