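import Crest.Agent.R174.Homot
import Crest.Agent.R174.House

/-! # Row 174: the degree integral only depends on the exponent matrix -/

set_option autoImplicit false
set_option linter.unusedSectionVars false

namespace Crest.Agent.R174

open Matrix

variable {m : ℕ} {N : Type} [Fintype N] [DecidableEq N] {E : Matrix N N ℂ}

theorem words_val_cons (x : Ix m → Matrix N N ℂ) (l : Lt m N) (w : List (Lt m N)) :
    val x (l :: w) = l.val x * val x w := by simp [val]

theorem words_val_nil (x : Ix m → Matrix N N ℂ) : val x ([] : List (Lt m N)) = 1 := rfl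

theorem words_adm {l : Lt m N} (h : l.Adm₀) : l.Adm := by
  cases l with
  | c b => exact h
  | v j ε => exact Or.inr h

theorem words_val_pt (c c' : Matrix N N ℂ) (x : GG m E) {w : List (Lt m N)}
    (hw : ∀ l ∈ w, l.Adm₀) : val (pt c x) w = val (pt c' x) w := by
  unfold val
  congr 1
  refine List.map_congr_left fun l hl => ?_
  cases l with
  | c b => rfl
  | v j ε =>
    obtain ⟨i, rfl⟩ := hw _ hl
    rfl

/-- A constant may be replaced by any other one: replace the letter by the parameter
(`II_congr`, the other words do not contain it) and use `II_rot`, `unitary_induction` with `W = 0`. -/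
theorem II_const (hE : Eᴴ = E) (hEE : E * E = E) {ws : Fin m → List (Lt m N)}
    (hws : ∀ k, ∀ l ∈ ws k, l.Adm₀) (k : Fin m) {w₁ w₂ : List (Lt m N)}
    (h₁ : ∀ l ∈ w₁, l.Adm₀) (h₂ : ∀ l ∈ w₂, l.Adm₀) {b b' : Matrix N N ℂ}
    (hb : b ∈ unitaryGroup N ℂ) (hb' : b' ∈ unitaryGroup N ℂ) (M : ℕ) :
    II E (Function.update ws k (w₁ ++ .c b :: w₂)) 1 M =
      II E (Function.update ws k (w₁ ++ .c b' :: w₂)) 1 M := by
  have hadm : ∀ k', ∀ l ∈ Function.update ws k (w₁ ++ .v none true :: w₂) k', l.Adm := by
    intro k' l hl
    by_cases hk : k' = k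
    · subst hk
      rw [Function.update_self, List.mem_append, List.mem_cons] at hl
      rcases hl with hl | rfl | hl
      exacts [words_adm (h₁ l hl), Or.inl rfl, words_adm (h₂ l hl)]
    · rw [Function.update_of_ne hk] at hl
      exact words_adm (hws _ l hl)
  have key : ∀ b ∈ unitaryGroup N ℂ, II E (Function.update ws k (w₁ ++ .c b :: w₂)) 1 M =
      II E (Function.update ws k (w₁ ++ .v none true :: w₂)) 1 M := by
    intro b hb
    have e1 : II E (Function.update ws k (w₁ ++ .c b :: w₂)) 1 M =
        II E (Function.update ws k (w₁ ++ .v none true :: w₂)) b M := by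
      refine II_congr hE hEE (fun x k' => ?_) M
      by_cases hk : k' = k
      · subst hk
        rw [Function.update_self, Function.update_self, val_append, val_append, words_val_cons,
          words_val_cons, words_val_pt 1 b x h₁, words_val_pt 1 b x h₂]
        rfl
      · rw [Function.update_of_ne hk, Function.update_of_ne hk]
        exact words_val_pt 1 b x (hws _)
    rw [e1]
    refine unitary_induction (0 : Matrix N Unit ℂ)
      (fun Y => II E (Function.update ws k (w₁ ++ .v none true :: w₂)) Y M =
        II E (Function.update ws k (w₁ ++ .v none true :: w₂)) 1 M) rfl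
      (fun s p Y hp hpp _ hY ih => ?_) hb (by simp)
    rw [II_rot hE hEE hadm hp hpp hY, ih]
  rw [key b hb, key b' hb']

/-- two words give the same integral in every admissible context -/
def words_Eqv (E : Matrix N N ℂ) (M : ℕ) (w w' : List (Lt m N)) : Prop :=
  ∀ ws : Fin m → List (Lt m N), (∀ k, ∀ l ∈ ws k, l.Adm₀) → ∀ (k : Fin m) (w₁ w₂ : List (Lt m N)),
    (∀ l ∈ w₁, l.Adm₀) → (∀ l ∈ w₂, l.Adm₀) →
      II E (Function.update ws k (w₁ ++ w ++ w₂)) 1 M =
        II E (Function.update ws k (w₁ ++ w' ++ w₂)) 1 M

section eqv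
variable {M : ℕ} {w w' w'' : List (Lt m N)}

theorem words_Eqv.refl (w : List (Lt m N)) : words_Eqv E M w w := fun _ _ _ _ _ _ _ => rfl

theorem words_Eqv.symm (h : words_Eqv E M w w') : words_Eqv E M w' w :=
  fun ws hws k w₁ w₂ h₁ h₂ => (h ws hws k w₁ w₂ h₁ h₂).symm

theorem words_Eqv.trans (h : words_Eqv E M w w') (h' : words_Eqv E M w' w'') :
    words_Eqv E M w w'' :=
  fun ws hws k w₁ w₂ h₁ h₂ => (h ws hws k w₁ w₂ h₁ h₂).trans (h' ws hws k w₁ w₂ h₁ h₂)

theorem words_Eqv.ctx (h : words_Eqv E M w w') {u v : List (Lt m N)} (hu : ∀ l ∈ u, l.Adm₀)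
    (hv : ∀ l ∈ v, l.Adm₀) : words_Eqv E M (u ++ w ++ v) (u ++ w' ++ v) := by
  intro ws hws k w₁ w₂ h₁ h₂
  have := h ws hws k (w₁ ++ u) (v ++ w₂) (List.forall_mem_append.2 ⟨h₁, hu⟩)
    (List.forall_mem_append.2 ⟨hv, h₂⟩)
  simpa only [List.append_assoc] using this

theorem words_Eqv.left (h : words_Eqv E M w w') {u : List (Lt m N)} (hu : ∀ l ∈ u, l.Adm₀) :
    words_Eqv E M (u ++ w) (u ++ w') := by
  simpa only [List.append_nil] using h.ctx (v := []) hu (by simp)

theorem words_Eqv.right (h : words_Eqv E M w w') {v : List (Lt m N)} (hv : ∀ l ∈ v, l.Adm₀) :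
    words_Eqv E M (w ++ v) (w' ++ v) := by
  simpa only [List.nil_append] using h.ctx (u := []) (by simp) hv

variable (hE : Eᴴ = E) (hEE : E * E = E)
include hE hEE

theorem words_of_val (h : ∀ x : GG m E, val (pt 1 x) w = val (pt 1 x) w') :
    words_Eqv E M w w' := by
  intro ws _ k w₁ w₂ _ _
  refine II_congr hE hEE (fun x k' => ?_) M
  by_cases hk : k' = k
  · subst hk
    simp only [Function.update_self, val_append, h]
  · rw [Function.update_of_ne hk, Function.update_of_ne hk]

theorem words_const {b : Matrix N N ℂ} (hb : b ∈ unitaryGroup N ℂ) :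
    words_Eqv E M [(.c b : Lt m N)] [] := by
  refine words_Eqv.trans (w' := [.c 1]) (fun ws hws k w₁ w₂ h₁ h₂ => ?_)
    (words_of_val hE hEE fun x => by simp [val, Lt.val])
  simpa only [List.append_assoc, List.singleton_append] using
    II_const hE hEE hws k h₁ h₂ hb (one_mem _) M

theorem words_cancel (i : Fin m) (ε : Bool) :
    words_Eqv E M [(.v (some (i, 0)) ε : Lt m N), .v (some (i, 0)) (!ε)] [] := by
  refine words_of_val hE hEE fun x => ?_
  have h := (x.1 (i, 0)).2
  cases ε
  · simpa [val, Lt.val, sg, pt, star_eq_conjTranspose] using h.1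
  · simpa [val, Lt.val, sg, pt, star_eq_conjTranspose] using h.2

omit hEE in
theorem words_block (x : GG m E) (i : Fin m) (ε : Bool) :
    (sg ε (pt 1 x (some (i, 0))) - 1) * E = sg ε (pt 1 x (some (i, 0))) - 1 ∧
      E * (sg ε (pt 1 x (some (i, 0))) - 1) = sg ε (pt 1 x (some (i, 0))) - 1 := by
  have hu := (x.1 (i, 0)).2
  have h1 : (x.1 (i, 0) : Matrix N N ℂ) * (1 - E) = 1 - E := (x.2 i).1
  set a : Matrix N N ℂ := (x.1 (i, 0) : Matrix N N ℂ) with ha
  have h2 : aᴴ * (1 - E) = 1 - E := by
    conv_lhs => rw [← h1, ← mul_assoc, ← star_eq_conjTranspose, hu.1, one_mul]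
  have h3 : (1 - E) * aᴴ = 1 - E := by
    have := congrArg conjTranspose h1
    rwa [conjTranspose_mul, conjTranspose_sub, conjTranspose_one, hE] at this
  have h4 : (1 - E) * a = 1 - E := by
    have := congrArg conjTranspose h2
    rwa [conjTranspose_mul, conjTranspose_sub, conjTranspose_one, hE,
      conjTranspose_conjTranspose] at this
  have key : ∀ b : Matrix N N ℂ, b * (1 - E) = 1 - E → (1 - E) * b = 1 - E →
      (b - 1) * E = b - 1 ∧ E * (b - 1) = b - 1 := by
    intro b hb hb'
    constructor
    · calc (b - 1) * E = b - 1 - (b * (1 - E) - (1 - E)) := by noncomm_ring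
        _ = _ := by rw [hb, sub_self, sub_zero]
    · calc E * (b - 1) = b - 1 - ((1 - E) * b - (1 - E)) := by noncomm_ring
        _ = _ := by rw [hb', sub_self, sub_zero]
  cases ε
  · exact key _ h2 h3
  · exact key _ h1 h4

variable {σ : Matrix N N ℂ} (hσ : σ ∈ unitaryGroup N ℂ) (hσE : E * σ * E = 0)
include hσ hσE

theorem words_swap {a a' : Lt m N} (ha : a.Adm₀) (ha' : a'.Adm₀) :
    words_Eqv E M [a, a'] [a', a] := by
  cases a with
  | c b =>
    exact ((words_const hE hEE ha).right (v := [a']) (by simpa using ha')).trans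
      ((words_const hE hEE ha).left (u := [a']) (by simpa using ha')).symm
  | v j ε =>
    cases a' with
    | c b =>
      exact ((words_const hE hEE ha').left (u := [.v j ε]) (by simpa using ha)).trans
        ((words_const hE hEE ha').right (v := [.v j ε]) (by simpa using ha)).symm
    | v j' ε' =>
      have hσ' : σᴴ ∈ unitaryGroup N ℂ := Unitary.star_mem hσ
      have hc' : (Lt.c σᴴ : Lt m N).Adm₀ := hσ'
      have s1 : words_Eqv E M [.v j ε, .c σ, .v j' ε', .c σᴴ] [.v j ε, .v j' ε'] :=
        ((words_const hE hEE hσ).ctx (u := [.v j ε]) (v := [.v j' ε', .c σᴴ]) (by simpa using ha)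
          (by simpa using ⟨ha', hc'⟩)).trans
          ((words_const hE hEE hσ').left (u := [.v j ε, .v j' ε']) (by simpa using ⟨ha, ha'⟩))
      have s2 : words_Eqv E M [.c σ, .v j' ε', .c σᴴ, .v j ε] [.v j' ε', .v j ε] :=
        ((words_const hE hEE hσ).right (v := [.v j' ε', .c σᴴ, .v j ε])
          (by simpa using ⟨ha', hc', ha⟩)).trans
          ((words_const hE hEE hσ').ctx (u := [.v j' ε']) (v := [.v j ε]) (by simpa using ha')
            (by simpa using ha))
      refine s1.symm.trans (words_Eqv.trans (words_of_val hE hEE fun x => ?_) s2)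
      obtain ⟨i, rfl⟩ := ha
      obtain ⟨i', rfl⟩ := ha'
      obtain ⟨b1, b2⟩ := words_block hE x i ε
      obtain ⟨b3, b4⟩ := words_block hE x i' ε'
      simp only [words_val_cons, words_val_nil, Lt.val, mul_one]
      generalize sg ε (pt 1 x (some (i, 0))) = a at *
      generalize sg ε' (pt 1 x (some (i', 0))) = a' at *
      have hσE' : E * σᴴ * E = 0 := by
        have := congrArg conjTranspose hσE
        rwa [conjTranspose_mul, conjTranspose_mul, hE, conjTranspose_zero, ← mul_assoc] at this
      have hσσ : σ * σᴴ = 1 := hσ.2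
      have e1 : (a - 1) * σ * (a' - 1) = 0 := by
        calc (a - 1) * σ * (a' - 1) = ((a - 1) * E) * σ * (E * (a' - 1)) := by rw [b1, b4]
          _ = (a - 1) * (E * σ * E) * (a' - 1) := by noncomm_ring
          _ = 0 := by rw [hσE]; simp
      have e2 : (a' - 1) * σᴴ * (a - 1) = 0 := by
        calc (a' - 1) * σᴴ * (a - 1) = ((a' - 1) * E) * σᴴ * (E * (a - 1)) := by rw [b3, b2]
          _ = (a' - 1) * (E * σᴴ * E) * (a - 1) := by noncomm_ring
          _ = 0 := by rw [hσE']; simp
      calc a * (σ * (a' * σᴴ)) = (a - 1) * σ * (a' - 1) * σᴴ + (a - 1) * (σ * σᴴ) +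
            σ * a' * σᴴ := by noncomm_ring
        _ = σ * ((a' - 1) * σᴴ * (a - 1)) + (σ * σᴴ) * (a - 1) + σ * a' * σᴴ := by
            rw [e1, e2, hσσ]; simp
        _ = σ * (a' * (σᴴ * a)) := by noncomm_ring

theorem words_perm (h : w.Perm w') (hw : ∀ l ∈ w, l.Adm₀) : words_Eqv E M w w' := by
  induction h with
  | nil => exact words_Eqv.refl _
  | cons a _ ih =>
    exact (ih fun l hl => hw l (List.mem_cons_of_mem _ hl)).left (u := [a])
      (by simpa using hw a List.mem_cons_self)
  | swap a b l =>
    exact (words_swap hE hEE hσ hσE (hw b (by simp)) (hw a (by simp))).right (v := l)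
      fun c hc => hw c (by simp [hc])
  | trans h1 _ ih1 ih2 => exact (ih1 hw).trans (ih2 fun l hl => hw l (h1.mem_iff.2 hl))

theorem words_nil (n : ℕ) : ∀ w : List (Lt m N), w.length ≤ n → (∀ l ∈ w, l.Adm₀) →
    (∀ i, (w.map (Lt.ex i)).sum = 0) → words_Eqv E M w [] := by
  induction n with
  | zero =>
    intro w hl _ _
    rw [List.length_eq_zero_iff.1 (Nat.le_zero.1 hl)]
    exact words_Eqv.refl _
  | succ n ih =>
    intro w hl hw hex
    cases w with
    | nil => exact words_Eqv.refl _
    | cons a w =>
      have hw' : ∀ l ∈ w, l.Adm₀ := fun l hl => hw l (List.mem_cons_of_mem _ hl)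
      have ha := hw a List.mem_cons_self
      rw [List.length_cons] at hl
      cases a with
      | c b =>
        refine ((words_const hE hEE ha).right hw').trans (ih w (by omega) hw' fun i => ?_)
        simpa [Lt.ex] using hex i
      | v j ε =>
        obtain ⟨i, rfl⟩ := ha
        have hmem : (.v (some (i, 0)) (!ε) : Lt m N) ∈ w := by
          by_contra hn
          have h1 : 0 ≤ ((w.map (Lt.ex i)).map (sgn ε * ·)).sum := by
            refine List.sum_nonneg fun y hy => ?_
            simp only [List.mem_map] at hy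
            obtain ⟨_, ⟨l, hl, rfl⟩, rfl⟩ := hy
            cases l with
            | c b => simp [Lt.ex]
            | v j' ε' =>
              simp only [Lt.ex]
              split_ifs with hj
              · subst hj
                cases ε <;> cases ε' <;> first | exact (hn hl).elim | simp [sgn]
              · simp
          have h2 := hex i
          rw [List.sum_map_mul_left, List.map_id'] at h1
          simp only [List.map_cons, List.sum_cons, Lt.ex, if_true] at h2
          rw [eq_neg_of_add_eq_zero_right h2] at h1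
          cases ε <;> simp [sgn] at h1
        obtain ⟨s, t, rfl⟩ := List.append_of_mem hmem
        have hst : ∀ l ∈ s ++ t, l.Adm₀ := fun l hl => hw' l (by
          rw [List.mem_append] at hl ⊢
          exact hl.imp_right (List.mem_cons_of_mem _))
        refine (words_perm hE hEE hσ hσE (List.perm_middle.cons _) hw).trans
          (((words_cancel hE hEE i ε).right hst).trans (ih (s ++ t) ?_ hst fun i' => ?_))
        · simp only [List.length_append, List.length_cons] at hl ⊢
          omega
        · have := hex i'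
          simp only [List.map_cons, List.map_append, List.sum_cons, List.sum_append, Lt.ex]
            at this ⊢
          split_ifs at this
          · cases ε <;> simp only [sgn, Bool.not_true, Bool.not_false, Bool.false_eq_true,
              if_true, if_false] at this <;> omega
          · omega

theorem words_of_ex (hw : ∀ l ∈ w, l.Adm₀) (hw' : ∀ l ∈ w', l.Adm₀)
    (h : ∀ i, (w.map (Lt.ex i)).sum = (w'.map (Lt.ex i)).sum) : words_Eqv E M w w' := by
  let fl : Lt m N → Lt m N := fun l => match l with
    | .c b => .c b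
    | .v j ε => .v j (!ε)
  have hfl : ∀ l ∈ w'.map fl, l.Adm₀ := by
    intro l hl
    obtain ⟨l, hl', rfl⟩ := List.mem_map.1 hl
    have := hw' l hl'
    cases l <;> exact this
  have hex : ∀ i, ((w'.map fl).map (Lt.ex i)).sum = -(w'.map (Lt.ex i)).sum := by
    intro i
    rw [List.sum_neg, List.map_map, List.map_map]
    congr 1
    refine List.map_congr_left fun l _ => ?_
    cases l with
    | c b => simp [fl, Lt.ex]
    | v j ε =>
      simp only [fl, Lt.ex, Function.comp_apply]
      split_ifs
      · cases ε <;> simp [sgn]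
      · simp
  have h1 : words_Eqv E M (w'.map fl ++ w') [] :=
    words_nil hE hEE hσ hσE _ _ le_rfl (List.forall_mem_append.2 ⟨hfl, hw'⟩) fun i => by
      rw [List.map_append, List.sum_append, hex, neg_add_cancel]
  have h2 : words_Eqv E M (w ++ w'.map fl) [] :=
    words_nil hE hEE hσ hσE _ _ le_rfl (List.forall_mem_append.2 ⟨hw, hfl⟩) fun i => by
      rw [List.map_append, List.sum_append, hex, h, add_neg_cancel]
  have h3 := h1.left hw
  have h4 := h2.right hw'
  rw [List.append_nil, ← List.append_assoc] at h3
  exact h3.symm.trans h4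

end eqv

/-- Call two admissible words equivalent if they give the same integral in every admissible context
`update ws k (w₁ ++ · ++ w₂)`.  Constants are equivalent to the empty word (`II_const`, `II_congr`),
`t t†` is equivalent to the empty word, and two variable letters `a, a'` commute:
`a a' ~ a σ a' σ†`, which has the same values as `σ a' σ† a ~ a' a`, because `a - 1 = E (a - 1) E`
and `σ a' σ† - 1` is supported on `σ E σ†`, orthogonal to `E`.  So a word is equivalent to
any word with the same exponents.  Change the words `ws k` one at a time. -/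
theorem II_eq_of_ex (hE : Eᴴ = E) (hEE : E * E = E) {σ : Matrix N N ℂ} (hσ : σ ∈ unitaryGroup N ℂ)
    (hσE : E * σ * E = 0) {ws ws' : Fin m → List (Lt m N)}
    (hws : ∀ k, ∀ l ∈ ws k, l.Adm₀) (hws' : ∀ k, ∀ l ∈ ws' k, l.Adm₀)
    (h : ∀ k i, ((ws k).map (Lt.ex i)).sum = ((ws' k).map (Lt.ex i)).sum) (M : ℕ) :
    II E ws 1 M = II E ws' 1 M := by
  have key : ∀ s : Finset (Fin m), II E ws 1 M = II E (s.piecewise ws' ws) 1 M := by
    intro s
    induction s using Finset.induction_on with
    | empty => rw [Finset.piecewise_empty]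
    | insert j s hj ih =>
      have hadm : ∀ k, ∀ l ∈ s.piecewise ws' ws k, l.Adm₀ := by
        intro k
        by_cases hk : k ∈ s
        · rw [Finset.piecewise_eq_of_mem _ _ _ hk]; exact hws' k
        · rw [Finset.piecewise_eq_of_notMem _ _ _ hk]; exact hws k
      have := words_of_ex (M := M) hE hEE hσ hσE (hws j) (hws' j) (h j) _ hadm j [] []
        (by simp) (by simp)
      simp only [List.nil_append, List.append_nil] at this
      rw [Finset.piecewise_insert, ← this, ih, ← Finset.piecewise_eq_of_notMem s ws' ws hj,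
        Function.update_eq_self]
  rw [key Finset.univ, Finset.piecewise_univ]

end Crest.Agent.R174
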